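import Crest.Agent.R244.Iface

/-!
# R244 / ADefs : definitions for part `A` (no conjugate points)

Neck metric `dt² + g_t`, `g_t(z,z) = (z₁ - σ z₂)²/a + z₂²/b` (`a = α⁻²`, `b = β⁻²`), inverse form
`Q_t(p,p) = a p₁² + b (p₂ + σ p₁)²`.  Along a geodesic `(t, x)` the momentum `p = g ẋ` is constant and
`t'' = -½ Q₁(p,p)`; along a Jacobi field `(y, z)` the variation `π = g z' + y g₁ ẋ` of the momentum is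
constant.  `SolAt` is the resulting first order system.  The function `GG` of the state increases along
solutions (`AGerm`), it is `W = ½ (|J|²)'` outside `0 < t < 3` and vanishes where `J` vanishes.
-/

set_option autoImplicit false

noncomputable section

open scoped ContDiff Manifold Topology
open Set

namespace Crest.Agent.R244

/-- profile functions with their first and second derivatives -/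
structure Prof where
  a : ℝ → ℝ
  a1 : ℝ → ℝ
  a2 : ℝ → ℝ
  b : ℝ → ℝ
  b1 : ℝ → ℝ
  b2 : ℝ → ℝ
  σ : ℝ → ℝ
  σ1 : ℝ → ℝ
  σ2 : ℝ → ℝ

/-- the state: geodesic `(t, τ, p)`, Jacobi field `(y, v, z, π)` -/
structure St where
  t : ℝ
  τ : ℝ
  y : ℝ
  v : ℝ
  z : ℝ × ℝ
  p : ℝ × ℝ
  π : ℝ × ℝ

/-- the profile of the warping functions -/
def profOf (α β σ : ℝ → ℝ) : Prof where
  a := fun r => 1 / α r ^ 2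
  a1 := deriv fun r => 1 / α r ^ 2
  a2 := deriv (deriv fun r => 1 / α r ^ 2)
  b := fun r => 1 / β r ^ 2
  b1 := deriv fun r => 1 / β r ^ 2
  b2 := deriv (deriv fun r => 1 / β r ^ 2)
  σ := σ
  σ1 := deriv σ
  σ2 := deriv (deriv σ)

def e1 : ℝ × ℝ := (1, 0)
def e2 : ℝ × ℝ := (0, 1)
/-- the covector used where `Q₁(p,p) > 0` -/
def nL : ℝ × ℝ := (0, 1)
/-- the covector used where `Q₁(p,p) ≤ 0` -/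
def nR : ℝ × ℝ := (1, -1)

/-- time reversal -/
def St.rev (X : St) : St := ⟨X.t, -X.τ, X.y, -X.v, X.z, -X.p, -X.π⟩

namespace Prof

variable (F : Prof)

/-- the inverse metric on covectors -/
def Q (r : ℝ) (p q : ℝ × ℝ) : ℝ :=
  F.a r * p.1 * q.1 + F.b r * (p.2 + F.σ r * p.1) * (q.2 + F.σ r * q.1)

/-- its `r`-derivative -/
def Q1 (r : ℝ) (p q : ℝ × ℝ) : ℝ :=
  F.a1 r * p.1 * q.1 + F.b1 r * (p.2 + F.σ r * p.1) * (q.2 + F.σ r * q.1) +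
    F.b r * F.σ1 r * (p.1 * (q.2 + F.σ r * q.1) + (p.2 + F.σ r * p.1) * q.1)

/-- its second `r`-derivative -/
def Q2 (r : ℝ) (p q : ℝ × ℝ) : ℝ :=
  F.a2 r * p.1 * q.1 + F.b2 r * (p.2 + F.σ r * p.1) * (q.2 + F.σ r * q.1) +
    (2 * F.b1 r * F.σ1 r + F.b r * F.σ2 r) *
      (p.1 * (q.2 + F.σ r * q.1) + (p.2 + F.σ r * p.1) * q.1) +
    2 * F.b r * F.σ1 r ^ 2 * p.1 * q.1

/-- the metric on vectors -/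
def g0 (r : ℝ) (z w : ℝ × ℝ) : ℝ :=
  (z.1 - F.σ r * z.2) * (w.1 - F.σ r * w.2) / F.a r + z.2 * w.2 / F.b r

/-- its `r`-derivative -/
def g1 (r : ℝ) (z w : ℝ × ℝ) : ℝ :=
  -(F.a1 r / F.a r ^ 2) * (z.1 - F.σ r * z.2) * (w.1 - F.σ r * w.2) -
    F.σ1 r / F.a r * (z.2 * (w.1 - F.σ r * w.2) + (z.1 - F.σ r * z.2) * w.2) -
    F.b1 r / F.b r ^ 2 * z.2 * w.2

/-- its second `r`-derivative -/
def g2 (r : ℝ) (z w : ℝ × ℝ) : ℝ :=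
  (2 * F.a1 r ^ 2 / F.a r ^ 3 - F.a2 r / F.a r ^ 2) * (z.1 - F.σ r * z.2) * (w.1 - F.σ r * w.2) +
    (2 * F.a1 r * F.σ1 r / F.a r ^ 2 - F.σ2 r / F.a r) *
      (z.2 * (w.1 - F.σ r * w.2) + (z.1 - F.σ r * z.2) * w.2) +
    (2 * F.σ1 r ^ 2 / F.a r + 2 * F.b1 r ^ 2 / F.b r ^ 3 - F.b2 r / F.b r ^ 2) * z.2 * w.2

/-- regularity -/
structure Reg : Prop where
  da : ∀ r, HasDerivAt F.a (F.a1 r) r
  da1 : ∀ r, HasDerivAt F.a1 (F.a2 r) r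
  db : ∀ r, HasDerivAt F.b (F.b1 r) r
  db1 : ∀ r, HasDerivAt F.b1 (F.b2 r) r
  dσ : ∀ r, HasDerivAt F.σ (F.σ1 r) r
  dσ1 : ∀ r, HasDerivAt F.σ1 (F.σ2 r) r
  ca2 : Continuous F.a2
  cb2 : Continuous F.b2
  cσ2 : Continuous F.σ2
  apos : ∀ r, 0 < F.a r
  bpos : ∀ r, 0 < F.b r

/-- `ẋ = Q p` -/
def xd (X : St) : ℝ × ℝ := (F.Q X.t X.p e1, F.Q X.t X.p e2)

/-- `z' = Q π + y Q₁ p` -/
def zd (X : St) : ℝ × ℝ :=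
  (F.Q X.t X.π e1 + F.Q1 X.t X.p e1 * X.y, F.Q X.t X.π e2 + F.Q1 X.t X.p e2 * X.y)

/-- the first order system at the parameter `s` -/
structure SolAt (X : ℝ → St) (s : ℝ) : Prop where
  t : HasDerivAt (fun s => (X s).t) (X s).τ s
  τ : HasDerivAt (fun s => (X s).τ) (-(F.Q1 (X s).t (X s).p (X s).p) / 2) s
  y : HasDerivAt (fun s => (X s).y) (X s).v s
  v : HasDerivAt (fun s => (X s).v)
    (-(F.Q2 (X s).t (X s).p (X s).p) * (X s).y / 2 - F.Q1 (X s).t (X s).p (X s).π) s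
  z : HasDerivAt (fun s => (X s).z) (F.zd (X s)) s
  p : HasDerivAt (fun s => (X s).p) 0 s
  π : HasDerivAt (fun s => (X s).π) 0 s

/-- the state of a curve `c` and a field `j` in neck coordinates -/
def stateOf (c j : ℝ → E 3) (s : ℝ) : St where
  t := c s 0
  τ := deriv c s 0
  y := j s 0
  v := deriv j s 0
  z := (j s 1, j s 2)
  p := (F.g0 (c s 0) (deriv c s 1, deriv c s 2) e1, F.g0 (c s 0) (deriv c s 1, deriv c s 2) e2)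
  π := (F.g0 (c s 0) (deriv j s 1, deriv j s 2) e1 +
      j s 0 * F.g1 (c s 0) (deriv c s 1, deriv c s 2) e1,
    F.g0 (c s 0) (deriv j s 1, deriv j s 2) e2 +
      j s 0 * F.g1 (c s 0) (deriv c s 1, deriv c s 2) e2)

def Om (X : St) : ℝ := X.y * X.v + X.π.1 * X.z.1 + X.π.2 * X.z.2
def DOm (X : St) : ℝ := X.v ^ 2 - F.Q2 X.t X.p X.p * X.y ^ 2 / 2 + F.Q X.t X.π X.π
/-- `|J|²` -/
def Nn (X : St) : ℝ := X.y ^ 2 + F.g0 X.t X.z X.z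
/-- `½ (|J|²)'` -/
def W (X : St) : ℝ := Om X + X.τ / 2 * F.g1 X.t X.z X.z - X.y * F.g1 X.t X.z (F.xd X)
def DW (X : St) : ℝ :=
  F.DOm X - F.Q1 X.t X.p X.p / 4 * F.g1 X.t X.z X.z + X.τ ^ 2 / 2 * F.g2 X.t X.z X.z +
    X.τ * F.g1 X.t (F.zd X) X.z - X.v * F.g1 X.t X.z (F.xd X) -
    X.y * (X.τ * F.g2 X.t X.z (F.xd X) + F.g1 X.t (F.zd X) (F.xd X) +
      X.τ * F.g1 X.t X.z (F.Q1 X.t X.p e1, F.Q1 X.t X.p e2))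
def E0 (X : St) : ℝ := X.v ^ 2 + F.Q X.t X.π X.π

def Psi (m : ℝ × ℝ) (X : St) : ℝ := X.τ ^ 2 * F.Q X.t m m + F.Q X.t X.p m ^ 2
def Psi1 (m : ℝ × ℝ) (X : St) : ℝ :=
  X.τ ^ 2 * F.Q1 X.t m m - F.Q1 X.t X.p X.p * F.Q X.t m m + 2 * F.Q X.t X.p m * F.Q1 X.t X.p m
def kap (m : ℝ × ℝ) (X : St) : ℝ := F.Q1 X.t X.p X.p / (2 * F.Psi m X)
def eta (m : ℝ × ℝ) (X : St) : ℝ := m.1 * X.z.1 + m.2 * X.z.2
def NN (m : ℝ × ℝ) (X : St) : ℝ := X.τ * eta m X - F.Q X.t X.p m * X.y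
def Th (m : ℝ × ℝ) (X : St) : ℝ :=
  X.τ * F.Q X.t m m * X.y ^ 2 - X.τ * eta m X ^ 2 + 2 * F.Q X.t X.p m * X.y * eta m X
def Wt (m : ℝ × ℝ) (X : St) : ℝ := Om X + F.kap m X * F.Th m X
def DWt (m : ℝ × ℝ) (X : St) : ℝ :=
  (X.v + F.kap m X * (X.τ * F.Q X.t m m * X.y + F.Q X.t X.p m * eta m X)) ^ 2 +
    F.Q X.t (X.π - (F.kap m X * F.NN m X) • m) (X.π - (F.kap m X * F.NN m X) • m) -
    (F.Q2 X.t X.p X.p * F.Psi m X - F.Q1 X.t X.p X.p * F.Psi1 m X) / (2 * F.Psi m X ^ 2) *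
      F.NN m X ^ 2

open Classical in
/-- the monotone quantity -/
def GG (X : St) : ℝ :=
  if 0 < X.t ∧ X.t < 3 then (if 0 < F.Q1 X.t X.p X.p then F.Wt nL X else F.Wt nR X) else F.W X

/-- the pointwise inequalities satisfied by the explicit profile -/
structure Ineq : Prop where
  L0 : ∀ r ≤ 0, F.a1 r = 0 ∧ F.a2 r = 0 ∧ 2 * F.b r * F.b2 r ≤ 3 * F.b1 r ^ 2
  R3 : ∀ r, 3 ≤ r → F.b1 r = 0 ∧ F.b2 r = 0 ∧ 2 * F.a r * F.a2 r ≤ 3 * F.a1 r ^ 2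
  σL : ∀ r ≤ 5 / 4, F.σ r = 0 ∧ F.σ1 r = 0 ∧ F.σ2 r = 0
  σR : ∀ r, 7 / 4 ≤ r → F.σ r = 1 ∧ F.σ1 r = 0 ∧ F.σ2 r = 0
  σ01 : ∀ r, 0 ≤ F.σ r ∧ F.σ r ≤ 1 ∧ 0 ≤ F.σ1 r
  sgn : ∀ r ∈ Icc (0 : ℝ) 3, F.a1 r ≤ 0 ∧ F.a2 r ≤ 0 ∧ 0 ≤ F.b1 r ∧ F.b2 r ≤ 0
  I3 : ∀ r ∈ Icc (5 / 4 : ℝ) (7 / 4), 4 * F.b r * F.σ1 r ^ 2 ≤ -F.a2 r ∧
    2 * (2 * F.b1 r * F.σ1 r + F.b r * F.σ2 r) ^ 2 ≤ F.a2 r * F.b2 r
  I4 : ∀ r ∈ Icc (0 : ℝ) 3, 1000 * F.b r ≤ F.a r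
  I5 : ∀ r ∈ Icc (0 : ℝ) (7 / 4), 5 * -F.a1 r * F.b r ^ 2 ≤ F.b1 r * F.a r ^ 2
  I6 : ∀ r ∈ Icc (5 / 4 : ℝ) (7 / 4), 5 * F.b1 r ≤ 2 * -F.a1 r
  I7 : ∀ r ∈ Icc (0 : ℝ) (5 / 4), 2 * -F.a1 r ≤ 5 * -F.a2 r ∧ 7 * F.b1 r ≤ F.a r

/-- what the monotonicity argument uses -/
structure Good : Prop where
  L0 : ∀ r ≤ 0, F.a1 r = 0 ∧ F.a2 r = 0 ∧ F.σ r = 0 ∧ F.σ1 r = 0 ∧ F.σ2 r = 0 ∧
    2 * F.b r * F.b2 r ≤ 3 * F.b1 r ^ 2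
  R3 : ∀ r, 3 ≤ r → F.b1 r = 0 ∧ F.b2 r = 0 ∧ F.σ r = 1 ∧ F.σ1 r = 0 ∧ F.σ2 r = 0 ∧
    2 * F.a r * F.a2 r ≤ 3 * F.a1 r ^ 2
  sgn : ∀ r ∈ Icc (0 : ℝ) 3, F.a1 r ≤ 0 ∧ 0 ≤ F.b1 r
  V2 : ∀ r ∈ Icc (0 : ℝ) 3, ∀ p, F.Q2 r p p ≤ 0
  H4a : ∀ X : St, X.t ∈ Icc (0 : ℝ) 3 → F.Q1 X.t X.p X.p ≤ 0 →
    F.Q2 X.t X.p X.p * F.Psi nR X ≤ F.Q1 X.t X.p X.p * F.Psi1 nR X
  H4b : ∀ X : St, X.t ∈ Icc (0 : ℝ) 3 → F.Q1 X.t X.p X.p < 0 → 0 < F.Psi nR X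

end Prof

/-- `f` jumps up at `s₀` (or is continuous) to a differentiable increasing germ `H`, whose derivative
at `s₀` is `e` if `P` holds -/
def RG (f : ℝ → ℝ) (s₀ e : ℝ) (P : Prop) : Prop :=
  ∃ H H' : ℝ → ℝ, (∀ᶠ s in 𝓝[≥] s₀, HasDerivAt H (H' s) s ∧ 0 ≤ H' s) ∧ f s₀ ≤ H s₀ ∧
    (∀ᶠ s in 𝓝[>] s₀, f s = H s) ∧ (P → H' s₀ = e)

end Crest.Agent.R244
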