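import Crest.Agent.R244.AId2

/-!
# R244 / AGerm1 : real analysis lemmas for the monotonicity argument

`RG.right`: `H` is monotone on some `[s₀, s₀+ε]` (`monotoneOn_of_deriv_nonneg`).
`RG.eq_zero`: `H = 0` on the right of `s₀`, `H` is continuous at `s₀`, so `H s₀ = 0` and the right
derivative of `H` at `s₀` is `0` (`HasDerivAt.hasDerivWithinAt`, `uniqueDiffWithinAt_Ioi/Ici`).
`mono_of_local`: for `a < b` let `c = sSup {s ∈ [a,b] | ∀ t ∈ [a,s], f a ≤ f t}`…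
`SolAt.p_const`: `p' = 0` near `s₀` (`IsOpen.is_const_of_deriv_eq_zero`, or
`constant_of_has_deriv_right_zero` on a ball, componentwise).
`SolAt.stationary`: near `s₀`, `p = p₀` and `(t, τ)` solves `(t,τ)' = (τ, -Q1 t p₀ p₀ / 2)`, a `C¹` field
(`Reg.hasDerivAt_Q1`, continuity of `Q2` in `r`; `contDiff_one_iff_deriv`), as does the constant
`(t₀, 0)`: `ODE_solution_unique_of_eventually` with `ContDiffAt.exists_lipschitzOnWith`.
`SolAt.up`: if `τ₀ > 0` use `t' > 0` near `s₀`; if `τ₀ = 0` and `τ'(s₀) = -V1/2 > 0` then `τ > 0` on the right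
of `s₀`; in both cases `t` is strictly increasing on some `[s₀, s₀+ε]`.  `down` likewise.
-/

set_option autoImplicit false

noncomputable section

open scoped Topology
open Set

namespace Crest.Agent.R244

theorem RG.right {f : ℝ → ℝ} {s₀ e : ℝ} {P : Prop} (h : RG f s₀ e P) :
    ∀ᶠ s in 𝓝[>] s₀, f s₀ ≤ f s := by
  obtain ⟨H, H', hH, h0, he, -⟩ := h
  obtain ⟨u, hu, hsub⟩ := mem_nhdsGE_iff_exists_Icc_subset.1 hH
  have hm : MonotoneOn H (Icc s₀ u) := by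
    refine monotoneOn_of_deriv_nonneg (convex_Icc _ _)
      (fun s hs => (hsub hs).1.continuousAt.continuousWithinAt)
      (fun s hs => (hsub (interior_subset hs)).1.differentiableAt.differentiableWithinAt) ?_
    intro s hs
    have := hsub (interior_subset hs)
    rw [this.1.deriv]
    exact this.2
  filter_upwards [he, Ioo_mem_nhdsGT hu] with s h1 h2
  rw [h1]
  exact h0.trans (hm ⟨le_rfl, hu.le⟩ ⟨h2.1.le, h2.2.le⟩ h2.1.le)

theorem RG.eq_zero {f : ℝ → ℝ} {s₀ e : ℝ} {P : Prop} (h : RG f s₀ e P) (hP : P)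
    (h0 : ∀ᶠ s in 𝓝[>] s₀, f s = 0) : e = 0 := by
  obtain ⟨H, H', hH, -, he, hP'⟩ := h
  have hd : HasDerivAt H (H' s₀) s₀ := (hH.self_of_nhdsWithin (mem_Ici.2 le_rfl)).1
  have hz : H =ᶠ[𝓝[>] s₀] fun _ => 0 := by
    filter_upwards [he, h0] with s h1 h2
    rw [← h1, h2]
  have h1 : H s₀ = 0 :=
    tendsto_nhds_unique_of_eventuallyEq (hd.continuousAt.tendsto.mono_left nhdsWithin_le_nhds)
      tendsto_const_nhds hz
  have h2 : HasDerivWithinAt H 0 (Ioi s₀) s₀ :=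
    (hasDerivWithinAt_const s₀ (Ioi s₀) (0 : ℝ)).congr_of_eventuallyEq hz h1
  rw [← hP' hP]
  exact (uniqueDiffWithinAt_Ioi s₀).eq_deriv _ hd.hasDerivWithinAt h2

theorem RG.congr {f f' : ℝ → ℝ} {s₀ e : ℝ} {P : Prop} (h : RG f s₀ e P)
    (hf : ∀ᶠ s in 𝓝 s₀, f' s = f s) : RG f' s₀ e P := by
  obtain ⟨H, H', hH, h0, he, hP⟩ := h
  refine ⟨H, H', hH, hf.self_of_nhds ▸ h0, ?_, hP⟩
  filter_upwards [he, hf.filter_mono nhdsWithin_le_nhds] with s h1 h2
  rw [h2, h1]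

theorem mono_of_local {f : ℝ → ℝ} (hr : ∀ s, ∀ᶠ t in 𝓝[>] s, f s ≤ f t)
    (hl : ∀ s, ∀ᶠ t in 𝓝[<] s, f t ≤ f s) : Monotone f := by
  intro a b hab
  set S : Set ℝ := {s | s ∈ Icc a b ∧ ∀ t ∈ Icc a s, f a ≤ f t} with hS
  have ha : a ∈ S := ⟨⟨le_rfl, hab⟩, fun t ht => by rw [le_antisymm ht.2 ht.1]⟩
  have hb : BddAbove S := ⟨b, fun s hs => hs.1.2⟩
  set c := sSup S with hc
  have hac : a ≤ c := le_csSup hb ha
  have hcb : c ≤ b := csSup_le ⟨a, ha⟩ fun s hs => hs.1.2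
  have h1 : ∀ t, a ≤ t → t < c → f a ≤ f t := fun t h1 h2 => by
    obtain ⟨s, hs, hts⟩ := exists_lt_of_lt_csSup ⟨a, ha⟩ h2
    exact hs.2 t ⟨h1, hts.le⟩
  have h2 : f a ≤ f c := by
    rcases hac.eq_or_lt with h | h
    · rw [← h]
    · obtain ⟨t, ht1, ht2⟩ := ((hl c).and (Ioo_mem_nhdsLT h)).exists
      exact (h1 t ht2.1.le ht2.2).trans ht1
  rcases hcb.eq_or_lt with h | h
  · rwa [← h]
  · exfalso
    obtain ⟨u, hu, hsub⟩ := mem_nhdsGT_iff_exists_Ioc_subset.1 ((hr c).and (Ioo_mem_nhdsGT h))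
    have hu' : c < u := hu
    have huS : u ∈ S := by
      refine ⟨⟨hac.trans hu'.le, (hsub ⟨hu', le_rfl⟩).2.2.le⟩, fun t ht => ?_⟩
      rcases lt_trichotomy t c with h3 | h3 | h3
      · exact h1 t ht.1 h3
      · rwa [h3]
      · exact h2.trans (hsub ⟨h3, ht.2⟩).1
    exact absurd (le_csSup hb huS) (not_le.2 hu')

theorem ag1_up {t τ : ℝ → ℝ} {s₀ : ℝ} (ht : ∀ᶠ s in 𝓝 s₀, HasDerivAt t (τ s) s)
    (hτ : ∀ᶠ s in 𝓝[>] s₀, 0 < τ s) : ∀ᶠ s in 𝓝[>] s₀, t s₀ < t s := by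
  obtain ⟨u, hu, hsub⟩ := mem_nhdsGT_iff_exists_Ioc_subset.1
    (hτ.and (ht.filter_mono nhdsWithin_le_nhds))
  have hu' : s₀ < u := hu
  have hm : StrictMonoOn t (Icc s₀ u) := by
    refine strictMonoOn_of_deriv_pos (convex_Icc _ _) (fun s hs => ?_) ?_
    · rcases hs.1.eq_or_lt with h | h
      · exact (h ▸ ht.self_of_nhds.continuousAt).continuousWithinAt
      · exact (hsub ⟨h, hs.2⟩).2.continuousAt.continuousWithinAt
    · intro s hs
      rw [interior_Icc] at hs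
      have := hsub ⟨hs.1, hs.2.le⟩
      rw [this.2.deriv]
      exact this.1
  filter_upwards [Ioo_mem_nhdsGT hu'] with s h2
  exact hm ⟨le_rfl, hu'.le⟩ ⟨h2.1.le, h2.2.le⟩ h2.1

theorem ag1_pos {τ : ℝ → ℝ} {s₀ d : ℝ} (h : HasDerivAt τ d s₀)
    (hτ : 0 < τ s₀ ∨ (τ s₀ = 0 ∧ 0 < d)) : ∀ᶠ s in 𝓝[>] s₀, 0 < τ s := by
  rcases hτ with h1 | ⟨h1, h2⟩
  · exact (h.continuousAt.eventually (lt_mem_nhds h1)).filter_mono nhdsWithin_le_nhds
  · have h3 := (hasDerivAt_iff_tendsto_slope_left_right.1 h).2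
    filter_upwards [h3.eventually (lt_mem_nhds h2), self_mem_nhdsWithin] with s h4 h5
    rw [slope_def_field, h1, sub_zero] at h4
    have h6 : 0 < s - s₀ := sub_pos.2 h5
    exact (div_pos_iff_of_pos_right h6).1 h4

namespace Prof

variable {F : Prof} {X : ℝ → St} {s₀ : ℝ}

theorem SolAt.p_const (hX : ∀ᶠ s in 𝓝 s₀, F.SolAt X s) : ∀ᶠ s in 𝓝 s₀, (X s).p = (X s₀).p := by
  obtain ⟨ε, hε, hb⟩ := Metric.eventually_nhds_iff_ball.1 hX
  filter_upwards [Metric.ball_mem_nhds s₀ hε] with s hs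
  exact Metric.isOpen_ball.is_const_of_deriv_eq_zero (f := fun s => (X s).p)
    (convex_ball s₀ ε).isPreconnected
    (fun s hs => (hb s hs).p.differentiableAt.differentiableWithinAt)
    (fun s hs => (hb s hs).p.deriv) hs (Metric.mem_ball_self hε)

theorem SolAt.stationary (h : F.Reg) (hX : ∀ᶠ s in 𝓝 s₀, F.SolAt X s) (hτ : (X s₀).τ = 0)
    (hV : F.Q1 (X s₀).t (X s₀).p (X s₀).p = 0) : ∀ᶠ s in 𝓝 s₀, (X s).t = (X s₀).t := by
  set p₀ := (X s₀).p with hp₀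
  have hd : ∀ r, HasDerivAt (fun r => F.Q1 r p₀ p₀) (F.Q2 r p₀ p₀) r := fun r => by
    have := h.hasDerivAt_Q1 (hasDerivAt_id r) (hasDerivAt_const r p₀) (hasDerivAt_const r p₀)
    simpa only [Q1_zero_left, Q1_zero_right, add_zero, one_mul, id] using this
  have hc : ContDiff ℝ 1 fun r => F.Q1 r p₀ p₀ := by
    refine contDiff_one_iff_deriv.2 ⟨fun r => (hd r).differentiableAt, ?_⟩
    have e : deriv (fun r => F.Q1 r p₀ p₀) = fun r => F.Q2 r p₀ p₀ := funext fun r => (hd r).deriv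
    rw [e]
    have c1 : Continuous F.b := continuous_iff_continuousAt.2 fun r => (h.db r).continuousAt
    have c2 : Continuous F.b1 := continuous_iff_continuousAt.2 fun r => (h.db1 r).continuousAt
    have c3 : Continuous F.σ := continuous_iff_continuousAt.2 fun r => (h.dσ r).continuousAt
    have c4 : Continuous F.σ1 := continuous_iff_continuousAt.2 fun r => (h.dσ1 r).continuousAt
    have c5 := h.ca2
    have c6 := h.cb2
    have c7 := h.cσ2
    unfold Q2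
    fun_prop
  have hv : ContDiff ℝ 1 fun q : ℝ × ℝ => (q.2, -(F.Q1 q.1 p₀ p₀) / 2) :=
    contDiff_snd.prodMk (((hc.comp contDiff_fst).neg).div_const 2)
  obtain ⟨K, S, hS, hK⟩ := (hv.contDiffAt (x := ((X s₀).t, (0 : ℝ)))).exists_lipschitzOnWith
  have key := ODE_solution_unique_of_eventually (t₀ := s₀) (K := K) (s := fun _ => S)
    (v := fun _ (q : ℝ × ℝ) => (q.2, -(F.Q1 q.1 p₀ p₀) / 2))
    (f := fun s => ((X s).t, (X s).τ)) (g := fun _ => ((X s₀).t, (0 : ℝ)))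
    (Filter.Eventually.of_forall fun _ => hK) ?_ ?_ (by simp only [hτ])
  · filter_upwards [key] with s hs
    exact congrArg Prod.fst hs
  · have h0 := hX.self_of_nhds
    have hcont : ContinuousAt (fun s => ((X s).t, (X s).τ)) s₀ :=
      h0.t.continuousAt.prodMk h0.τ.continuousAt
    have hm : ∀ᶠ s in 𝓝 s₀, ((X s).t, (X s).τ) ∈ S :=
      hcont.preimage_mem_nhds (by simpa only [hτ] using hS)
    filter_upwards [hX, SolAt.p_const hX, hm] with s h1 h2 h3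
    refine ⟨?_, h3⟩
    have := h1.t.prodMk h1.τ
    rwa [h2] at this
  · refine Filter.Eventually.of_forall fun s => ⟨?_, mem_of_mem_nhds hS⟩
    have := hasDerivAt_const s (((X s₀).t, (0 : ℝ)) : ℝ × ℝ)
    simpa [hV, Prod.mk_zero_zero] using this

theorem SolAt.up (hX : ∀ᶠ s in 𝓝 s₀, F.SolAt X s)
    (hτ : 0 < (X s₀).τ ∨ ((X s₀).τ = 0 ∧ F.Q1 (X s₀).t (X s₀).p (X s₀).p < 0)) :
    ∀ᶠ s in 𝓝[>] s₀, (X s₀).t < (X s).t := by
  refine ag1_up (t := fun s => (X s).t) (τ := fun s => (X s).τ) (hX.mono fun s hs => hs.t)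
    (ag1_pos hX.self_of_nhds.τ ?_)
  rcases hτ with h | ⟨h, h'⟩
  · exact Or.inl h
  · exact Or.inr ⟨h, by linarith⟩

theorem SolAt.down (hX : ∀ᶠ s in 𝓝 s₀, F.SolAt X s)
    (hτ : (X s₀).τ < 0 ∨ ((X s₀).τ = 0 ∧ 0 < F.Q1 (X s₀).t (X s₀).p (X s₀).p)) :
    ∀ᶠ s in 𝓝[>] s₀, (X s).t < (X s₀).t := by
  have := ag1_up (t := fun s => -(X s).t) (τ := fun s => -(X s).τ) (hX.mono fun s hs => hs.t.neg)
    (ag1_pos (τ := fun s => -(X s).τ) hX.self_of_nhds.τ.neg ?_)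
  · exact this.mono fun s hs => neg_lt_neg_iff.1 hs
  · rcases hτ with h | ⟨h, h'⟩
    · exact Or.inl (by linarith)
    · exact Or.inr ⟨by simp [h], by linarith⟩

end Prof

end Crest.Agent.R244
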