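import Crest.Agent.R244.AGerm1

/-!
# R244 / AGerm2 : `GG` increases along solutions

`germ_right`, cases (`t₀, τ₀, V₀ = Q1 t₀ p p`; `p` is locally constant, `t`, `Psi m`, `V1` are continuous):
* stationary (`τ₀ = 0`, `V₀ = 0`): `t ≡ t₀`, `V1 ≡ 0` near `s₀`.  If `0 < t₀ < 3`, `GG = Wt nR = Om`
  (`Wt_of_V1`), `H = Om`, `DOm_nonneg`; otherwise `H = W`, `DW_L`/`DW_R`.
* up (`t > t₀` on the right): `t₀ < 0` or `3 ≤ t₀`: `H = W`.  `0 ≤ t₀ < 3` (so `0 < t < 3` on the right):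
  if `V₀ > 0` (then `τ₀ > 0`): `H = Wt nL` (`PsiL_pos`, `DWt_L`), jump `jump_L` if `t₀ = 0`;
  if `V₀ ≤ 0`: `V1 ≤ 0` on the right (`V1_anti`), `H = Wt nR` (`Psi > 0` at `s₀` by `H4b` or
  `Psi_pos_of_tau`, `DWt_R`); if `t₀ = 0` then `V₀ = 0` (`V1_zero_nonneg`), `τ₀ > 0`, and
  `W ≤ Wt nL = Om = Wt nR` at `s₀`.
* down (`t < t₀` on the right): `t₀ ≤ 0` or `3 < t₀`: `H = W`.  `0 < t₀ ≤ 3`: if `V₀ < 0` (then `τ₀ < 0`):
  `H = Wt nR`, `jump_R` if `t₀ = 3`; if `V₀ ≥ 0`: `V1 ≥ 0` on the right, `H = Wt nL` (where `V1 = 0`,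
  `Wt nR = Om = Wt nL`); if `t₀ = 3` then `V₀ = 0`, `τ₀ < 0`, `W ≤ Wt nR = Om = Wt nL` at `s₀`.
In each case the derivative at `s₀` is `E0` if `y = 0`, `z = 0` (`DW_zero`, `DOm_zero`, `DWt_zero`).
`germ_left`: apply `germ_right` and `RG.right` to `s ↦ (X (-s)).rev` at `-s₀` (`SolAt.rev`, `GG_rev`).
-/

set_option autoImplicit false

noncomputable section

open scoped Topology
open Set

namespace Crest.Agent.R244

namespace Prof

variable {F : Prof} {X : ℝ → St} {s₀ : ℝ}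

theorem ag_ge {p : ℝ → Prop} (h0 : p s₀) (h : ∀ᶠ s in 𝓝[>] s₀, p s) : ∀ᶠ s in 𝓝[≥] s₀, p s := by
  rw [← Ioi_insert, nhdsWithin_insert, Filter.eventually_sup]
  exact ⟨h0, h⟩

theorem ag_gt {p : ℝ → Prop} (h : ∀ᶠ s in 𝓝[≥] s₀, p s) : ∀ᶠ s in 𝓝[>] s₀, p s :=
  h.filter_mono (nhdsWithin_mono _ Ioi_subset_Ici_self)

theorem ag_self {p : ℝ → Prop} (h : ∀ᶠ s in 𝓝[≥] s₀, p s) : p s₀ :=
  h.self_of_nhdsWithin (mem_Ici.2 le_rfl)

theorem ag_GG_out {Y : St} (h : Y.t ≤ 0 ∨ 3 ≤ Y.t) : F.GG Y = F.W Y := by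
  unfold GG
  rw [if_neg]
  rintro ⟨h1, h2⟩
  rcases h with h | h <;> linarith

theorem ag_GG_R {Y : St} (h : 0 < Y.t ∧ Y.t < 3) (hV : F.Q1 Y.t Y.p Y.p ≤ 0) :
    F.GG Y = F.Wt nR Y := by
  unfold GG
  rw [if_pos h, if_neg (not_lt.2 hV)]

theorem ag_GG_L {Y : St} (h : 0 < Y.t ∧ Y.t < 3) (hV : 0 ≤ F.Q1 Y.t Y.p Y.p) :
    F.GG Y = F.Wt nL Y := by
  rcases hV.lt_or_eq with hV' | hV'
  · unfold GG
    rw [if_pos h, if_pos hV']
  · rw [ag_GG_R h hV'.ge, Wt_of_V1 nR hV'.symm, Wt_of_V1 nL hV'.symm]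

theorem ag_W (h : F.Reg) (hG : F.Good) (hX : ∀ᶠ s in 𝓝 s₀, F.SolAt X s)
    (ht : ∀ᶠ s in 𝓝[≥] s₀, (X s).t ≤ 0 ∨ 3 ≤ (X s).t) :
    RG (fun s => F.GG (X s)) s₀ (F.E0 (X s₀)) ((X s₀).y = 0 ∧ (X s₀).z = 0) := by
  refine ⟨fun s => F.W (X s), fun s => F.DW (X s), ?_, (ag_GG_out (ag_self ht)).le,
    (ag_gt ht).mono fun s hs => ag_GG_out hs, fun hP => DW_zero hP.1 hP.2⟩
  filter_upwards [hX.filter_mono nhdsWithin_le_nhds, ht] with s hs hs'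
  exact ⟨hs.hasDerivAt_W h, hs'.elim (DW_L h hG) (DW_R h hG)⟩

theorem ag_Wt (h : F.Reg) (hX : ∀ᶠ s in 𝓝 s₀, F.SolAt X s) (m : ℝ × ℝ)
    (hΨ : 0 < F.Psi m (X s₀)) (hD : ∀ᶠ s in 𝓝[≥] s₀, 0 ≤ F.DWt m (X s))
    (h0 : F.GG (X s₀) ≤ F.Wt m (X s₀)) (he : ∀ᶠ s in 𝓝[>] s₀, F.GG (X s) = F.Wt m (X s)) :
    RG (fun s => F.GG (X s)) s₀ (F.E0 (X s₀)) ((X s₀).y = 0 ∧ (X s₀).z = 0) := by
  refine ⟨fun s => F.Wt m (X s), fun s => F.DWt m (X s), ?_, h0, he,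
    fun hP => DWt_zero m hP.1 hP.2⟩
  have hΨ' : ∀ᶠ s in 𝓝 s₀, 0 < F.Psi m (X s) :=
    continuousAt_const.eventually_lt (hX.self_of_nhds.hasDerivAt_Psi h m).continuousAt hΨ
  filter_upwards [hX.filter_mono nhdsWithin_le_nhds, hΨ'.filter_mono nhdsWithin_le_nhds, hD]
    with s hs hs' hs''
  exact ⟨hs.hasDerivAt_Wt h m hs'.ne', hs''⟩

theorem ag_stat (h : F.Reg) (hG : F.Good) (hX : ∀ᶠ s in 𝓝 s₀, F.SolAt X s)
    (hτ : (X s₀).τ = 0) (hV : F.Q1 (X s₀).t (X s₀).p (X s₀).p = 0) :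
    RG (fun s => F.GG (X s)) s₀ (F.E0 (X s₀)) ((X s₀).y = 0 ∧ (X s₀).z = 0) := by
  have ht := SolAt.stationary h hX hτ hV
  have hp := SolAt.p_const hX
  by_cases h03 : 0 < (X s₀).t ∧ (X s₀).t < 3
  · have he : ∀ᶠ s in 𝓝 s₀, F.GG (X s) = Om (X s) := by
      filter_upwards [ht, hp] with s hs hs'
      have hV' : F.Q1 (X s).t (X s).p (X s).p = 0 := by rw [hs, hs', hV]
      rw [ag_GG_R (by rw [hs]; exact h03) hV'.le, Wt_of_V1 nR hV']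
    refine ⟨fun s => Om (X s), fun s => F.DOm (X s), ?_, he.self_of_nhds.le,
      he.filter_mono nhdsWithin_le_nhds, fun hP => DOm_zero hP.1⟩
    filter_upwards [hX.filter_mono nhdsWithin_le_nhds, ht.filter_mono nhdsWithin_le_nhds]
      with s hs hs'
    exact ⟨hs.hasDerivAt_Om, DOm_nonneg h hG (by rw [hs']; exact ⟨h03.1.le, h03.2.le⟩)⟩
  · refine ag_W h hG hX ?_
    filter_upwards [ht.filter_mono nhdsWithin_le_nhds] with s hs
    rw [hs]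
    by_contra hc
    push Not at hc
    exact h03 hc

theorem ag_up (h : F.Reg) (hG : F.Good) (hX : ∀ᶠ s in 𝓝 s₀, F.SolAt X s)
    (hτ : 0 < (X s₀).τ ∨ ((X s₀).τ = 0 ∧ F.Q1 (X s₀).t (X s₀).p (X s₀).p < 0)) :
    RG (fun s => F.GG (X s)) s₀ (F.E0 (X s₀)) ((X s₀).y = 0 ∧ (X s₀).z = 0) := by
  have hup := SolAt.up hX hτ
  have hp := SolAt.p_const hX
  have hc : ContinuousAt (fun s => (X s).t) s₀ := hX.self_of_nhds.t.continuousAt
  have hcV : ContinuousAt (fun s => F.Q1 (X s).t (X s).p (X s).p) s₀ :=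
    (hX.self_of_nhds.hasDerivAt_V1 h).continuousAt
  by_cases h0 : (X s₀).t < 0
  · refine ag_W h hG hX ?_
    filter_upwards [(hc.eventually_lt continuousAt_const h0).filter_mono nhdsWithin_le_nhds]
      with s hs using Or.inl hs.le
  by_cases h3 : 3 ≤ (X s₀).t
  · exact ag_W h hG hX (ag_ge (Or.inr h3) (hup.mono fun s hs => Or.inr (h3.trans hs.le)))
  push Not at h0 h3
  have h03 : ∀ᶠ s in 𝓝[>] s₀, 0 < (X s).t ∧ (X s).t < 3 := by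
    filter_upwards [hup, (hc.eventually_lt continuousAt_const h3).filter_mono nhdsWithin_le_nhds]
      with s hs hs' using ⟨h0.trans_lt hs, hs'⟩
  have hI0 : (X s₀).t ∈ Icc (0 : ℝ) 3 := ⟨h0, h3.le⟩
  have hI : ∀ᶠ s in 𝓝[≥] s₀, (X s).t ∈ Icc (0 : ℝ) 3 :=
    ag_ge hI0 (h03.mono fun s hs => ⟨hs.1.le, hs.2.le⟩)
  by_cases hV : 0 < F.Q1 (X s₀).t (X s₀).p (X s₀).p
  · have hτ' : 0 < (X s₀).τ := hτ.elim id fun h' => absurd h'.2 (not_lt.2 hV.le)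
    have hV' : ∀ᶠ s in 𝓝[≥] s₀, 0 < F.Q1 (X s).t (X s).p (X s).p :=
      (continuousAt_const.eventually_lt hcV hV).filter_mono nhdsWithin_le_nhds
    refine ag_Wt h hX nL (PsiL_pos h hG hI0 hV) ?_ ?_ ?_
    · filter_upwards [hI, hV'] with s hs hs' using DWt_L h hG hs hs'.le
    · rcases h0.lt_or_eq with h0' | h0'
      · exact (ag_GG_L ⟨h0', h3⟩ hV.le).le
      · rw [ag_GG_out (Or.inl h0'.ge)]
        exact jump_L h hG h0'.symm hτ'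
    · filter_upwards [h03, ag_gt hV'] with s hs hs' using ag_GG_L hs hs'.le
  · push Not at hV
    have hV' : ∀ᶠ s in 𝓝[≥] s₀, F.Q1 (X s).t (X s).p (X s).p ≤ 0 := by
      refine ag_ge hV ?_
      filter_upwards [hup, ag_gt hI, hp.filter_mono nhdsWithin_le_nhds] with s hs hs' hs''
      rw [hs'']
      exact (V1_anti h hG _ hI0 hs' hs.le).trans hV
    refine ag_Wt h hX nR ?_ ?_ ?_ ?_
    · exact hτ.elim (fun h' => h.Psi_pos_of_tau nR_ne h'.ne') fun h' => hG.H4b _ hI0 h'.2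
    · filter_upwards [hI, hV'] with s hs hs' using DWt_R h hG hs hs'
    · rcases h0.lt_or_eq with h0' | h0'
      · exact (ag_GG_R ⟨h0', h3⟩ hV).le
      · have hV0 : F.Q1 (X s₀).t (X s₀).p (X s₀).p = 0 :=
          le_antisymm hV (by rw [← h0']; exact V1_zero_nonneg hG _)
        have hτ' : 0 < (X s₀).τ := hτ.elim id fun h' => absurd h'.2 (not_lt.2 hV0.ge)
        rw [ag_GG_out (Or.inl h0'.ge), Wt_of_V1 nR hV0, ← Wt_of_V1 nL hV0]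
        exact jump_L h hG h0'.symm hτ'
    · filter_upwards [h03, ag_gt hV'] with s hs hs' using ag_GG_R hs hs'

theorem ag_down (h : F.Reg) (hG : F.Good) (hX : ∀ᶠ s in 𝓝 s₀, F.SolAt X s)
    (hτ : (X s₀).τ < 0 ∨ ((X s₀).τ = 0 ∧ 0 < F.Q1 (X s₀).t (X s₀).p (X s₀).p)) :
    RG (fun s => F.GG (X s)) s₀ (F.E0 (X s₀)) ((X s₀).y = 0 ∧ (X s₀).z = 0) := by
  have hdn := SolAt.down hX hτ
  have hp := SolAt.p_const hX
  have hc : ContinuousAt (fun s => (X s).t) s₀ := hX.self_of_nhds.t.continuousAt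
  have hcV : ContinuousAt (fun s => F.Q1 (X s).t (X s).p (X s).p) s₀ :=
    (hX.self_of_nhds.hasDerivAt_V1 h).continuousAt
  by_cases h3 : 3 < (X s₀).t
  · refine ag_W h hG hX ?_
    filter_upwards [(continuousAt_const.eventually_lt hc h3).filter_mono nhdsWithin_le_nhds]
      with s hs using Or.inr hs.le
  by_cases h0 : (X s₀).t ≤ 0
  · exact ag_W h hG hX (ag_ge (Or.inl h0) (hdn.mono fun s hs => Or.inl (hs.le.trans h0)))
  push Not at h0 h3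
  have h03 : ∀ᶠ s in 𝓝[>] s₀, 0 < (X s).t ∧ (X s).t < 3 := by
    filter_upwards [hdn, (continuousAt_const.eventually_lt hc h0).filter_mono nhdsWithin_le_nhds]
      with s hs hs' using ⟨hs', hs.trans_le h3⟩
  have hI0 : (X s₀).t ∈ Icc (0 : ℝ) 3 := ⟨h0.le, h3⟩
  have hI : ∀ᶠ s in 𝓝[≥] s₀, (X s).t ∈ Icc (0 : ℝ) 3 :=
    ag_ge hI0 (h03.mono fun s hs => ⟨hs.1.le, hs.2.le⟩)
  by_cases hV : F.Q1 (X s₀).t (X s₀).p (X s₀).p < 0
  · have hτ' : (X s₀).τ < 0 := hτ.elim id fun h' => absurd h'.2 (not_lt.2 hV.le)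
    have hV' : ∀ᶠ s in 𝓝[≥] s₀, F.Q1 (X s).t (X s).p (X s).p < 0 :=
      (hcV.eventually_lt continuousAt_const hV).filter_mono nhdsWithin_le_nhds
    refine ag_Wt h hX nR (hG.H4b _ hI0 hV) ?_ ?_ ?_
    · filter_upwards [hI, hV'] with s hs hs' using DWt_R h hG hs hs'.le
    · rcases h3.lt_or_eq with h3' | h3'
      · exact (ag_GG_R ⟨h0, h3'⟩ hV.le).le
      · rw [ag_GG_out (Or.inr h3'.ge)]
        exact jump_R h hG h3' hτ'
    · filter_upwards [h03, ag_gt hV'] with s hs hs' using ag_GG_R hs hs'.le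
  · push Not at hV
    have hV' : ∀ᶠ s in 𝓝[≥] s₀, 0 ≤ F.Q1 (X s).t (X s).p (X s).p := by
      refine ag_ge hV ?_
      filter_upwards [hdn, ag_gt hI, hp.filter_mono nhdsWithin_le_nhds] with s hs hs' hs''
      rw [hs'']
      exact hV.trans (V1_anti h hG _ hs' hI0 hs.le)
    refine ag_Wt h hX nL ?_ ?_ ?_ ?_
    · exact hτ.elim (fun h' => h.Psi_pos_of_tau nL_ne h'.ne) fun h' => PsiL_pos h hG hI0 h'.2
    · filter_upwards [hI, hV'] with s hs hs' using DWt_L h hG hs hs'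
    · rcases h3.lt_or_eq with h3' | h3'
      · exact (ag_GG_L ⟨h0, h3'⟩ hV).le
      · have hV0 : F.Q1 (X s₀).t (X s₀).p (X s₀).p = 0 :=
          le_antisymm (by rw [h3']; exact V1_three_nonpos hG _) hV
        have hτ' : (X s₀).τ < 0 := hτ.elim id fun h' => absurd h'.2 (not_lt.2 hV0.le)
        rw [ag_GG_out (Or.inr h3'.ge), Wt_of_V1 nL hV0, ← Wt_of_V1 nR hV0]
        exact jump_R h hG h3' hτ'
    · filter_upwards [h03, ag_gt hV'] with s hs hs' using ag_GG_L hs hs'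

theorem germ_right (h : F.Reg) (hG : F.Good) (hX : ∀ᶠ s in 𝓝 s₀, F.SolAt X s) :
    RG (fun s => F.GG (X s)) s₀ (F.E0 (X s₀)) ((X s₀).y = 0 ∧ (X s₀).z = 0) := by
  rcases lt_trichotomy (X s₀).τ 0 with hτ | hτ | hτ
  · exact ag_down h hG hX (Or.inl hτ)
  · rcases lt_trichotomy (F.Q1 (X s₀).t (X s₀).p (X s₀).p) 0 with hV | hV | hV
    · exact ag_up h hG hX (Or.inr ⟨hτ, hV⟩)
    · exact ag_stat h hG hX hτ hV
    · exact ag_down h hG hX (Or.inr ⟨hτ, hV⟩)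
  · exact ag_up h hG hX (Or.inl hτ)

theorem germ_left (h : F.Reg) (hG : F.Good) (hX : ∀ᶠ s in 𝓝 s₀, F.SolAt X s) :
    ∀ᶠ s in 𝓝[<] s₀, F.GG (X s) ≤ F.GG (X s₀) := by
  have hY : ∀ᶠ s in 𝓝 (-s₀), F.SolAt (fun s => (X (-s)).rev) s := by
    have ht : Filter.Tendsto (fun s : ℝ => -s) (𝓝 (-s₀)) (𝓝 s₀) := by
      simpa using (continuous_neg.tendsto (-s₀))
    exact (ht.eventually hX).mono fun s hs => hs.rev
  have h1 := (germ_right h hG hY).right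
  have h2 := (tendsto_neg_nhdsLT (a := s₀)).eventually h1
  filter_upwards [h2] with s hs
  simp only [neg_neg, GG_rev] at hs
  linarith

end Prof

end Crest.Agent.R244
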