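import Crest.Agent.R244.ADefs

/-!
# R244 / AId1 : chain rules for `Q`, `g`, and the derivatives of `Om`, `Nn`, `W`, `Wt` along solutions
-/

set_option autoImplicit false

noncomputable section

open scoped Topology
open Set

namespace Crest.Agent.R244

theorem hasDerivAt_fst' {f : ℝ → ℝ × ℝ} {f' : ℝ × ℝ} {s : ℝ} (h : HasDerivAt f f' s) :
    HasDerivAt (fun s => (f s).1) f'.1 s :=
  (ContinuousLinearMap.fst ℝ ℝ ℝ).hasFDerivAt.comp_hasDerivAt s h

theorem hasDerivAt_snd' {f : ℝ → ℝ × ℝ} {f' : ℝ × ℝ} {s : ℝ} (h : HasDerivAt f f' s) :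
    HasDerivAt (fun s => (f s).2) f'.2 s :=
  (ContinuousLinearMap.snd ℝ ℝ ℝ).hasFDerivAt.comp_hasDerivAt s h

namespace Prof

variable {F : Prof}

theorem Reg.hasDerivAt_Q (h : F.Reg) {t : ℝ → ℝ} {p q : ℝ → ℝ × ℝ} {s τ : ℝ} {p' q' : ℝ × ℝ}
    (ht : HasDerivAt t τ s) (hp : HasDerivAt p p' s) (hq : HasDerivAt q q' s) :
    HasDerivAt (fun s => F.Q (t s) (p s) (q s))
      (τ * F.Q1 (t s) (p s) (q s) + F.Q (t s) p' (q s) + F.Q (t s) (p s) q') s := by
  have ha := (h.da (t s)).comp s ht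
  have hb := (h.db (t s)).comp s ht
  have hσ := (h.dσ (t s)).comp s ht
  have p1 := hasDerivAt_fst' hp
  have p2 := hasDerivAt_snd' hp
  have q1 := hasDerivAt_fst' hq
  have q2 := hasDerivAt_snd' hq
  have := ((ha.mul p1).mul q1).add ((hb.mul (p2.add (hσ.mul p1))).mul (q2.add (hσ.mul q1)))
  refine HasDerivAt.congr_deriv this ?_
  simp only [Q, Q1, Function.comp, Pi.mul_apply, Pi.add_apply]
  ring

theorem Reg.hasDerivAt_Q1 (h : F.Reg) {t : ℝ → ℝ} {p q : ℝ → ℝ × ℝ} {s τ : ℝ} {p' q' : ℝ × ℝ}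
    (ht : HasDerivAt t τ s) (hp : HasDerivAt p p' s) (hq : HasDerivAt q q' s) :
    HasDerivAt (fun s => F.Q1 (t s) (p s) (q s))
      (τ * F.Q2 (t s) (p s) (q s) + F.Q1 (t s) p' (q s) + F.Q1 (t s) (p s) q') s := by
  have ha := (h.da1 (t s)).comp s ht
  have hb := (h.db (t s)).comp s ht
  have hb1 := (h.db1 (t s)).comp s ht
  have hσ := (h.dσ (t s)).comp s ht
  have hσ1 := (h.dσ1 (t s)).comp s ht
  have p1 := hasDerivAt_fst' hp
  have p2 := hasDerivAt_snd' hp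
  have q1 := hasDerivAt_fst' hq
  have q2 := hasDerivAt_snd' hq
  have := (((ha.mul p1).mul q1).add ((hb1.mul (p2.add (hσ.mul p1))).mul (q2.add (hσ.mul q1)))).add
    ((hb.mul hσ1).mul ((p1.mul (q2.add (hσ.mul q1))).add ((p2.add (hσ.mul p1)).mul q1)))
  refine HasDerivAt.congr_deriv this ?_
  simp only [Q1, Q2, Function.comp, Pi.mul_apply, Pi.add_apply]
  ring

theorem Reg.hasDerivAt_g0 (h : F.Reg) {t : ℝ → ℝ} {p q : ℝ → ℝ × ℝ} {s τ : ℝ} {p' q' : ℝ × ℝ}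
    (ht : HasDerivAt t τ s) (hp : HasDerivAt p p' s) (hq : HasDerivAt q q' s) :
    HasDerivAt (fun s => F.g0 (t s) (p s) (q s))
      (τ * F.g1 (t s) (p s) (q s) + F.g0 (t s) p' (q s) + F.g0 (t s) (p s) q') s := by
  have ha := (h.da (t s)).comp s ht
  have hb := (h.db (t s)).comp s ht
  have hσ := (h.dσ (t s)).comp s ht
  have p1 := hasDerivAt_fst' hp
  have p2 := hasDerivAt_snd' hp
  have q1 := hasDerivAt_fst' hq
  have q2 := hasDerivAt_snd' hq
  have a0 := (h.apos (t s)).ne'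
  have b0 := (h.bpos (t s)).ne'
  have := (((p1.sub (hσ.mul p2)).mul (q1.sub (hσ.mul q2))).div ha a0).add ((p2.mul q2).div hb b0)
  refine HasDerivAt.congr_deriv this ?_
  simp only [g0, g1, Function.comp, Pi.mul_apply, Pi.add_apply, Pi.sub_apply]
  field_simp
  ring

theorem Reg.hasDerivAt_g1 (h : F.Reg) {t : ℝ → ℝ} {p q : ℝ → ℝ × ℝ} {s τ : ℝ} {p' q' : ℝ × ℝ}
    (ht : HasDerivAt t τ s) (hp : HasDerivAt p p' s) (hq : HasDerivAt q q' s) :
    HasDerivAt (fun s => F.g1 (t s) (p s) (q s))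
      (τ * F.g2 (t s) (p s) (q s) + F.g1 (t s) p' (q s) + F.g1 (t s) (p s) q') s := by
  have ha := (h.da (t s)).comp s ht
  have ha1 := (h.da1 (t s)).comp s ht
  have hb := (h.db (t s)).comp s ht
  have hb1 := (h.db1 (t s)).comp s ht
  have hσ := (h.dσ (t s)).comp s ht
  have hσ1 := (h.dσ1 (t s)).comp s ht
  have p1 := hasDerivAt_fst' hp
  have p2 := hasDerivAt_snd' hp
  have q1 := hasDerivAt_fst' hq
  have q2 := hasDerivAt_snd' hq
  have a0 := (h.apos (t s)).ne'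
  have b0 := (h.bpos (t s)).ne'
  have P := p1.sub (hσ.mul p2)
  have Q := q1.sub (hσ.mul q2)
  have := (((((ha1.div (ha.pow 2) (pow_ne_zero 2 a0)).neg).mul P).mul Q).sub
    ((hσ1.div ha a0).mul ((p2.mul Q).add (P.mul q2)))).sub
    (((hb1.div (hb.pow 2) (pow_ne_zero 2 b0)).mul p2).mul q2)
  refine HasDerivAt.congr_deriv this ?_
  simp only [g1, g2, Function.comp, Pi.mul_apply, Pi.add_apply, Pi.sub_apply, Pi.neg_apply,
    Pi.div_apply, Pi.pow_apply]
  field_simp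
  ring

variable {X : ℝ → St} {s : ℝ}

theorem Q_zero_left (r : ℝ) (q : ℝ × ℝ) : F.Q r 0 q = 0 := by simp [Q]
theorem Q_zero_right (r : ℝ) (q : ℝ × ℝ) : F.Q r q 0 = 0 := by simp [Q]
theorem Q1_zero_left (r : ℝ) (q : ℝ × ℝ) : F.Q1 r 0 q = 0 := by simp [Q1]
theorem Q1_zero_right (r : ℝ) (q : ℝ × ℝ) : F.Q1 r q 0 = 0 := by simp [Q1]

theorem SolAt.hasDerivAt_Om (hX : F.SolAt X s) :
    HasDerivAt (fun s => Om (X s)) (F.DOm (X s)) s := by
  have := ((hX.y.mul hX.v).add ((hasDerivAt_fst' hX.π).mul (hasDerivAt_fst' hX.z))).add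
    ((hasDerivAt_snd' hX.π).mul (hasDerivAt_snd' hX.z))
  refine HasDerivAt.congr_deriv this ?_
  simp only [DOm, zd, Q, Q1, e1, e2, Prod.fst_zero, Prod.snd_zero]
  ring

theorem SolAt.hasDerivAt_Nn (h : F.Reg) (hX : F.SolAt X s) :
    HasDerivAt (fun s => F.Nn (X s)) (2 * F.W (X s)) s := by
  have := (hX.y.pow 2).add (h.hasDerivAt_g0 hX.t hX.z hX.z)
  have a0 := (h.apos (X s).t).ne'
  have b0 := (h.bpos (X s).t).ne'
  refine HasDerivAt.congr_deriv this ?_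
  simp only [W, Om, zd, xd, Q, Q1, g0, g1, e1, e2]
  field_simp
  ring

theorem SolAt.hasDerivAt_xd (h : F.Reg) (hX : F.SolAt X s) :
    HasDerivAt (fun s => F.xd (X s))
      ((X s).τ * F.Q1 (X s).t (X s).p e1, (X s).τ * F.Q1 (X s).t (X s).p e2) s := by
  have h1 := h.hasDerivAt_Q hX.t hX.p (hasDerivAt_const s e1)
  have h2 := h.hasDerivAt_Q hX.t hX.p (hasDerivAt_const s e2)
  simp only [Q_zero_left, Q_zero_right, add_zero] at h1 h2
  exact h1.prodMk h2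

theorem SolAt.hasDerivAt_W (h : F.Reg) (hX : F.SolAt X s) :
    HasDerivAt (fun s => F.W (X s)) (F.DW (X s)) s := by
  have := (hX.hasDerivAt_Om.add ((hX.τ.div_const 2).mul (h.hasDerivAt_g1 hX.t hX.z hX.z))).sub
    (hX.y.mul (h.hasDerivAt_g1 hX.t hX.z (hX.hasDerivAt_xd h)))
  refine HasDerivAt.congr_deriv this ?_
  simp only [DW, g1]
  ring

theorem SolAt.hasDerivAt_V1 (h : F.Reg) (hX : F.SolAt X s) :
    HasDerivAt (fun s => F.Q1 (X s).t (X s).p (X s).p)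
      ((X s).τ * F.Q2 (X s).t (X s).p (X s).p) s := by
  have h1 := h.hasDerivAt_Q1 hX.t hX.p hX.p
  simpa only [Q1_zero_left, Q1_zero_right, add_zero] using h1

theorem SolAt.hasDerivAt_Psi (h : F.Reg) (hX : F.SolAt X s) (m : ℝ × ℝ) :
    HasDerivAt (fun s => F.Psi m (X s)) ((X s).τ * F.Psi1 m (X s)) s := by
  have h1 := h.hasDerivAt_Q hX.t (hasDerivAt_const s m) (hasDerivAt_const s m)
  have h2 := h.hasDerivAt_Q hX.t hX.p (hasDerivAt_const s m)
  simp only [Q_zero_left, Q_zero_right, add_zero] at h1 h2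
  have := ((hX.τ.pow 2).mul h1).add (h2.pow 2)
  refine HasDerivAt.congr_deriv this ?_
  simp only [Psi1, Pi.pow_apply]
  ring

theorem SolAt.hasDerivAt_eta (hX : F.SolAt X s) (m : ℝ × ℝ) :
    HasDerivAt (fun s => eta m (X s))
      (F.Q (X s).t (X s).π m + F.Q1 (X s).t (X s).p m * (X s).y) s := by
  have := ((hasDerivAt_fst' hX.z).const_mul m.1).add ((hasDerivAt_snd' hX.z).const_mul m.2)
  refine HasDerivAt.congr_deriv this ?_
  simp only [zd, Q, Q1, e1, e2]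
  ring

theorem Q_sub_smul (r k : ℝ) (π m : ℝ × ℝ) :
    F.Q r (π - k • m) (π - k • m) = F.Q r π π - 2 * k * F.Q r π m + k ^ 2 * F.Q r m m := by
  simp only [Q, Prod.fst_sub, Prod.snd_sub, Prod.smul_fst, Prod.smul_snd, smul_eq_mul]
  ring

theorem SolAt.hasDerivAt_Wt (h : F.Reg) (hX : F.SolAt X s) (m : ℝ × ℝ)
    (hΨ : F.Psi m (X s) ≠ 0) : HasDerivAt (fun s => F.Wt m (X s)) (F.DWt m (X s)) s := by
  have h1 := h.hasDerivAt_Q hX.t (hasDerivAt_const s m) (hasDerivAt_const s m)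
  have h2 := h.hasDerivAt_Q hX.t hX.p (hasDerivAt_const s m)
  simp only [Q_zero_left, Q_zero_right, add_zero] at h1 h2
  have he := hX.hasDerivAt_eta m
  have hk := (hX.hasDerivAt_V1 h).div ((hX.hasDerivAt_Psi h m).const_mul 2)
    (mul_ne_zero two_ne_zero hΨ)
  have hT := (((hX.τ.mul h1).mul (hX.y.pow 2)).sub (hX.τ.mul (he.pow 2))).add
    (((h2.const_mul 2).mul hX.y).mul he)
  have := hX.hasDerivAt_Om.add (hk.mul hT)
  refine HasDerivAt.congr_deriv this ?_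
  simp only [DWt, Q_sub_smul, DOm, kap, NN, Psi1, Pi.mul_apply, Pi.add_apply, Pi.sub_apply,
    Pi.div_apply, Pi.pow_apply]
  have hΨ' : F.Psi m (X s) = (X s).τ ^ 2 * F.Q (X s).t m m + F.Q (X s).t (X s).p m ^ 2 := rfl
  generalize F.Psi m (X s) = Ψ at *
  generalize F.Q (X s).t m m = β at *
  generalize F.Q (X s).t (X s).p m = w at *
  generalize F.Q1 (X s).t m m = β1 at *
  generalize F.Q1 (X s).t (X s).p m = w1 at *
  generalize F.Q1 (X s).t (X s).p (X s).p = V1 at *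
  generalize F.Q2 (X s).t (X s).p (X s).p = V2 at *
  generalize F.Q (X s).t (X s).π m = u at *
  generalize eta m (X s) = η at *
  field_simp
  rw [hΨ']
  ring

end Prof

end Crest.Agent.R244
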