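import Crest.Agent.R244.AId1

/-!
# R244 / AId2 : signs of the derivatives, the jumps at `t = 0, 3`, time reversal
-/

set_option autoImplicit false

noncomputable section

open scoped Topology
open Set

namespace Crest.Agent.R244

namespace Prof

variable {F : Prof} {X : St}

theorem Reg.Q_nonneg (h : F.Reg) (r : ℝ) (p : ℝ × ℝ) : 0 ≤ F.Q r p p := by
  have a0 := h.apos r
  have b0 := h.bpos r
  have : F.Q r p p = F.a r * p.1 ^ 2 + F.b r * (p.2 + F.σ r * p.1) ^ 2 := by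
    simp only [Q]; ring
  rw [this]; positivity

theorem Reg.Q_eq_zero (h : F.Reg) {r : ℝ} {p : ℝ × ℝ} (hp : F.Q r p p = 0) : p = 0 := by
  have a0 := h.apos r
  have b0 := h.bpos r
  have e : F.Q r p p = F.a r * p.1 ^ 2 + F.b r * (p.2 + F.σ r * p.1) ^ 2 := by
    simp only [Q]; ring
  rw [e] at hp
  have h1 : 0 ≤ F.a r * p.1 ^ 2 := by positivity
  have h2 : 0 ≤ F.b r * (p.2 + F.σ r * p.1) ^ 2 := by positivity
  have h3 : p.1 = 0 := by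
    have : F.a r * p.1 ^ 2 = 0 := by linarith
    simpa [a0.ne'] using this
  have h4 : p.2 + F.σ r * p.1 = 0 := by
    have : F.b r * (p.2 + F.σ r * p.1) ^ 2 = 0 := by linarith
    simpa [b0.ne'] using this
  rw [h3, mul_zero, add_zero] at h4
  exact Prod.ext h3 h4

theorem Reg.E0_eq_zero (h : F.Reg) (h0 : F.E0 X = 0) : X.v = 0 ∧ X.π = 0 := by
  have h1 := h.Q_nonneg X.t X.π
  have h2 := sq_nonneg X.v
  simp only [E0] at h0
  exact ⟨by nlinarith, h.Q_eq_zero (by linarith)⟩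

theorem DW_zero (hy : X.y = 0) (hz : X.z = 0) : F.DW X = F.E0 X := by
  simp [DW, DOm, E0, g1, g2, hy, hz]

theorem DOm_zero (hy : X.y = 0) : F.DOm X = F.E0 X := by
  simp [DOm, E0, hy]

theorem DWt_zero (m : ℝ × ℝ) (hy : X.y = 0) (hz : X.z = 0) : F.DWt m X = F.E0 X := by
  simp [DWt, E0, NN, eta, hy, hz]

theorem GG_zero (hy : X.y = 0) (hz : X.z = 0) : F.GG X = 0 := by
  simp [GG, Wt, W, Om, Th, eta, g1, hy, hz]

theorem Wt_of_V1 (m : ℝ × ℝ) (hV : F.Q1 X.t X.p X.p = 0) : F.Wt m X = Om X := by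
  simp [Wt, kap, hV]

theorem DW_L (h : F.Reg) (hG : F.Good) (ht : X.t ≤ 0) : 0 ≤ F.DW X := by
  obtain ⟨h1, h2, h3, h4, h5, h6⟩ := hG.L0 X.t ht
  have a0 := h.apos X.t
  have b0 := h.bpos X.t
  have e : F.DW X = (X.v + F.b1 X.t / (2 * F.b X.t) * X.p.2 * X.z.2) ^ 2 + F.a X.t * X.π.1 ^ 2 +
      (F.b X.t * X.π.2 + F.b1 X.t * X.p.2 * X.y -
        F.b1 X.t / (2 * F.b X.t) * (X.τ * X.z.2 + X.y * F.b X.t * X.p.2)) ^ 2 / F.b X.t +
      (3 * F.b1 X.t ^ 2 - 2 * F.b X.t * F.b2 X.t) / (4 * F.b X.t ^ 3) *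
        (X.τ * X.z.2 - F.b X.t * X.p.2 * X.y) ^ 2 := by
    simp only [DW, DOm, zd, xd, Q, Q1, Q2, g1, g2, e1, e2, h1, h2, h3, h4, h5]
    field_simp
    ring
  rw [e]
  have : 0 ≤ 3 * F.b1 X.t ^ 2 - 2 * F.b X.t * F.b2 X.t := by linarith
  positivity

theorem DW_R (h : F.Reg) (hG : F.Good) (ht : 3 ≤ X.t) : 0 ≤ F.DW X := by
  obtain ⟨h1, h2, h3, h4, h5, h6⟩ := hG.R3 X.t ht
  have a0 := h.apos X.t
  have b0 := h.bpos X.t
  have e : F.DW X = (X.v + F.a1 X.t / (2 * F.a X.t) * X.p.1 * (X.z.1 - X.z.2)) ^ 2 +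
      F.b X.t * (X.π.2 + X.π.1) ^ 2 +
      (F.a X.t * X.π.1 + F.a1 X.t * X.p.1 * X.y -
        F.a1 X.t / (2 * F.a X.t) * (X.τ * (X.z.1 - X.z.2) + X.y * F.a X.t * X.p.1)) ^ 2 / F.a X.t +
      (3 * F.a1 X.t ^ 2 - 2 * F.a X.t * F.a2 X.t) / (4 * F.a X.t ^ 3) *
        (X.τ * (X.z.1 - X.z.2) - F.a X.t * X.p.1 * X.y) ^ 2 := by
    simp only [DW, DOm, zd, xd, Q, Q1, Q2, g1, g2, e1, e2, h1, h2, h3, h4, h5]
    field_simp
    ring
  rw [e]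
  have : 0 ≤ 3 * F.a1 X.t ^ 2 - 2 * F.a X.t * F.a2 X.t := by linarith
  positivity

theorem DOm_nonneg (h : F.Reg) (hG : F.Good) (ht : X.t ∈ Icc (0 : ℝ) 3) : 0 ≤ F.DOm X := by
  have h1 := hG.V2 X.t ht X.p
  have h2 := h.Q_nonneg X.t X.π
  have h3 : F.Q2 X.t X.p X.p * X.y ^ 2 ≤ 0 := mul_nonpos_of_nonpos_of_nonneg h1 (sq_nonneg _)
  simp only [DOm]
  nlinarith [sq_nonneg X.v]

theorem DWt_nonneg (h : F.Reg) (m : ℝ × ℝ)
    (hm : F.Q2 X.t X.p X.p * F.Psi m X ≤ F.Q1 X.t X.p X.p * F.Psi1 m X) : 0 ≤ F.DWt m X := by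
  have h2 := h.Q_nonneg X.t (X.π - (F.kap m X * F.NN m X) • m)
  have h3 : (F.Q2 X.t X.p X.p * F.Psi m X - F.Q1 X.t X.p X.p * F.Psi1 m X) / (2 * F.Psi m X ^ 2) *
      F.NN m X ^ 2 ≤ 0 :=
    mul_nonpos_of_nonpos_of_nonneg (div_nonpos_of_nonpos_of_nonneg (by linarith) (by positivity))
      (sq_nonneg _)
  simp only [DWt]
  nlinarith [sq_nonneg (X.v + F.kap m X * (X.τ * F.Q X.t m m * X.y + F.Q X.t X.p m * eta m X))]

theorem Reg.Psi_nonneg (h : F.Reg) (m : ℝ × ℝ) : 0 ≤ F.Psi m X := by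
  have := h.Q_nonneg X.t m
  simp only [Psi]; positivity

theorem Reg.Psi_pos_of_tau (h : F.Reg) {m : ℝ × ℝ} (hm : m ≠ 0) (hτ : X.τ ≠ 0) :
    0 < F.Psi m X := by
  have h1 : 0 < F.Q X.t m m :=
    lt_of_le_of_ne (h.Q_nonneg X.t m) (fun e => hm (h.Q_eq_zero e.symm))
  simp only [Psi]; positivity

theorem nL_ne : nL ≠ 0 := by simp [nL]
theorem nR_ne : nR ≠ 0 := by simp [nR]

theorem PsiL_pos (h : F.Reg) (hG : F.Good) (ht : X.t ∈ Icc (0 : ℝ) 3)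
    (hV : 0 < F.Q1 X.t X.p X.p) : 0 < F.Psi nL X := by
  have b0 := h.bpos X.t
  have h1 := (hG.sgn X.t ht).1
  by_cases hq : X.p.2 + F.σ X.t * X.p.1 = 0
  · exfalso
    simp only [Q1, hq] at hV
    nlinarith [mul_nonneg_of_nonpos_of_nonpos h1 (neg_nonpos.2 (sq_nonneg X.p.1))]
  · have e : F.Psi nL X = X.τ ^ 2 * F.b X.t + (F.b X.t * (X.p.2 + F.σ X.t * X.p.1)) ^ 2 := by
      simp only [Psi, Q, nL]; ring
    rw [e]; positivity

theorem DWt_L (h : F.Reg) (hG : F.Good) (ht : X.t ∈ Icc (0 : ℝ) 3)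
    (hV : 0 ≤ F.Q1 X.t X.p X.p) : 0 ≤ F.DWt nL X := by
  refine DWt_nonneg h nL ?_
  have b0 := h.bpos X.t
  obtain ⟨h1, h2⟩ := hG.sgn X.t ht
  have e : F.Psi1 nL X = X.τ ^ 2 * F.b1 X.t + (-F.a1 X.t) * F.b X.t * X.p.1 ^ 2 +
      F.b X.t * F.b1 X.t * (X.p.2 + F.σ X.t * X.p.1) ^ 2 := by
    simp only [Psi1, Q, Q1, nL]; ring
  have h3 : 0 ≤ -F.a1 X.t := by linarith
  have h4 : 0 ≤ F.Psi1 nL X := by rw [e]; positivity
  have h5 := mul_nonpos_of_nonpos_of_nonneg (hG.V2 X.t ht X.p) (h.Psi_nonneg (X := X) nL)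
  exact h5.trans (mul_nonneg hV h4)

theorem DWt_R (h : F.Reg) (hG : F.Good) (ht : X.t ∈ Icc (0 : ℝ) 3)
    (hV : F.Q1 X.t X.p X.p ≤ 0) : 0 ≤ F.DWt nR X :=
  DWt_nonneg h nR (hG.H4a X ht hV)

theorem V1_zero_nonneg (hG : F.Good) (p : ℝ × ℝ) : 0 ≤ F.Q1 0 p p := by
  obtain ⟨h1, -, h3, h4, -, -⟩ := hG.L0 0 le_rfl
  have h2 := (hG.sgn 0 ⟨le_rfl, by norm_num⟩).2
  have e : F.Q1 0 p p = F.b1 0 * p.2 ^ 2 := by simp only [Q1, h1, h3, h4]; ring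
  rw [e]; positivity

theorem V1_three_nonpos (hG : F.Good) (p : ℝ × ℝ) : F.Q1 3 p p ≤ 0 := by
  obtain ⟨h1, -, h3, h4, -, -⟩ := hG.R3 3 le_rfl
  have h2 := (hG.sgn 3 ⟨by norm_num, le_rfl⟩).1
  have e : F.Q1 3 p p = F.a1 3 * p.1 ^ 2 := by simp only [Q1, h1, h3, h4]; ring
  rw [e]; exact mul_nonpos_of_nonpos_of_nonneg h2 (sq_nonneg _)

theorem jump_L (h : F.Reg) (hG : F.Good) (ht : X.t = 0) (hτ : 0 < X.τ) : F.W X ≤ F.Wt nL X := by
  obtain ⟨h1, -, h3, h4, -, -⟩ := hG.L0 X.t ht.le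
  have h2 := (hG.sgn X.t ⟨ht.ge, by rw [ht]; norm_num⟩).2
  have a0 := h.apos X.t
  have b0 := h.bpos X.t
  have hΨ := h.Psi_pos_of_tau (X := X) nL_ne hτ.ne'
  have hΨ' : F.Psi nL X = X.τ ^ 2 * F.b X.t + (F.b X.t * X.p.2) ^ 2 := by
    simp only [Psi, Q, nL, h3]; ring
  have e : F.Wt nL X = F.W X + F.b1 X.t * X.τ / (2 * F.b X.t * F.Psi nL X) * F.NN nL X ^ 2 := by
    simp only [Wt, W, kap, Th, NN, eta, xd, Q, Q1, g1, e1, e2, h1, h3, h4]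
    simp only [nL]
    simp only [nL] at hΨ hΨ'
    generalize F.Psi (0, 1) X = Ψ at *
    field_simp
    rw [hΨ']
    ring
  rw [e]
  have : 0 ≤ F.b1 X.t * X.τ / (2 * F.b X.t * F.Psi nL X) * F.NN nL X ^ 2 := by positivity
  linarith

theorem jump_R (h : F.Reg) (hG : F.Good) (ht : X.t = 3) (hτ : X.τ < 0) : F.W X ≤ F.Wt nR X := by
  obtain ⟨h1, -, h3, h4, -, -⟩ := hG.R3 X.t ht.ge
  have h2 := (hG.sgn X.t ⟨by rw [ht]; norm_num, ht.le⟩).1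
  have a0 := h.apos X.t
  have b0 := h.bpos X.t
  have hΨ := h.Psi_pos_of_tau (X := X) nR_ne hτ.ne
  have hΨ' : F.Psi nR X = X.τ ^ 2 * F.a X.t + (F.a X.t * X.p.1) ^ 2 := by
    simp only [Psi, Q, nR, h3]; ring
  have e : F.Wt nR X = F.W X + F.a1 X.t * X.τ / (2 * F.a X.t * F.Psi nR X) * F.NN nR X ^ 2 := by
    simp only [Wt, W, kap, Th, NN, eta, xd, Q, Q1, g1, e1, e2, h1, h3, h4]
    simp only [nR]
    simp only [nR] at hΨ hΨ'
    generalize F.Psi (1, -1) X = Ψ at *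
    field_simp
    rw [hΨ']
    ring
  rw [e]
  have h5 : 0 ≤ F.a1 X.t * X.τ := mul_nonneg_of_nonpos_of_nonpos h2 hτ.le
  have : 0 ≤ F.a1 X.t * X.τ / (2 * F.a X.t * F.Psi nR X) * F.NN nR X ^ 2 := by positivity
  linarith

/-- `r ↦ Q₁(r)(p,p)` decreases on `[0,3]` -/
theorem V1_anti (h : F.Reg) (hG : F.Good) (p : ℝ × ℝ) :
    AntitoneOn (fun r => F.Q1 r p p) (Icc (0 : ℝ) 3) := by
  have hd : ∀ r, HasDerivAt (fun r => F.Q1 r p p) (F.Q2 r p p) r := fun r => by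
    have := h.hasDerivAt_Q1 (hasDerivAt_id r) (hasDerivAt_const r p) (hasDerivAt_const r p)
    simpa only [Q1_zero_left, Q1_zero_right, add_zero, one_mul, id] using this
  refine antitoneOn_of_deriv_nonpos (convex_Icc 0 3)
    (fun r _ => (hd r).continuousAt.continuousWithinAt)
    (fun r _ => (hd r).differentiableAt.differentiableWithinAt) fun r hr => ?_
  rw [(hd r).deriv]
  exact hG.V2 r (interior_subset hr) p

theorem GG_rev (X : St) : F.GG X.rev = -F.GG X := by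
  have e1' : F.Q1 X.t (-X.p) (-X.p) = F.Q1 X.t X.p X.p := by
    simp only [Q1, Prod.fst_neg, Prod.snd_neg]; ring
  have e2' : ∀ m, F.Wt m X.rev = -F.Wt m X := fun m => by
    simp only [Wt, Om, kap, Psi, Th, eta, St.rev, Q, Q1, Prod.fst_neg, Prod.snd_neg]
    ring
  have e3 : F.W X.rev = -F.W X := by
    simp only [W, Om, xd, g1, St.rev, Q, e1, e2, Prod.fst_neg, Prod.snd_neg]
    ring
  simp only [GG, e2', e3]
  simp only [St.rev, e1']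
  split_ifs <;> rfl

theorem SolAt.rev {Y : ℝ → St} {s : ℝ} (hY : F.SolAt Y (-s)) :
    F.SolAt (fun s => (Y (-s)).rev) s := by
  have hn : HasDerivAt (fun s : ℝ => -s) (-1) s := hasDerivAt_neg s
  refine ⟨?_, ?_, ?_, ?_, ?_, ?_, ?_⟩
  · refine HasDerivAt.congr_deriv (hY.t.comp s hn) ?_
    simp [St.rev]
  · refine HasDerivAt.congr_deriv (hY.τ.comp s hn).neg ?_
    simp only [St.rev, Q1, Prod.fst_neg, Prod.snd_neg]; ring
  · refine HasDerivAt.congr_deriv (hY.y.comp s hn) ?_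
    simp [St.rev]
  · refine HasDerivAt.congr_deriv (hY.v.comp s hn).neg ?_
    simp only [St.rev, Q1, Q2, Prod.fst_neg, Prod.snd_neg]; ring
  · refine HasDerivAt.congr_deriv (hY.z.scomp s hn) ?_
    simp only [St.rev, zd, Q, Q1, e1, e2, Prod.fst_neg, Prod.snd_neg]
    ext <;> simp <;> ring
  · refine HasDerivAt.congr_deriv (hY.p.scomp s hn).neg ?_
    simp
  · refine HasDerivAt.congr_deriv (hY.π.scomp s hn).neg ?_
    simp

end Prof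

end Crest.Agent.R244
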