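import Crest.Agent.R244.AId2

/-!
# R244 / AIneq : the pointwise inequalities `Ineq` imply `Good` (pure real algebra)

Notation at `r = X.t`: `P = p.1`, `q̂ = p.2 + σ P`, `δ = σ - 1 ∈ [-1,0]`, `V = Q(p,p) = a P² + b q̂²`,
`E = τ² + V`, `m = b (q̂ - δ P)²`.  Then (all by `simp only [Q, Q1, …, nR]; ring`)
`V1 = a1 P² + b1 q̂² + 2 b σ1 P q̂`, `V2 = a2 P² + b2 q̂² + 2 (2 b1 σ1 + b σ2) P q̂ + 2 b σ1² P²`,
`Q(nR,nR) = a + b δ²`, `Q(p,nR) = a P + b q̂ δ`, `Psi nR = E (a + b δ²) - a m`,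
`b * Psi1 nR = b E (a1 + b1 δ² + 2 b δ σ1) - (a1 b + a b1) m`.

* `V2 ≤ 0`: outside `[5/4, 7/4]` `σ1 = σ2 = 0`; inside use `I3`: `a2 + 2bσ1² ≤ a2/2 ≤ 0` and the
  discriminant `(2 b1 σ1 + b σ2)² ≤ (a2/2) b2`.
* `H4b`: `Psi ≥ 0`; if `Psi = 0` then `Q(p,nR) = 0`, i.e. `a P = -b δ q̂`; so `P q̂ ≥ 0`,
  `a² P² ≤ b² q̂²`; for `r ≤ 7/4` `I5` gives `a² V1 ≥ a1 b² q̂² + a² b1 q̂² ≥ 0`; for `r ≥ 7/4`, `δ = 0`, `P = 0`.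
* `H4a`: if `Psi1 ≤ 0` then `V2 Psi ≤ 0 ≤ V1 Psi1`.  This is the case
  (i) for `r ≥ 7/4`: `δ = σ1 = 0`, `Psi1 = a1 (τ² + a P²) - a b1 q̂²`;
  (ii) for `r ≤ 7/4` and `b q̂² ≥ E/2`: `b P² ≤ E/2000` (`I4`), `m ≥ b q̂²/2 - b P² ≥ 0.245 E`,
  `a m ≤ E (a + b)` (from `Psi ≥ 0`), so `a b Psi1 ≤ E (-a1 b² + a b b1 - 0.245 a² b1) ≤ 0` by `I4`, `I5`;
  (iii) for `5/4 ≤ r ≤ 7/4` and `b q̂² ≤ E/2`: `b P² ≤ E/1000`, `m ≤ 1.1 b q̂² + 11 b P² ≤ 0.6 E`, so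
  `Psi1 ≤ E (b1 + 0.4 a1) ≤ 0` by `I6`.
  (iv) remaining case `r ≤ 5/4`, `b q̂² ≤ E/2`: `σ = σ1 = σ2 = 0`, `m ≤ 0.6 E`, `Psi ≥ 0.4 a E`,
  `Psi1 ≤ b1 E`, `-V1 ≤ -a1 P² ≤ (5/2) (-a2) P² ≤ (5/2) (-V2)` and `7 b1 ≤ a` (`I7`), so
  `(-V1) Psi1 ≤ (5/2)(-V2) b1 E ≤ (-V2) Psi`.
-/

set_option autoImplicit false

noncomputable section

open Set

namespace Crest.Agent.R244

namespace Prof

variable {F : Prof}

/-- `2 c P q ≤ x P² + y q²` if `c² ≤ x y` -/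
theorem aineq_disc {c x y P q : ℝ} (hx : 0 ≤ x) (hy : 0 ≤ y) (hc : c ^ 2 ≤ x * y) :
    2 * c * P * q ≤ x * P ^ 2 + y * q ^ 2 := by
  refine (abs_le_of_sq_le_sq' ?_ (by positivity)).2
  have h1 : (2 * c * P * q) ^ 2 = 4 * (P * q) ^ 2 * c ^ 2 := by ring
  have h2 : (x * P ^ 2 + y * q ^ 2) ^ 2 =
      4 * (P * q) ^ 2 * (x * y) + (x * P ^ 2 - y * q ^ 2) ^ 2 := by ring
  have h3 : 4 * (P * q) ^ 2 * c ^ 2 ≤ 4 * (P * q) ^ 2 * (x * y) :=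
    mul_le_mul_of_nonneg_left hc (by positivity)
  rw [h1, h2]
  linarith [sq_nonneg (x * P ^ 2 - y * q ^ 2)]

/-- upper bound for `m` -/
theorem aineq_m_le {a b δ P q T : ℝ} (hb : 0 < b) (hab : 1000 * b ≤ a) (hδ : δ ^ 2 ≤ 1)
    (hT : 0 ≤ T) (hq : b * q ^ 2 ≤ (T + (a * P ^ 2 + b * q ^ 2)) / 2) :
    b * (q - δ * P) ^ 2 ≤ 3 / 5 * (T + (a * P ^ 2 + b * q ^ 2)) := by
  have h1 : 1000 * b * P ^ 2 ≤ a * P ^ 2 := mul_le_mul_of_nonneg_right hab (sq_nonneg P)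
  have h2 : (q - δ * P) ^ 2 ≤ 11 / 10 * q ^ 2 + 11 * (δ ^ 2 * P ^ 2) := by
    nlinarith [sq_nonneg (q + 10 * (δ * P))]
  have h3 : δ ^ 2 * P ^ 2 ≤ 1 * P ^ 2 := mul_le_mul_of_nonneg_right hδ (sq_nonneg P)
  have h4 : b * (q - δ * P) ^ 2 ≤ b * (11 / 10 * q ^ 2 + 11 * P ^ 2) :=
    mul_le_mul_of_nonneg_left (by linarith) hb.le
  have h5 : 0 ≤ b * q ^ 2 := by positivity
  have h6 : 0 ≤ b * P ^ 2 := by positivity
  nlinarith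

/-- lower bound for `m` -/
theorem aineq_m_ge {a b δ P q T : ℝ} (hb : 0 < b) (hab : 1000 * b ≤ a) (hδ : δ ^ 2 ≤ 1)
    (hT : 0 ≤ T) (hq : (T + (a * P ^ 2 + b * q ^ 2)) / 2 ≤ b * q ^ 2) :
    49 / 200 * (T + (a * P ^ 2 + b * q ^ 2)) ≤ b * (q - δ * P) ^ 2 := by
  have h1 : 1000 * b * P ^ 2 ≤ a * P ^ 2 := mul_le_mul_of_nonneg_right hab (sq_nonneg P)
  have h2 : q ^ 2 / 2 - δ ^ 2 * P ^ 2 ≤ (q - δ * P) ^ 2 := by
    nlinarith [sq_nonneg (q - 2 * (δ * P))]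
  have h3 : δ ^ 2 * P ^ 2 ≤ 1 * P ^ 2 := mul_le_mul_of_nonneg_right hδ (sq_nonneg P)
  have h4 : b * (q ^ 2 / 2 - P ^ 2) ≤ b * (q - δ * P) ^ 2 :=
    mul_le_mul_of_nonneg_left (by linarith) hb.le
  have h5 : 0 ≤ b * q ^ 2 := by positivity
  have h6 : 0 ≤ b * P ^ 2 := by positivity
  nlinarith

/-- case (ii) -/
theorem aineq_ii {a A b b1 K E m w Ψ1 : ℝ} (ha : 0 < a) (hb : 0 < b) (hA : 0 ≤ A) (hb1 : 0 ≤ b1)
    (hE : 0 ≤ E) (hab : 1000 * b ≤ a) (h5 : 5 * A * b ^ 2 ≤ b1 * a ^ 2) (hK : K ≤ -A + b1)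
    (hmw : m = b * w) (hm : 49 / 200 * E ≤ m) (hm' : a * m ≤ E * (a + b))
    (hΨ : Ψ1 = E * K + A * m - a * b1 * w) : Ψ1 ≤ 0 := by
  have h1 : E * K ≤ E * (-A + b1) := mul_le_mul_of_nonneg_left hK hE
  have h2 : A * (a * m) ≤ A * (E * (a + b)) := mul_le_mul_of_nonneg_left hm' hA
  have h3 : a ^ 2 * b1 * (49 / 200 * E) ≤ a ^ 2 * b1 * m :=
    mul_le_mul_of_nonneg_left hm (by positivity)
  have h4 : E * (5 * A * b ^ 2) ≤ E * (b1 * a ^ 2) := mul_le_mul_of_nonneg_left h5 hE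
  have h6 : E * a * b1 * (1000 * b) ≤ E * a * b1 * a := mul_le_mul_of_nonneg_left hab (by positivity)
  have h7 : a * b * (E * K) ≤ a * b * (E * (-A + b1)) := mul_le_mul_of_nonneg_left h1 (by positivity)
  have h8 : b * (A * (a * m)) ≤ b * (A * (E * (a + b))) := mul_le_mul_of_nonneg_left h2 hb.le
  have h9 : 0 ≤ E * a ^ 2 * b1 := by positivity
  have e : a * b * Ψ1 = a * b * (E * K) + b * (A * (a * m)) - a ^ 2 * b1 * m := by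
    rw [hΨ, hmw]; ring
  have h10 : a * b * Ψ1 ≤ 0 := by
    rw [e]
    nlinarith
  by_contra hc
  push Not at hc
  have : 0 < a * b * Ψ1 := by positivity
  linarith

theorem aineq_Psi (F : Prof) (X : St) : F.Psi nR X =
    (X.τ ^ 2 + (F.a X.t * X.p.1 ^ 2 + F.b X.t * (X.p.2 + F.σ X.t * X.p.1) ^ 2)) *
        (F.a X.t + F.b X.t * (F.σ X.t - 1) ^ 2) -
      F.a X.t * (F.b X.t * ((X.p.2 + F.σ X.t * X.p.1) - (F.σ X.t - 1) * X.p.1) ^ 2) := by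
  simp only [Psi, Q, nR]; ring

theorem aineq_Psi1 (F : Prof) (X : St) : F.Psi1 nR X =
    (X.τ ^ 2 + (F.a X.t * X.p.1 ^ 2 + F.b X.t * (X.p.2 + F.σ X.t * X.p.1) ^ 2)) *
        (F.a1 X.t + F.b1 X.t * (F.σ X.t - 1) ^ 2 + 2 * F.b X.t * (F.σ X.t - 1) * F.σ1 X.t) +
      (-F.a1 X.t) * (F.b X.t * ((X.p.2 + F.σ X.t * X.p.1) - (F.σ X.t - 1) * X.p.1) ^ 2) -
      F.a X.t * F.b1 X.t * ((X.p.2 + F.σ X.t * X.p.1) - (F.σ X.t - 1) * X.p.1) ^ 2 := by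
  simp only [Psi1, Q, Q1, nR]; ring

theorem Ineq.V2 (h : F.Reg) (hI : F.Ineq) {r : ℝ} (hr : r ∈ Icc (0 : ℝ) 3) (p : ℝ × ℝ) :
    F.Q2 r p p ≤ 0 := by
  obtain ⟨-, h2, -, h4⟩ := hI.sgn r hr
  have e : F.Q2 r p p = F.a2 r * p.1 ^ 2 + F.b2 r * (p.2 + F.σ r * p.1) ^ 2 +
      2 * (2 * F.b1 r * F.σ1 r + F.b r * F.σ2 r) * p.1 * (p.2 + F.σ r * p.1) +
      2 * F.b r * F.σ1 r ^ 2 * p.1 ^ 2 := by
    simp only [Q2]; ring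
  have hout : F.σ1 r = 0 → F.σ2 r = 0 → F.Q2 r p p ≤ 0 := fun h5 h6 => by
    rw [e, h5, h6]
    have k1 := mul_nonpos_of_nonpos_of_nonneg h2 (sq_nonneg p.1)
    have k2 := mul_nonpos_of_nonpos_of_nonneg h4 (sq_nonneg (p.2 + F.σ r * p.1))
    linarith
  rcases le_total r (5 / 4) with h5 | h5
  · exact hout (hI.σL r h5).2.1 (hI.σL r h5).2.2
  rcases le_total (7 / 4) r with h6 | h6
  · exact hout (hI.σR r h6).2.1 (hI.σR r h6).2.2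
  obtain ⟨h7, h8⟩ := hI.I3 r ⟨h5, h6⟩
  have k1 := aineq_disc (c := 2 * F.b1 r * F.σ1 r + F.b r * F.σ2 r) (x := -F.a2 r / 2)
    (y := -F.b2 r) (P := p.1) (q := p.2 + F.σ r * p.1) (by linarith) (by linarith) (by linarith)
  have k2 : 4 * F.b r * F.σ1 r ^ 2 * p.1 ^ 2 ≤ -F.a2 r * p.1 ^ 2 :=
    mul_le_mul_of_nonneg_right h7 (sq_nonneg _)
  rw [e]
  linarith

theorem Ineq.H4b (h : F.Reg) (hI : F.Ineq) (X : St) (ht : X.t ∈ Icc (0 : ℝ) 3)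
    (hV : F.Q1 X.t X.p X.p < 0) : 0 < F.Psi nR X := by
  have a0 := h.apos X.t
  have b0 := h.bpos X.t
  obtain ⟨h1, -, h3, -⟩ := hI.sgn X.t ht
  obtain ⟨s0, s1, s2⟩ := hI.σ01 X.t
  have e : F.Psi nR X = X.τ ^ 2 * (F.a X.t + F.b X.t * (F.σ X.t - 1) ^ 2) +
      (F.a X.t * X.p.1 + F.b X.t * (X.p.2 + F.σ X.t * X.p.1) * (F.σ X.t - 1)) ^ 2 := by
    simp only [Psi, Q, nR]; ring
  have e1 : F.Q1 X.t X.p X.p = F.a1 X.t * X.p.1 ^ 2 + F.b1 X.t * (X.p.2 + F.σ X.t * X.p.1) ^ 2 +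
      2 * F.b X.t * F.σ1 X.t * X.p.1 * (X.p.2 + F.σ X.t * X.p.1) := by
    simp only [Q1]; ring
  have hne : F.a X.t * X.p.1 + F.b X.t * (X.p.2 + F.σ X.t * X.p.1) * (F.σ X.t - 1) ≠ 0 := by
    intro h0
    rw [e1] at hV
    rcases le_total X.t (7 / 4) with h6 | h6
    · have h5 := hI.I5 X.t ⟨ht.1, h6⟩
      generalize X.p.2 + F.σ X.t * X.p.1 = q at h0 hV
      have hδ : (F.σ X.t - 1) ^ 2 ≤ 1 := by nlinarith
      have hδ' : 0 ≤ 1 - F.σ X.t := by linarith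
      generalize F.σ X.t = σ at *
      generalize F.a X.t = a at *
      generalize F.b X.t = b at *
      generalize F.a1 X.t = a1 at *
      generalize F.b1 X.t = b1 at *
      generalize F.σ1 X.t = σ1 at *
      generalize X.p.1 = P at *
      have hP : a * P = b * q * (1 - σ) := by linarith
      have e2 : a ^ 2 * (a1 * P ^ 2 + b1 * q ^ 2 + 2 * b * σ1 * P * q) =
          a1 * (a * P) ^ 2 + a ^ 2 * b1 * q ^ 2 + 2 * a * b * σ1 * (a * P) * q := by ring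
      rw [hP] at e2
      have hA : 0 ≤ -a1 := by linarith
      have k1 : 0 ≤ 2 * a * b * σ1 * (b * q ^ 2 * (1 - σ)) := by positivity
      have k2 : (-a1 * b ^ 2 * q ^ 2) * (σ - 1) ^ 2 ≤ (-a1 * b ^ 2 * q ^ 2) * 1 :=
        mul_le_mul_of_nonneg_left hδ (by positivity)
      have k3 : 5 * -a1 * b ^ 2 * q ^ 2 ≤ b1 * a ^ 2 * q ^ 2 :=
        mul_le_mul_of_nonneg_right h5 (sq_nonneg q)
      have k4 : 0 ≤ -a1 * b ^ 2 * q ^ 2 := by positivity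
      have k5 : a ^ 2 * (a1 * P ^ 2 + b1 * q ^ 2 + 2 * b * σ1 * P * q) < 0 :=
        mul_neg_of_pos_of_neg (by positivity) hV
      rw [e2] at k5
      nlinarith
    · obtain ⟨h7, h8, -⟩ := hI.σR X.t h6
      rw [h7, sub_self, mul_zero, add_zero] at h0
      have hP : X.p.1 = 0 := by simpa [a0.ne'] using h0
      rw [hP, h8] at hV
      have := mul_nonneg h3 (sq_nonneg (X.p.2 + F.σ X.t * 0))
      linarith
  rw [e]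
  positivity

theorem Ineq.H4a (h : F.Reg) (hI : F.Ineq) (X : St) (ht : X.t ∈ Icc (0 : ℝ) 3)
    (hV : F.Q1 X.t X.p X.p ≤ 0) :
    F.Q2 X.t X.p X.p * F.Psi nR X ≤ F.Q1 X.t X.p X.p * F.Psi1 nR X := by
  have a0 := h.apos X.t
  have b0 := h.bpos X.t
  obtain ⟨h1, h2, h3, h4⟩ := hI.sgn X.t ht
  obtain ⟨s0, s1, s2⟩ := hI.σ01 X.t
  have hV2 := hI.V2 h ht X.p
  have hΨ := h.Psi_nonneg (X := X) nR
  have hab := hI.I4 X.t ht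
  have easy : F.Psi1 nR X ≤ 0 →
      F.Q2 X.t X.p X.p * F.Psi nR X ≤ F.Q1 X.t X.p X.p * F.Psi1 nR X := fun h0 =>
    (mul_nonpos_of_nonpos_of_nonneg hV2 hΨ).trans (mul_nonneg_of_nonpos_of_nonpos hV h0)
  have eΨ := aineq_Psi F X
  have eΨ1 := aineq_Psi1 F X
  have hδ : (F.σ X.t - 1) ^ 2 ≤ 1 := by nlinarith
  have hA : 0 ≤ -F.a1 X.t := by linarith
  have hK : F.a1 X.t + F.b1 X.t * (F.σ X.t - 1) ^ 2 + 2 * F.b X.t * (F.σ X.t - 1) * F.σ1 X.t ≤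
      -(-F.a1 X.t) + F.b1 X.t := by
    have k1 : F.b1 X.t * (F.σ X.t - 1) ^ 2 ≤ F.b1 X.t * 1 := mul_le_mul_of_nonneg_left hδ h3
    have k0 : 0 ≤ 1 - F.σ X.t := by linarith
    have k2 : 0 ≤ 2 * F.b X.t * (1 - F.σ X.t) * F.σ1 X.t := by positivity
    linarith
  rcases le_total (7 / 4) X.t with h7 | h7
  · -- case (i)
    obtain ⟨h8, h9, -⟩ := hI.σR X.t h7
    refine easy ?_
    have e : F.Psi1 nR X = -((-F.a1 X.t) * (X.τ ^ 2 + F.a X.t * X.p.1 ^ 2) +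
        F.a X.t * F.b1 X.t * (X.p.2 + X.p.1) ^ 2) := by
      rw [eΨ1, h8, h9]; ring
    rw [e, neg_nonpos]
    positivity
  have hE : 0 ≤ X.τ ^ 2 + (F.a X.t * X.p.1 ^ 2 + F.b X.t * (X.p.2 + F.σ X.t * X.p.1) ^ 2) := by
    positivity
  rcases le_total ((X.τ ^ 2 + (F.a X.t * X.p.1 ^ 2 + F.b X.t * (X.p.2 + F.σ X.t * X.p.1) ^ 2)) / 2)
    (F.b X.t * (X.p.2 + F.σ X.t * X.p.1) ^ 2) with hq | hq
  · -- case (ii)
    refine easy (aineq_ii a0 b0 hA h3 hE hab (hI.I5 X.t ⟨ht.1, h7⟩) hK rfl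
      (aineq_m_ge b0 hab hδ (sq_nonneg _) hq) ?_ eΨ1)
    have k1 : F.b X.t * (F.σ X.t - 1) ^ 2 ≤ F.b X.t * 1 := mul_le_mul_of_nonneg_left hδ b0.le
    have k2 := mul_le_mul_of_nonneg_left (show F.a X.t + F.b X.t * (F.σ X.t - 1) ^ 2 ≤
      F.a X.t + F.b X.t by linarith) hE
    linarith
  have hm := aineq_m_le b0 hab hδ (sq_nonneg X.τ) hq
  have hw : 0 ≤ F.a X.t * F.b1 X.t *
      ((X.p.2 + F.σ X.t * X.p.1) - (F.σ X.t - 1) * X.p.1) ^ 2 := by positivity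
  have k1 := mul_le_mul_of_nonneg_left hK hE
  have k2 := mul_le_mul_of_nonneg_left hm hA
  have k3 := mul_le_mul_of_nonneg_left hm a0.le
  have e1 : F.Q1 X.t X.p X.p = F.a1 X.t * X.p.1 ^ 2 + F.b1 X.t * (X.p.2 + F.σ X.t * X.p.1) ^ 2 +
      2 * F.b X.t * F.σ1 X.t * X.p.1 * (X.p.2 + F.σ X.t * X.p.1) := by
    simp only [Q1]; ring
  have e2 : F.Q2 X.t X.p X.p = F.a2 X.t * X.p.1 ^ 2 + F.b2 X.t * (X.p.2 + F.σ X.t * X.p.1) ^ 2 +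
      2 * (2 * F.b1 X.t * F.σ1 X.t + F.b X.t * F.σ2 X.t) * X.p.1 * (X.p.2 + F.σ X.t * X.p.1) +
      2 * F.b X.t * F.σ1 X.t ^ 2 * X.p.1 ^ 2 := by
    simp only [Q2]; ring
  have k4 := mul_nonneg hE (mul_nonneg b0.le (sq_nonneg (F.σ X.t - 1)))
  generalize X.τ ^ 2 + (F.a X.t * X.p.1 ^ 2 + F.b X.t * (X.p.2 + F.σ X.t * X.p.1) ^ 2) = E at *
  have hΨ1 : F.Psi1 nR X ≤ E * (F.b1 X.t - 2 / 5 * -F.a1 X.t) := by linarith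
  rcases le_total (5 / 4) X.t with h5 | h5
  · -- case (iii)
    have h6 := hI.I6 X.t ⟨h5, h7⟩
    exact easy (hΨ1.trans (mul_nonpos_of_nonneg_of_nonpos hE (by linarith)))
  -- case (iv)
  obtain ⟨-, h9, h10⟩ := hI.σL X.t h5
  obtain ⟨h11, h12⟩ := hI.I7 X.t ⟨ht.1, h5⟩
  have k5 : F.Psi1 nR X ≤ E * F.b1 X.t :=
    hΨ1.trans (mul_le_mul_of_nonneg_left (by linarith) hE)
  have k6 : 2 / 5 * (F.a X.t * E) ≤ F.Psi nR X := by linarith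
  have k7 : -F.Q1 X.t X.p X.p ≤ 5 / 2 * -F.Q2 X.t X.p X.p := by
    rw [e1, e2, h9, h10]
    have j1 := mul_nonneg h3 (sq_nonneg (X.p.2 + F.σ X.t * X.p.1))
    have j2 := mul_nonpos_of_nonpos_of_nonneg h4 (sq_nonneg (X.p.2 + F.σ X.t * X.p.1))
    have j3 := mul_le_mul_of_nonneg_right h11 (sq_nonneg X.p.1)
    linarith
  have k8 : -F.Q1 X.t X.p X.p * F.Psi1 nR X ≤ -F.Q1 X.t X.p X.p * (E * F.b1 X.t) :=
    mul_le_mul_of_nonneg_left k5 (by linarith)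
  have k9 : -F.Q1 X.t X.p X.p * (E * F.b1 X.t) ≤ 5 / 2 * -F.Q2 X.t X.p X.p * (E * F.b1 X.t) :=
    mul_le_mul_of_nonneg_right k7 (mul_nonneg hE h3)
  have k10 : 5 / 2 * (E * F.b1 X.t) ≤ F.Psi nR X := by
    have j1 := mul_le_mul_of_nonneg_left h12 hE
    have j2 := mul_nonneg hE h3
    linarith
  have k11 : -F.Q2 X.t X.p X.p * (5 / 2 * (E * F.b1 X.t)) ≤ -F.Q2 X.t X.p X.p * F.Psi nR X :=
    mul_le_mul_of_nonneg_left k10 (by linarith)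
  linarith

theorem Ineq.good (h : F.Reg) (hI : F.Ineq) : F.Good where
  L0 r hr := by
    obtain ⟨h1, h2, h3⟩ := hI.L0 r hr
    obtain ⟨h4, h5, h6⟩ := hI.σL r (by linarith)
    exact ⟨h1, h2, h4, h5, h6, h3⟩
  R3 r hr := by
    obtain ⟨h1, h2, h3⟩ := hI.R3 r hr
    obtain ⟨h4, h5, h6⟩ := hI.σR r (by linarith)
    exact ⟨h1, h2, h4, h5, h6, h3⟩
  sgn r hr := ⟨(hI.sgn r hr).1, (hI.sgn r hr).2.2.1⟩
  V2 _ hr p := hI.V2 h hr p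
  H4a := hI.H4a h
  H4b := hI.H4b h

end Prof

end Crest.Agent.R244
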