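import Crest.Agent.R244.Calc3

/-!
# R244 / Calc4 : invariance under local isometries

`gam_pull`: pair both sides with `dφ w` for `G'` at `φ x`.  Left: `ip G x (Γ(u,v)) w` (`pull`) `=` Koszul
for `G`.  Near `x`, `ip G y v w = ip G' (φ y) (dφ_y v) (dφ_y w)`, hence (chain rule, `ip_smooth`)
`dG G x u v w = dG G' (φ x) (dφ u) (dφ v) (dφ w) + ip' (d²φ(u,v)) (dφ w) + ip' (dφ v) (d²φ(u,w))`; the
second derivative is symmetric (`ContDiffAt.isSymmSndFDerivAt`), so the Koszul combination is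
`ip' (d²φ(u,v) + Γ'(dφ u, dφ v)) (dφ w)`.  `dφ_x` is injective (`ip_pos`) hence surjective; `ip_ext`.

`lin_pull`: let `S (x,u) = (u, -Γ(x)(u,u))`, `T (x,u) = (φ x, dφ_x u)` on `U × E n`.  `gam_pull` says
`DT(X) (S X) = S' (T X)` for all `X ∈ U × E n`; differentiate this identity at `X = (c s, c' s)` in the
direction `Y = (j s, j' s)`.  With `X t = (c t, c' t)`, `Y t = (j t, j' t)`:
`((φ∘c) t, (φ∘c)' t) = T (X t)` and `(j̃ t, j̃' t) = DT(X t) (Y t)` for `t` near `s` (symmetry of `d²φ`),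
so `(j̃, j̃')'(s) = D²T(X)(X', Y) + DT(X) Y'` with `X' = S X` (geodesic equation at `s`) and
`Y' = DS(X) Y` (`Lin` at `s`); by the symmetry of `D²T` this is `D[DT S](X) Y = DS'(T X) (DT(X) Y)`,
whose second component is `Lin G' …`.  (Any other route is fine.)
-/

set_option autoImplicit false

noncomputable section

open scoped ContDiff Manifold Topology
open Set Crest.GeometryTopology.CoordMetric Crest.GeometryTopology.ChartCurvature
open Crest.GeometryTopology.Geodesic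

namespace Crest.Agent.R244

variable {n : ℕ} {G G' : MetricField n} {φ : E n → E n} {U V : Set (E n)}

theorem calc4_two {c : ℝ → E n} {s : ℝ} (hc : ContDiffAt ℝ 2 c s) :
    (∀ᶠ t in 𝓝 s, HasDerivAt c (deriv c t) t) ∧ HasDerivAt (deriv c) (deriv (deriv c) s) s :=
  ⟨(hc.eventually (by simp)).mono fun t ht => (ht.differentiableAt (by simp)).hasDerivAt,
    ((hc.derivWithin (m := 1) le_rfl).differentiableAt one_ne_zero).hasDerivAt⟩

variable {D1 : E n → E n →L[ℝ] E n} {D2 : E n → E n →L[ℝ] E n →L[ℝ] E n}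
  {D3 : E n →L[ℝ] E n →L[ℝ] E n →L[ℝ] E n}

theorem calc4_curve (hU : IsOpen U) {c j : ℝ → E n} {s : ℝ} (hs : c s ∈ U)
    (h1 : ∀ y ∈ U, HasFDerivAt φ (D1 y) y) (h2 : ∀ y ∈ U, HasFDerivAt D1 (D2 y) y)
    (h3 : HasFDerivAt D2 D3 (c s)) (hc : ContDiffAt ℝ 2 c s) (hj : ContDiffAt ℝ 2 j s) :
    deriv (fun t => φ (c t)) s = D1 (c s) (deriv c s) ∧
    deriv (deriv fun t => D1 (c t) (j t)) s =
      D3 (deriv c s) (deriv c s) (j s) + D2 (c s) (deriv (deriv c) s) (j s) +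
        D2 (c s) (deriv c s) (deriv j s) +
        (D2 (c s) (deriv c s) (deriv j s) + D1 (c s) (deriv (deriv j) s)) ∧
    deriv (fun t => D1 (c t) (j t)) s = D2 (c s) (deriv c s) (j s) + D1 (c s) (deriv j s) := by
  obtain ⟨c1, c2⟩ := calc4_two hc
  obtain ⟨j1, j2⟩ := calc4_two hj
  have hcU : ∀ᶠ t in 𝓝 s, c t ∈ U := hc.continuousAt.eventually (hU.mem_nhds hs)
  have c0 := c1.self_of_nhds
  have j0 := j1.self_of_nhds
  have e2 : deriv (fun t => D1 (c t) (j t)) =ᶠ[𝓝 s]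
      fun t => D2 (c t) (deriv c t) (j t) + D1 (c t) (deriv j t) := by
    filter_upwards [hcU, c1, j1] with t a1 a2 a3
    have a4 : HasDerivAt (fun t => D1 (c t)) (D2 (c t) (deriv c t)) t := (h2 _ a1).comp_hasDerivAt t a2
    exact (a4.clm_apply a3).deriv
  have a1 : HasDerivAt (fun t => φ (c t)) (D1 (c s) (deriv c s)) s := (h1 _ hs).comp_hasDerivAt s c0
  have a2 : HasDerivAt (fun t => D1 (c t)) (D2 (c s) (deriv c s)) s := (h2 _ hs).comp_hasDerivAt s c0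
  have a3 : HasDerivAt (fun t => D2 (c t)) (D3 (deriv c s)) s :=
    HasFDerivAt.comp_hasDerivAt (E := E n →L[ℝ] E n →L[ℝ] E n) s h3 c0
  refine ⟨a1.deriv, ?_, e2.eq_of_nhds⟩
  rw [e2.deriv_eq]
  exact (((a3.clm_apply c2).clm_apply j0).fun_add (a2.clm_apply j2)).deriv

theorem calc4_alg (hG : IsRiemannianOn G U) (hG' : IsRiemannianOn G' V) {x : E n} (hs : x ∈ U)
    (hs' : φ x ∈ V) (h1 : HasFDerivAt φ (D1 x) x) (h2 : HasFDerivAt D1 (D2 x) x)
    (h3 : HasFDerivAt D2 D3 x) (y2 : ∀ y ∈ U, ∀ u v, D2 y u v = D2 y v u)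
    (y3 : ∀ u v, D3 u v = D3 v u)
    (g2 : ∀ y ∈ U, ∀ u v, D1 y (Gam G y u v) = D2 y u v + Gam G' (φ y) (D1 y u) (D1 y v))
    {a b p q r : E n} (hg : b + Gam G x a a = 0)
    (hL : r + fderiv ℝ (fun y => Gam G y a a) x p + (2 : ℝ) • Gam G x a q = 0) :
    D3 a a p + D2 x b p + D2 x a q + (D2 x a q + D1 x r) +
      fderiv ℝ (fun y => Gam G' y (D1 x a) (D1 x a)) (φ x) (D1 x p) +
      (2 : ℝ) • Gam G' (φ x) (D1 x a) (D2 x a p + D1 x q) = 0 := by
  have hU := hG.isOpen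
  have hl : ∀ w : E n, HasDerivAt (fun t : ℝ => x + t • w) w 0 := fun w => by
    simpa using ((hasDerivAt_id (0 : ℝ)).smul_const w).const_add x
  have x0 : ∀ w : E n, x = x + (0 : ℝ) • w := fun w => by simp
  have hs0 : ∀ w : E n, x + (0 : ℝ) • w ∈ U := fun w => by simpa using hs
  have hlU : ∀ w : E n, ∀ᶠ t : ℝ in 𝓝 0, x + t • w ∈ U := fun w =>
    (hl w).continuousAt.eventually (hU.mem_nhds (hs0 w))
  have l1 : HasDerivAt (fun t : ℝ => φ (x + t • p)) (D1 x p) 0 :=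
    h1.comp_hasDerivAt_of_eq 0 (hl p) (x0 p)
  have l2 : HasDerivAt (fun t : ℝ => D1 (x + t • p)) (D2 x p) 0 :=
    h2.comp_hasDerivAt_of_eq 0 (hl p) (x0 p)
  have l3 : ∀ w, HasDerivAt (fun t : ℝ => D2 (x + t • w)) (D3 w) 0 := fun w =>
    HasFDerivAt.comp_hasDerivAt_of_eq (E := E n →L[ℝ] E n →L[ℝ] E n) 0 h3 (hl w) (x0 w)
  have l3' : ∀ w u v, HasDerivAt (fun t : ℝ => D2 (x + t • w) u v) (D3 w u v) 0 := fun w u v => by
    simpa using ((l3 w).clm_apply (hasDerivAt_const _ u)).clm_apply (hasDerivAt_const _ v)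
  have l2' : HasDerivAt (fun t : ℝ => D1 (x + t • p) a) (D2 x p a) 0 := by
    simpa using l2.clm_apply (hasDerivAt_const _ a)
  have y4 : D3 a a p = D3 a p a :=
    (l3' a a p).unique ((l3' a p a).congr_of_eventuallyEq ((hlU a).mono fun t ht => y2 _ ht _ _))
  have k0 := hasDerivAt_gam hG (c := fun t : ℝ => x + t • p) (hs0 p) (hl p) (hasDerivAt_const _ a)
    (hasDerivAt_const _ a)
  have k1 := l2.clm_apply k0
  have k0' := hasDerivAt_gam hG' (c := fun t : ℝ => φ (x + t • p)) (by simpa using hs') l1 l2' l2'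
  have k2 := (l3' p a a).fun_add k0'
  have k3 := k1.unique (k2.congr_of_eventuallyEq ((hlU p).mono fun t ht => g2 _ ht a a))
  simp only [zero_smul, add_zero, gam_zero_left, gam_zero_right] at k3
  have k4 := g2 x hs a q
  have k5 := gam_symm hG' hs' (D2 x p a) (D1 x a)
  have k6 : D1 x r = -D1 x (fderiv ℝ (fun y => Gam G y a a) x p) - (2 : ℝ) • D1 x (Gam G x a q) := by
    rw [← map_smul, ← map_neg, ← map_sub]
    congr 1
    linear_combination (norm := module) hL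
  have k7 : D2 x b p = -D2 x p (Gam G x a a) := by
    rw [y2 x hs b p, ← map_neg]
    congr 1
    linear_combination (norm := module) hg
  have k8 : D3 p a a = D3 a p a := by rw [y3 p a]
  rw [gam_add_right, y2 x hs a p, k6, k7, k4, y4]
  rw [k5, k8] at k3
  linear_combination (norm := module) -k3

theorem lin_pull (h : LocIso G G' φ U V) {c j : ℝ → E n} {s : ℝ} (hs : c s ∈ U)
    (hc : ContDiffAt ℝ 2 c s) (hj : ContDiffAt ℝ 2 j s) (hg : GeodesicEqAt G c s)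
    (hL : Lin G c j s) :
    Lin G' (fun t => φ (c t)) (fun t => fderiv ℝ φ (c t) (j t)) s := by
  have hU : IsOpen U := h.riem.isOpen
  have two : minSmoothness ℝ 2 ≤ ∞ := by
    rw [minSmoothness_of_isRCLikeNormedField]
    exact ENat.LEInfty.out
  have s1 : ContDiffOn ℝ ∞ (fderiv ℝ φ) U := h.smooth.fderiv_of_isOpen hU (by simp)
  have s2 : ContDiffOn ℝ ∞ (fderiv ℝ (fderiv ℝ φ)) U := s1.fderiv_of_isOpen hU (by simp)
  have h1 : ∀ y ∈ U, HasFDerivAt φ (fderiv ℝ φ y) y := fun y hy =>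
    ((h.smooth.contDiffAt (hU.mem_nhds hy)).differentiableAt (by simp)).hasFDerivAt
  have h2 : ∀ y ∈ U, HasFDerivAt (fderiv ℝ φ) (fderiv ℝ (fderiv ℝ φ) y) y := fun y hy =>
    ((s1.contDiffAt (hU.mem_nhds hy)).differentiableAt (by simp)).hasFDerivAt
  have h3 : HasFDerivAt (fderiv ℝ (fderiv ℝ φ)) (fderiv ℝ (fderiv ℝ (fderiv ℝ φ)) (c s)) (c s) :=
    ((s2.contDiffAt (hU.mem_nhds hs)).differentiableAt (by simp)).hasFDerivAt
  have y2 : ∀ y ∈ U, ∀ u v, fderiv ℝ (fderiv ℝ φ) y u v = fderiv ℝ (fderiv ℝ φ) y v u :=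
    fun y hy u v => ((h.smooth.contDiffAt (hU.mem_nhds hy)).isSymmSndFDerivAt two).eq u v
  have y3 : ∀ u v, fderiv ℝ (fderiv ℝ (fderiv ℝ φ)) (c s) u v =
      fderiv ℝ (fderiv ℝ (fderiv ℝ φ)) (c s) v u :=
    fun u v => ((s1.contDiffAt (hU.mem_nhds hs)).isSymmSndFDerivAt two).eq u v
  have g2 : ∀ y ∈ U, ∀ u v, fderiv ℝ φ y (Gam G y u v) = fderiv ℝ (fderiv ℝ φ) y u v +
      Gam G' (φ y) (fderiv ℝ φ y u) (fderiv ℝ φ y v) := fun y hy u v => by
    rw [gam_pull h hy, ((h2 y hy).clm_apply (hasFDerivAt_const v y)).fderiv]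
    simp
  obtain ⟨e1, e2, e3⟩ := calc4_curve hU hs h1 h2 h3 hc hj
  rw [geo_iff] at hg
  unfold Lin at hL ⊢
  rw [e1, e2, e3]
  exact calc4_alg h.riem h.riem' hs (h.maps hs) (h1 _ hs) (h2 _ hs) h3 y2 y3 g2 hg hL

end Crest.Agent.R244
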