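import Crest.Agent.R244.Calc1

/-!
# R244 / CalcU : Jacobi equation = linearised geodesic equation; uniqueness for both equations

`jacobi_iff_lin`: with `Γ = Gam G`, `DΓ(a)(u,v) = fderiv (fun y => Γ y u v) (c s) a`:
`D j = j' + Γ(c', j)` (`covDeriv_eq`, as functions), `(D j)' = j'' + DΓ(c')(c',j) + Γ(c'',j) + Γ(c',j')`
(`hasDerivAt_gam`), `D D j = (D j)' + Γ(c', j' + Γ(c', j))`, and the curvature term is
`DΓ(j)(c',c') - DΓ(c')(j,c') + Γ(j, Γ(c',c')) - Γ(c', Γ(j,c'))` (`riem_eq`).  With `gam_symm` (also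
under `fderiv`: `U` is open) the sum is `Lin`-expression `+ Γ(j, c'' + Γ(c',c'))`.

Uniqueness: write the second order equation as a first order system for `(j, j')` resp. `(c, c')` in
`E n × E n`.  Local uniqueness (`ODE_solution_unique_of_eventually`, the vector field is `C¹` hence
locally Lipschitz: `ContDiffAt.exists_lipschitzOnWith`; for the linear equation add the parameter `s`:
`v s (j, k) = (k, - A s j - B s k)` with `A, B` continuous operator valued, so bounded near `s`), then the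
set of parameters near which the two solutions agree is open and closed in the interval
(`IsPreconnected`, `isPreconnected_Ioo`).
-/

set_option autoImplicit false

noncomputable section

open scoped ContDiff Manifold Topology
open Set Crest.GeometryTopology.CoordMetric Crest.GeometryTopology.ChartCurvature
open Crest.GeometryTopology.Geodesic

namespace Crest.Agent.R244

variable {n : ℕ} {G : MetricField n} {U : Set (E n)}

/-- uniqueness for a first order equation with a jointly `C¹` right-hand side -/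
theorem cu_unique {F : Type*} [NormedAddCommGroup F] [NormedSpace ℝ F] (v : ℝ → F → F)
    {f g : ℝ → F} {a b s₀ : ℝ} (hs₀ : s₀ ∈ Ioo a b)
    (hv : ∀ s ∈ Ioo a b, ContDiffAt ℝ 1 (fun p : ℝ × F => v p.1 p.2) (s, f s))
    (hf : ∀ s ∈ Ioo a b, HasDerivAt f (v s (f s)) s)
    (hg : ∀ s ∈ Ioo a b, HasDerivAt g (v s (g s)) s) (h0 : f s₀ = g s₀) :
    ∀ s ∈ Ioo a b, f s = g s := by
  have hloc : ∀ s ∈ Ioo a b, f s = g s → f =ᶠ[𝓝 s] g := by
    intro s hs he
    obtain ⟨K, T, hT, hK⟩ := (hv s hs).exists_lipschitzOnWith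
    obtain ⟨A, hA, S, hS, hAS⟩ := mem_nhds_prod_iff.1 hT
    have hI : ∀ᶠ t in 𝓝 s, t ∈ Ioo a b := isOpen_Ioo.mem_nhds hs
    refine ODE_solution_unique_of_eventually (v := v) (s := fun _ => S) (K := K) ?_ ?_ ?_ he
    · filter_upwards [hA] with t ht
      intro x hx y hy
      have := hK (hAS (mk_mem_prod ht hx)) (hAS (mk_mem_prod ht hy))
      simpa [Prod.edist_eq] using this
    · have : ∀ᶠ t in 𝓝 s, f t ∈ S := (hf s hs).continuousAt.preimage_mem_nhds hS
      filter_upwards [hI, this] with t ht h2 using ⟨hf t ht, h2⟩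
    · have : ∀ᶠ t in 𝓝 s, g t ∈ S := (hg s hs).continuousAt.preimage_mem_nhds (he ▸ hS)
      filter_upwards [hI, this] with t ht h2 using ⟨hg t ht, h2⟩
  have hsub : Ioo a b ⊆ {s | f =ᶠ[𝓝 s] g} := by
    refine isPreconnected_Ioo.subset_of_closure_inter_subset isOpen_setOfPred_eventually_nhds
      ⟨s₀, hs₀, hloc s₀ hs₀ h0⟩ ?_
    rintro s ⟨hcl, hs⟩
    refine hloc s hs ?_
    have hfr : ∃ᶠ t in 𝓝 s, f t = g t := by
      refine (mem_closure_iff_frequently.1 hcl).mono ?_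
      intro t ht
      exact Filter.EventuallyEq.eq_of_nhds ht
    exact tendsto_nhds_unique_of_frequently_eq (hf s hs).continuousAt (hg s hs).continuousAt hfr
  intro s hs
  exact Filter.EventuallyEq.eq_of_nhds (hsub hs)

theorem cu_deriv {c : ℝ → E n} {s : ℝ} (hc : ContDiffAt ℝ 2 c s) :
    ContDiffAt ℝ 1 (deriv c) s := by
  have h := (hc.fderiv_right (m := 1) (by norm_num)).clm_apply (contDiffAt_const (c := (1 : ℝ)))
  exact h

theorem cu_pair {c : ℝ → E n} {s : ℝ} (hc : ContDiffAt ℝ 2 c s) :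
    HasDerivAt (fun t => (c t, deriv c t)) (deriv c s, deriv (deriv c) s) s :=
  (hc.differentiableAt (by norm_num)).hasDerivAt.prodMk
    ((cu_deriv hc).differentiableAt (by norm_num)).hasDerivAt

theorem cu_gam (h : IsRiemannianOn G U) {x : E n} (hx : x ∈ U) (u v : E n) :
    ContDiffAt ℝ ∞ (fun p : E n × E n × E n => Gam G p.1 p.2.1 p.2.2) (x, u, v) :=
  (gam_smooth h).contDiffAt ((h.isOpen.prod isOpen_univ).mem_nhds ⟨hx, mem_univ _⟩)

theorem cu_dgam0 {F : Type*} [NormedAddCommGroup F] [NormedSpace ℝ F] {Φ : F × F × F → F} {x u : F}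
    (h1 : ContDiffAt ℝ 2 Φ (x, u, u)) :
    ContDiffAt ℝ 1 (fun p : F × F => fderiv ℝ (fun y => Φ (y, p.2, p.2)) p.1) (x, u) := by
  refine ContDiffAt.fderiv (n := 2) (f := fun (p : F × F) y => Φ (y, p.2, p.2))
    (g := fun p => p.1) ?_ contDiffAt_fst (by norm_num)
  have h2 : ContDiffAt ℝ 2 (fun q : (F × F) × F => (q.2, q.1.2, q.1.2)) ((x, u), x) := by
    fun_prop
  exact ContDiffAt.comp (g := Φ) ((x, u), x) h1 h2

theorem cu_dgam (h : IsRiemannianOn G U) {x : E n} (hx : x ∈ U) (u : E n) :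
    ContDiffAt ℝ 1 (fun p : E n × E n => fderiv ℝ (fun y => Gam G y p.2 p.2) p.1) (x, u) :=
  cu_dgam0 (Φ := fun p : E n × E n × E n => Gam G p.1 p.2.1 p.2.2)
    ((cu_gam h hx u u).of_le (by norm_cast))

theorem lin_unique (h : IsRiemannianOn G U) {c j : ℝ → E n} {a b s₀ : ℝ} (hs₀ : s₀ ∈ Ioo a b)
    (hU : ∀ s ∈ Ioo a b, c s ∈ U) (hc : ∀ s ∈ Ioo a b, ContDiffAt ℝ 2 c s)
    (hj : ∀ s ∈ Ioo a b, ContDiffAt ℝ 2 j s) (hL : ∀ s ∈ Ioo a b, Lin G c j s)
    (h0 : j s₀ = 0) (h1 : deriv j s₀ = 0) : ∀ s ∈ Ioo a b, j s = 0 := by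
  have key := cu_unique (F := E n × E n)
    (fun s p => (p.2, -(fderiv ℝ (fun x => Gam G x (deriv c s) (deriv c s)) (c s) p.1 +
      (2 : ℝ) • Gam G (c s) (deriv c s) p.2)))
    (f := fun t => (j t, deriv j t)) (g := fun _ => 0) hs₀ ?_ ?_ ?_ (by simp [h0, h1])
  · intro s hs
    exact congrArg Prod.fst (key s hs)
  · intro s hs
    have hc1 : ContDiffAt ℝ 1 (fun p : ℝ × E n × E n => c p.1) (s, j s, deriv j s) :=
      ContDiffAt.comp (g := c) (s, j s, deriv j s) ((hc s hs).of_le (by norm_num)) contDiffAt_fst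
    have hc2 : ContDiffAt ℝ 1 (fun p : ℝ × E n × E n => deriv c p.1) (s, j s, deriv j s) :=
      ContDiffAt.comp (g := deriv c) (s, j s, deriv j s) (cu_deriv (hc s hs)) contDiffAt_fst
    have hA : ContDiffAt ℝ 1 (fun p : ℝ × E n × E n =>
        fderiv ℝ (fun x => Gam G x (deriv c p.1) (deriv c p.1)) (c p.1)) (s, j s, deriv j s) :=
      ContDiffAt.comp (g := fun p : E n × E n => fderiv ℝ (fun y => Gam G y p.2 p.2) p.1)
        (f := fun p : ℝ × E n × E n => (c p.1, deriv c p.1)) (s, j s, deriv j s)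
        (cu_dgam h (hU s hs) (deriv c s)) (hc1.prodMk hc2)
    have hB : ContDiffAt ℝ 1 (fun p : ℝ × E n × E n => Gam G (c p.1) (deriv c p.1) p.2.2)
        (s, j s, deriv j s) :=
      ContDiffAt.comp (g := fun p : E n × E n × E n => Gam G p.1 p.2.1 p.2.2)
        (f := fun p : ℝ × E n × E n => (c p.1, deriv c p.1, p.2.2)) (s, j s, deriv j s)
        ((cu_gam h (hU s hs) (deriv c s) (deriv j s)).of_le (by norm_cast))
        (hc1.prodMk (hc2.prodMk contDiffAt_snd.snd))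
    exact contDiffAt_snd.snd.prodMk
      ((hA.clm_apply contDiffAt_snd.fst).add (hB.const_smul (2 : ℝ))).neg
  · intro s hs
    have e : deriv (deriv j) s = -(fderiv ℝ (fun x => Gam G x (deriv c s) (deriv c s)) (c s) (j s) +
      (2 : ℝ) • Gam G (c s) (deriv c s) (deriv j s)) := by
      have := hL s hs
      unfold Lin at this
      rw [add_assoc] at this
      exact eq_neg_of_add_eq_zero_left this
    have := cu_pair (hj s hs)
    rw [e] at this
    exact this
  · intro s hs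
    have := hasDerivAt_const s (0 : E n × E n)
    simpa [gam_zero_right, Prod.mk_zero_zero] using this

theorem geo_unique (h : IsRiemannianOn G U) {c₁ c₂ : ℝ → E n} {a b s₀ : ℝ} (hs₀ : s₀ ∈ Ioo a b)
    (hU : ∀ s ∈ Ioo a b, c₁ s ∈ U) (hc₁ : ∀ s ∈ Ioo a b, ContDiffAt ℝ 2 c₁ s)
    (hc₂ : ∀ s ∈ Ioo a b, ContDiffAt ℝ 2 c₂ s) (hg₁ : ∀ s ∈ Ioo a b, GeodesicEqAt G c₁ s)
    (hg₂ : ∀ s ∈ Ioo a b, GeodesicEqAt G c₂ s) (h0 : c₁ s₀ = c₂ s₀)
    (h1 : deriv c₁ s₀ = deriv c₂ s₀) : ∀ s ∈ Ioo a b, c₁ s = c₂ s := by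
  have hd : ∀ {c : ℝ → E n} {s : ℝ}, ContDiffAt ℝ 2 c s → GeodesicEqAt G c s →
      HasDerivAt (fun t => (c t, deriv c t))
        (deriv c s, -Gam G (c s) (deriv c s) (deriv c s)) s := by
    intro c s hc hg
    have e : deriv (deriv c) s = -Gam G (c s) (deriv c s) (deriv c s) :=
      eq_neg_of_add_eq_zero_left ((geo_iff G c s).1 hg)
    have := cu_pair hc
    rw [e] at this
    exact this
  have key := cu_unique (F := E n × E n) (fun _ p => (p.2, -Gam G p.1 p.2 p.2))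
    (f := fun t => (c₁ t, deriv c₁ t)) (g := fun t => (c₂ t, deriv c₂ t)) hs₀ ?_
    (fun s hs => hd (hc₁ s hs) (hg₁ s hs)) (fun s hs => hd (hc₂ s hs) (hg₂ s hs))
    (by simp [h0, h1])
  · intro s hs
    exact congrArg Prod.fst (key s hs)
  · intro s hs
    have hB : ContDiffAt ℝ 1 (fun p : ℝ × E n × E n => Gam G p.2.1 p.2.2 p.2.2)
        (s, c₁ s, deriv c₁ s) :=
      ContDiffAt.comp (g := fun p : E n × E n × E n => Gam G p.1 p.2.1 p.2.2)
        (f := fun p : ℝ × E n × E n => (p.2.1, p.2.2, p.2.2)) (s, c₁ s, deriv c₁ s)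
        ((cu_gam h (hU s hs) (deriv c₁ s) (deriv c₁ s)).of_le (by norm_cast))
        (contDiffAt_snd.fst.prodMk (contDiffAt_snd.snd.prodMk contDiffAt_snd.snd))
    exact contDiffAt_snd.snd.prodMk hB.neg

end Crest.Agent.R244
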