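import Crest.Agent.R244.Chart0

/-!
# R244 / Chart1 : the metric in a chart; chart changes are local isometries; representations of curves

Hints.  `(chartAt x).symm` is `C^∞` on the target (`contMDiffOn_chart_symm`), so
`y ↦ (⟨(chartAt x).symm y, mfderiv (chartAt x).symm y e⟩ : TangentBundle)` is a smooth section along it
(`ContMDiffOn.contMDiffOn_tangentMapWithin`, or `ContMDiffAt.mfderiv_const`/`inCoordinates`; note that in
the trivialization of the tangent bundle at `x` this section is the constant `e`: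
`TangentBundle.continuousLinearMapAt_trivializationAt`, `TangentBundle.symmL_trivializationAt`,
`mfderiv_extChartAt_comp_mfderivWithin_extChartAt_symm`); smoothness of the inner product:
`letI : RiemannianBundle _ := ⟨g.toRiemannianMetric⟩`, `ContMDiffWithinAt.inner_bundle`
(instance `IsContMDiffRiemannianBundle` from `g`), or `g.contMDiff` with `ContMDiffAt.clm_bundle_apply₂`.
Positivity: `g.pos`, `g.symm`, and `mfderiv (chartAt x).symm y` is injective
(`(mdifferentiable_chart x).symm.mfderiv_injective`, `OpenPartialHomeomorph.MDifferentiable.*`).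
-/

set_option autoImplicit false

noncomputable section

open scoped ContDiff Manifold Topology
open Set Crest.GeometryTopology.CoordMetric Crest.GeometryTopology.ChartCurvature
open Crest.GeometryTopology.Geodesic

namespace Crest.Agent.R244

variable {n : ℕ} {M : Type*} [TopologicalSpace M] [ChartedSpace (E n) M]
  [IsManifold 𝓘(ℝ, E n) ∞ M]

theorem c1_chart {x m : M} (hm : m ∈ (chartAt (E n) x).source) :
    ContMDiffAt 𝓘(ℝ, E n) 𝓘(ℝ, E n) ∞ (chartAt (E n) x) m :=
  contMDiffOn_chart.contMDiffAt ((chartAt (E n) x).open_source.mem_nhds hm)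

theorem c1_chg {x x' : M} {y : E n} (hy : y ∈ chgDom n x x') : ContDiffAt ℝ ∞ (chg (n := n) x x') y :=
  contMDiffAt_iff_contDiffAt.1 ((c1_chart hy.2).comp y
    (contMDiffOn_chart_symm.contMDiffAt ((chartAt (E n) x).open_target.mem_nhds hy.1)))

theorem dch_chg {x x' m : M} (hm : m ∈ (chartAt (E n) x).source)
    (hm' : m ∈ (chartAt (E n) x').source) (u : E n) :
    dch x' m u = fderiv ℝ (chg (n := n) x x') (chartAt (E n) x m) (dch x m u) := by
  have h1 : (chartAt (E n) x' : M → E n) =ᶠ[𝓝 m] chg (n := n) x x' ∘ chartAt (E n) x := by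
    filter_upwards [(chartAt (E n) x).open_source.mem_nhds hm] with z hz
    simp [chg, (chartAt (E n) x).left_inv hz]
  have h2 : ContDiffAt ℝ ∞ (chg (n := n) x x') (chartAt (E n) x m) :=
    c1_chg ⟨(chartAt (E n) x).map_source hm, by simpa [(chartAt (E n) x).left_inv hm] using hm'⟩
  have h3 := mfderiv_comp m (h2.differentiableAt (by simp)).mdifferentiableAt
    ((c1_chart hm).mdifferentiableAt (by simp))
  rw [mfderiv_eq_fderiv] at h3
  exact congrArg (fun L : E n →L[ℝ] E n => L u) (h1.mfderiv_eq.trans h3)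

theorem chart_locIso (g : Met n M) (x x' : M) :
    LocIso (metricInChart g x) (metricInChart g x') (chg x x') (chgDom n x x')
      (chartAt (E n) x').target := by
  have h := metricInChart_riem g x
  refine ⟨⟨(chartAt (E n) x).isOpen_inter_preimage_symm (chartAt (E n) x').open_source,
    fun i j => (h.contDiffOn i j).mono inter_subset_left, fun y hy => h.posDef y hy.1⟩, metricInChart_riem g x',
    fun y hy => (chartAt (E n) x').map_source hy.2, fun y hy => (c1_chg hy).contDiffWithinAt, fun y hy u v => ?_⟩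
  have hm := (chartAt (E n) x).map_target hy.1
  obtain ⟨u, rfl⟩ := dch_surjective hm u
  obtain ⟨v, rfl⟩ := dch_surjective hm v
  have h1 := (inner_eq_ip g hm u v).symm.trans (inner_eq_ip g hy.2 u v)
  rwa [dch_chg hm hy.2, dch_chg hm hy.2, (chartAt (E n) x).right_inv hy.1] at h1

theorem cRep_smooth {γ : ℝ → M} {x : M} {s : ℝ} (hγ : ContMDiffAt 𝓘(ℝ, ℝ) 𝓘(ℝ, E n) ∞ γ s)
    (hs : γ s ∈ (chartAt (E n) x).source) : ContDiffAt ℝ ∞ (cRep (n := n) γ x) s :=
  contMDiffAt_iff_contDiffAt.1 ((c1_chart hs).comp s hγ)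

theorem jRep_smooth {γ : ℝ → M} {J : ℝ → E n} {x : M} {s : ℝ}
    (hJ : ContMDiffAt 𝓘(ℝ, ℝ) (𝓘(ℝ, E n)).tangent ∞
      (fun t => (Bundle.TotalSpace.mk' (E n) (γ t) (J t) : TangentBundle 𝓘(ℝ, E n) M)) s)
    (hs : γ s ∈ (chartAt (E n) x).source) : ContDiffAt ℝ ∞ (jRep γ J x) s := by
  obtain ⟨h1, h2⟩ := ((trivializationAt (E n) (TangentSpace 𝓘(ℝ, E n)) x).contMDiffAt_iff
    (IB := 𝓘(ℝ, E n)) (by simpa using hs)).1 hJ
  refine (contMDiffAt_iff_contDiffAt.1 h2).congr_of_eventuallyEq ?_
  filter_upwards [h1.continuousAt.preimage_mem_nhds ((chartAt (E n) x).open_source.mem_nhds hs)] with t ht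
  rw [jRep, dch_chg (mem_chart_source (E n) (γ t)) ht, dch_self, TangentBundle.trivializationAt_apply]
  simp only [modelWithCornersSelf_coe, range_id, fderivWithin_univ]
  rfl

end Crest.Agent.R244
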