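import Crest.Agent.R244.Calc2
import Crest.Agent.R244.CalcU
import Crest.Agent.R244.Calc4
import Crest.Agent.R244.Chart1

/-!
# R244 / Chart2 : geodesics and Jacobi fields in an arbitrary preferred chart

`geo_rep`, `lin_rep`: near `s`, `cRep γ x = chg (γ s) x ∘ cRep γ (γ s)` and
`jRep γ J x t = fderiv (chg (γ s) x) (cRep γ (γ s) t) (jRep γ J (γ s) t)` (`dch_chg`); use `geo_pull`,
`jacobi_iff_lin`, `lin_pull` with `chart_locIso`; the equations at `s` only depend on the germs of the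
curves at `s` (`Filter.EventuallyEq.deriv`).
`jacobi_zero`: the set `{s | ∀ᶠ t in 𝓝 s, J t = 0}` is open, contains `a` and is closed (`lin_unique` on
an interval round `s` mapped into the source of the chart at `γ s`, `dch_injective`).
`hasDerivAt_Wg`: near `s`, `g.inner (γ t) (J t) (J t) = ip G (c t) (j t) (j t)` (`inner_eq_ip`), so
`Wg t = ip G (c t) (D j t) (j t)` near `s` (`hasDerivAt_ip`, `ip_symm`); then `hasDerivAt_ip_cov`.
-/

set_option autoImplicit false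

noncomputable section

open scoped ContDiff Manifold Topology
open Set Crest.GeometryTopology.CoordMetric Crest.GeometryTopology.ChartCurvature
open Crest.GeometryTopology.Geodesic

namespace Crest.Agent.R244

variable {n : ℕ} {M : Type*} [TopologicalSpace M] [ChartedSpace (E n) M]
  [IsManifold 𝓘(ℝ, E n) ∞ M] {g : Met n M} {γ : ℝ → M} {J : ℝ → E n}

theorem c2_geo_congr {G : MetricField n} {c c' : ℝ → E n} {s : ℝ} (h : c =ᶠ[𝓝 s] c')
    (hg : GeodesicEqAt G c s) : GeodesicEqAt G c' s := by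
  rw [geo_iff] at hg ⊢
  rwa [← h.eq_of_nhds, ← h.deriv_eq, ← h.deriv.deriv_eq]

theorem c2_lin_congr {G : MetricField n} {c c' j j' : ℝ → E n} {s : ℝ} (h : c =ᶠ[𝓝 s] c')
    (hj : j =ᶠ[𝓝 s] j') (hg : Lin G c j s) : Lin G c' j' s := by
  unfold Lin at hg ⊢
  rwa [← h.eq_of_nhds, ← h.deriv_eq, ← hj.eq_of_nhds, ← hj.deriv_eq, ← hj.deriv.deriv_eq]

omit [IsManifold 𝓘(ℝ, E n) ∞ M] in
theorem c2_near (hγ : Continuous γ) {x : M} {s : ℝ} (hs : γ s ∈ (chartAt (E n) x).source) :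
    ∀ᶠ t in 𝓝 s, γ t ∈ (chartAt (E n) x).source :=
  hγ.continuousAt.preimage_mem_nhds ((chartAt (E n) x).open_source.mem_nhds hs)

theorem c2_two {f : ℝ → E n} {s : ℝ} (h : ContDiffAt ℝ ∞ f s) : ContDiffAt ℝ 2 f s :=
  h.of_le (WithTop.coe_le_coe.2 le_top : ((2 : ℕ∞) : WithTop ℕ∞) ≤ ((⊤ : ℕ∞) : WithTop ℕ∞))

theorem c2_c (hγ : IsGeodesic g γ) {x : M} {s : ℝ} (hs : γ s ∈ (chartAt (E n) x).source) :
    ContDiffAt ℝ 2 (cRep (n := n) γ x) s := c2_two (cRep_smooth (hγ.1 s) hs)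

theorem c2_j (hJ : IsJacobiField g γ J) {x : M} {s : ℝ} (hs : γ s ∈ (chartAt (E n) x).source) :
    ContDiffAt ℝ 2 (jRep γ J x) s := c2_two (jRep_smooth (hJ.1 s) hs)

omit [IsManifold 𝓘(ℝ, E n) ∞ M] in
theorem c2_dom {x x' : M} {s : ℝ} (hs : γ s ∈ (chartAt (E n) x).source)
    (hs' : γ s ∈ (chartAt (E n) x').source) : cRep γ x s ∈ chgDom n x x' :=
  ⟨(chartAt (E n) x).map_source hs, by
    rw [mem_preimage, cRep, (chartAt (E n) x).left_inv hs]; exact hs'⟩

omit [IsManifold 𝓘(ℝ, E n) ∞ M] in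
theorem c2_chg (hγ : Continuous γ) {x : M} (x' : M) {s : ℝ} (hs : γ s ∈ (chartAt (E n) x).source) :
    (fun t => chg x x' (cRep (n := n) γ x t)) =ᶠ[𝓝 s] cRep γ x' :=
  (c2_near hγ hs).mono fun t ht => by
    simp only [chg, cRep, (chartAt (E n) x).left_inv ht]

theorem geo_rep (hγ : IsGeodesic g γ) {x : M} {s : ℝ} (hs : γ s ∈ (chartAt (E n) x).source) :
    GeodesicEqAt (metricInChart g x) (cRep γ x) s :=
  have h0 := mem_chart_source (E n) (γ s)
  c2_geo_congr (c2_chg hγ.1.continuous x h0)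
    (geo_pull (chart_locIso g (γ s) x) (c2_dom h0 hs) (c2_c hγ h0) (hγ.2 s))

theorem lin_rep (hγ : IsGeodesic g γ) (hJ : IsJacobiField g γ J) {x : M} {s : ℝ}
    (hs : γ s ∈ (chartAt (E n) x).source) :
    Lin (metricInChart g x) (cRep γ x) (jRep γ J x) s := by
  have h0 := mem_chart_source (E n) (γ s)
  have hL : Lin (metricInChart g (γ s)) (cRep γ (γ s)) (jRep γ J (γ s)) s :=
    (jacobi_iff_lin (metricInChart_riem g (γ s)) ((chartAt (E n) (γ s)).map_source h0) (c2_c hγ h0)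
      (c2_j hJ h0) (hγ.2 s)).1 (hJ.2 s)
  refine c2_lin_congr (c2_chg hγ.1.continuous x h0) ?_
    (lin_pull (chart_locIso g (γ s) x) (c2_dom h0 hs) (c2_c hγ h0) (c2_j hJ h0) (hγ.2 s) hL)
  filter_upwards [c2_near hγ.1.continuous h0, c2_near hγ.1.continuous hs] with t ht ht'
  exact (dch_chg ht ht' (J t)).symm

theorem jacobi_rep (hγ : IsGeodesic g γ) (hJ : IsJacobiField g γ J) {x : M} {s : ℝ}
    (hs : γ s ∈ (chartAt (E n) x).source) :
    JacobiEqAt (metricInChart g x) (cRep γ x) (jRep γ J x) s :=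
  (jacobi_iff_lin (metricInChart_riem g x) ((chartAt (E n) x).map_source hs) (c2_c hγ hs)
    (c2_j hJ hs) (geo_rep hγ hs)).2 (lin_rep hγ hJ hs)

/-- local uniqueness on an interval mapped into the source of one chart -/
theorem c2_zero (hγ : IsGeodesic g γ) (hJ : IsJacobiField g γ J) {x : M} {a b s₀ : ℝ}
    (hs₀ : s₀ ∈ Ioo a b) (hU : ∀ s ∈ Ioo a b, γ s ∈ (chartAt (E n) x).source)
    (h0 : J s₀ = 0) (h1 : deriv (jRep γ J x) s₀ = 0) : ∀ s ∈ Ioo a b, J s = 0 := fun s hs =>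
  dch_injective (hU s hs) <| (lin_unique (metricInChart_riem g x) hs₀
    (fun t ht => (chartAt (E n) x).map_source (hU t ht)) (fun t ht => c2_c hγ (hU t ht))
    (fun t ht => c2_j hJ (hU t ht)) (fun t ht => lin_rep hγ hJ (hU t ht))
    (by rw [jRep, h0, map_zero]) h1 s hs).trans (map_zero _).symm

theorem jacobi_zero (hγ : IsGeodesic g γ) (hJ : IsJacobiField g γ J) {a : ℝ} (h0 : J a = 0)
    (h1 : deriv (jRep γ J (γ a)) a = 0) (t : ℝ) : J t = 0 := by
  have key : ∀ s : ℝ, ∃ p q, s ∈ Ioo p q ∧ ∀ t ∈ Ioo p q, γ t ∈ (chartAt (E n) (γ s)).source :=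
    fun s => mem_nhds_iff_exists_Ioo_subset.1
      (c2_near hγ.1.continuous (mem_chart_source (E n) (γ s)))
  have hcl : IsClopen {s : ℝ | ∀ᶠ t in 𝓝 s, J t = 0} := by
    refine ⟨isClosed_of_closure_subset fun s hs => ?_, isOpen_setOfPred_eventually_nhds⟩
    obtain ⟨p, q, hs1, hs2⟩ := key s
    obtain ⟨s₀, h2, h3⟩ := mem_closure_iff.1 hs _ isOpen_Ioo hs1
    have h4 : jRep γ J (γ s) =ᶠ[𝓝 s₀] fun _ => 0 :=
      Filter.Eventually.mono h3 fun t ht => by rw [jRep, ht, map_zero]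
    exact Filter.mem_of_superset (isOpen_Ioo.mem_nhds hs1)
      (c2_zero hγ hJ h2 hs2 (Filter.Eventually.self_of_nhds (p := fun t => J t = 0) h3)
        (by rw [h4.deriv_eq, deriv_const]))
  obtain ⟨p, q, hs1, hs2⟩ := key a
  have ha : a ∈ {s : ℝ | ∀ᶠ t in 𝓝 s, J t = 0} :=
    Filter.mem_of_superset (isOpen_Ioo.mem_nhds hs1) (c2_zero hγ hJ hs1 hs2 h0 h1)
  have ht : t ∈ {s : ℝ | ∀ᶠ t in 𝓝 s, J t = 0} := by
    rw [hcl.eq_univ ⟨a, ha⟩]; trivial
  exact Filter.Eventually.self_of_nhds (p := fun t => J t = 0) ht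

/-- `½ (|J|²)'` -/
def Wg (g : Met n M) (γ : ℝ → M) (J : ℝ → E n) (s : ℝ) : ℝ :=
  deriv (fun t => g.inner (γ t) (J t) (J t)) s / 2

theorem Wg_eq (hγ : IsGeodesic g γ) (hJ : IsJacobiField g γ J) {x : M} {s : ℝ}
    (hs : γ s ∈ (chartAt (E n) x).source) :
    Wg g γ J s = ip (metricInChart g x) (cRep γ x s)
      (covDeriv (metricInChart g x) (cRep γ x) (jRep γ J x) s) (jRep γ J x s) := by
  have hm : cRep γ x s ∈ _ := (chartAt (E n) x).map_source hs
  have e : (fun t => g.inner (γ t) (J t) (J t)) =ᶠ[𝓝 s]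
      fun t => ip (metricInChart g x) (cRep γ x t) (jRep γ J x t) (jRep γ J x t) :=
    (c2_near hγ.1.continuous hs).mono fun t ht => inner_eq_ip g ht _ _
  have hj := (c2_j hJ hs).differentiableAt two_ne_zero
  rw [Wg, e.deriv_eq, (hasDerivAt_ip (metricInChart_riem g x) hm
    ((c2_c hγ hs).differentiableAt two_ne_zero) hj hj).deriv,
    ip_symm (metricInChart_riem g x) hm (jRep γ J x s)]
  ring

theorem hasDerivAt_Wg (hγ : IsGeodesic g γ) (hJ : IsJacobiField g γ J) {x : M} {s : ℝ}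
    (hs : γ s ∈ (chartAt (E n) x).source) :
    HasDerivAt (Wg g γ J)
      (ip (metricInChart g x) (cRep γ x s)
          (covDeriv (metricInChart g x) (cRep γ x) (jRep γ J x) s)
          (covDeriv (metricInChart g x) (cRep γ x) (jRep γ J x) s) -
        secNumer (metricInChart g x) (cRep γ x s) (jRep γ J x s) (deriv (cRep γ x) s)) s :=
  (hasDerivAt_ip_cov (metricInChart_riem g x) ((chartAt (E n) x).map_source hs) (c2_c hγ hs)
    (c2_j hJ hs) (jacobi_rep hγ hJ hs)).congr_of_eventuallyEq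
    ((c2_near hγ.1.continuous hs).mono fun _ ht => Wg_eq hγ hJ ht)

end Crest.Agent.R244
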