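import Crest.Agent.R244.ANeck
import Crest.Agent.R244.Chart2

/-!
# R244 / AMain1 : no conjugate points

`stX s` is the state read in the preferred chart at `γ s`; `FF s = GG (stX s)` if `γ s` is in the neck
with `0 < t < 3`, and `Wg s = ½ (|J|²)'` otherwise.

`neck_local` (`x₀ = γ s₀ ∈ Nk`, `Y = stateOf (cRep γ x₀) (jRep γ J x₀)`): for `s` near `s₀`,
`γ s ∈ (chartAt x₀).source ⊆ Nk`; the metric in the chart at `x₀` is `GN` near `cRep γ x₀ s` (`met`, the
target is open), so `geo_rep`, `lin_rep`, `geo_congr`, `lin_congr`, `solAt_of` give `SolAt Y s`;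
by `trans`, `chartAt (γ s) = chartAt x₀ + l` near `γ s` with `l 0 = 0`, so near `s`
`cRep γ (γ s) = cRep γ x₀ + l` and `jRep γ J (γ s) = jRep γ J x₀` (`Filter.EventuallyEq.mfderiv_eq`; the
`mfderiv` of `f + l` is that of `f`), hence `stX s = Y s`;
`g.inner (γ u) (J u) (J u) = Nn (Y u)` for `u` near `s` (`inner_eq_ip`, `met`, `ip_GN`) so `Wg s = W (Y s)`
(`SolAt.hasDerivAt_Nn`); finally `GG = W` unless `0 < t < 3`.
`Wg_deriv_nonneg`: at a flat point `hasDerivAt_Wg` + `flat_of_const` + `ip_nonneg`; at a neck point with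
`t ≤ 0` or `t ≥ 3`: `Wg = W ∘ Y` near `s`, `SolAt.hasDerivAt_W`, `DW_L`, `DW_R`.
`out_local` (`γ s₀ ∉ Nk`): `κ (γ s₀) ∈ {-1, 4}`, so for `s` near `s₀`, `κ (γ s) < 0` or `> 3`; if
`γ s ∈ Nk`, `κN` gives `t < 0` or `t > 3`.
`no_conj`: `FF` is monotone (`mono_of_local`; `germ_right`, `germ_left`, `RG.right`, `RG.congr`; at points
outside `Nk` `FF = Wg` has a non-negative derivative near `s₀`), `FF a = FF b = 0` (`GG_zero`, `Wg_eq`), so for
`a < b`, `FF = 0` on `[a,b]`; `RG.eq_zero` gives `E0 = 0` so `v = 0`, `π = 0` and `j'(a) = zd = 0`; outside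
`Nk`, `ip (Dj) (Dj) = 0` so `j'(a) = 0` (`covDeriv_eq`, `gam_zero_right`); conclude with `jacobi_zero`.
-/

set_option autoImplicit false

noncomputable section

open scoped ContDiff Manifold Topology
open Set Crest.GeometryTopology.CoordMetric Crest.GeometryTopology.ChartCurvature
open Crest.GeometryTopology.Geodesic

namespace Crest.Agent.R244

theorem geo_congr {n : ℕ} {G G' : MetricField n} {c : ℝ → E n} {s : ℝ}
    (h : G =ᶠ[𝓝 (c s)] G') (hg : GeodesicEqAt G c s) : GeodesicEqAt G' c s := by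
  intro k
  rw [← (christoffel_congr h).self_of_nhds]
  exact hg k

theorem lin_congr {n : ℕ} {G G' : MetricField n} {c j : ℝ → E n} {s : ℝ}
    (h : G =ᶠ[𝓝 (c s)] G') (hg : Lin G c j s) : Lin G' c j s := by
  have h1 := christoffel_congr h
  have h2 : ∀ u v, (fun x => Gam G x u v) =ᶠ[𝓝 (c s)] fun x => Gam G' x u v := fun u v => by
    filter_upwards [h1] with y hy
    simp only [Gam, hy]
  unfold Lin at hg ⊢
  have h3 : ∀ u v, Gam G (c s) u v = Gam G' (c s) u v := fun u v => (h2 u v).self_of_nhds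
  rw [← (h2 _ _).fderiv_eq, ← h3]
  exact hg

variable {α β σ : ℝ → ℝ} {cL cR : ℝ} {M : Type} [TopologicalSpace M] [ChartedSpace (E 3) M]
  [IsManifold 𝓘(ℝ, E 3) ∞ M] {g : Met 3 M} {γ : ℝ → M} {J : ℝ → E 3}

/-- the state in the chart at `x` -/
def stY (α β σ : ℝ → ℝ) (γ : ℝ → M) (J : ℝ → E 3) (x : M) (s : ℝ) : St :=
  (profOf α β σ).stateOf (cRep γ x) (jRep γ J x) s

open Classical in
/-- the global monotone function -/
def FF (D : GeoData α β σ g) (γ : ℝ → M) (J : ℝ → E 3) (s : ℝ) : ℝ :=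
  if γ s ∈ D.Nk ∧ 0 < (stY α β σ γ J (γ s) s).t ∧ (stY α β σ γ J (γ s) s).t < 3 then
    (profOf α β σ).GG (stY α β σ γ J (γ s) s) else Wg g γ J s

theorem am1_ev (hγ : IsGeodesic g γ) {x : M} {s : ℝ} (hs : γ s ∈ (chartAt (E 3) x).source) :
    ∀ᶠ u in 𝓝 s, γ u ∈ (chartAt (E 3) x).source :=
  hγ.1.continuous.continuousAt.preimage_mem_nhds ((chartAt (E 3) x).open_source.mem_nhds hs)

theorem am1_sol (h : Warp α β σ cL cR) (D : GeoData α β σ g) (hγ : IsGeodesic g γ)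
    (hJ : IsJacobiField g γ J) {x : M} (hx : x ∈ D.Nk) {s : ℝ}
    (hs : γ s ∈ (chartAt (E 3) x).source) : (profOf α β σ).SolAt (stY α β σ γ J x) s := by
  have hmet : metricInChart g x =ᶠ[𝓝 (cRep γ x s)] GN α β σ := by
    filter_upwards [(chartAt (E 3) x).open_target.mem_nhds ((chartAt (E 3) x).map_source hs)]
      with y hy using D.met x hx y hy
  exact solAt_of h ((cRep_smooth (hγ.1 s) hs).of_le (by norm_cast))
    ((jRep_smooth (hJ.1 s) hs).of_le (by norm_cast)) (geo_congr hmet (geo_rep hγ hs))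
    (lin_congr hmet (lin_rep hγ hJ hs))

theorem am1_W (h : Warp α β σ cL cR) (D : GeoData α β σ g) (hγ : IsGeodesic g γ)
    (hJ : IsJacobiField g γ J) {x : M} (hx : x ∈ D.Nk) {s : ℝ}
    (hs : γ s ∈ (chartAt (E 3) x).source) :
    Wg g γ J s = (profOf α β σ).W (stY α β σ γ J x s) := by
  have h1 : (fun u => g.inner (γ u) (J u) (J u)) =ᶠ[𝓝 s]
      fun u => (profOf α β σ).Nn (stY α β σ γ J x u) := by
    filter_upwards [am1_ev hγ hs] with u hu
    rw [inner_eq_ip g hu]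
    unfold ip
    rw [D.met x hx _ ((chartAt (E 3) x).map_source hu)]
    have := ip_GN h (chartAt (E 3) x (γ u)) (dch x (γ u) (J u)) (dch x (γ u) (J u))
    unfold ip at this
    rw [this, ← sq]
    rfl
  unfold Wg
  rw [h1.deriv_eq, (Prof.SolAt.hasDerivAt_Nn h.reg (am1_sol h D hγ hJ hx hs)).deriv]
  ring

theorem am1_dch {x x' m : M} (hm : m ∈ (chartAt (E 3) x).source) {l : E 3}
    (hl : ∀ᶠ z in 𝓝 m, chartAt (E 3) x' z = chartAt (E 3) x z + l) :
    dch (n := 3) x' m = dch x m := by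
  have h1 : HasMFDerivAt 𝓘(ℝ, E 3) 𝓘(ℝ, E 3) (chartAt (E 3) x) m (dch x m) :=
    (mdifferentiableAt_atlas (I := 𝓘(ℝ, E 3)) (chart_mem_atlas (E 3) x) hm).hasMFDerivAt
  have h2 : HasMFDerivAt 𝓘(ℝ, E 3) 𝓘(ℝ, E 3) (fun y : E 3 => y + l) (chartAt (E 3) x m)
      (ContinuousLinearMap.id ℝ (E 3)) :=
    ((hasFDerivAt_id _).add_const l).hasMFDerivAt
  have h3 := (h2.comp m h1).congr_of_eventuallyEq (f₁ := chartAt (E 3) x') hl
  exact h3.mfderiv

theorem am1_st (D : GeoData α β σ g) (hγ : IsGeodesic g γ) (J : ℝ → E 3) {x : M} (hx : x ∈ D.Nk)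
    {s : ℝ} (hs : γ s ∈ (chartAt (E 3) x).source) :
    stY α β σ γ J (γ s) s = stY α β σ γ J x s := by
  obtain ⟨l, hl0, hl⟩ := D.trans x hx (γ s) (D.src x hx hs) (γ s) ⟨hs, mem_chart_source _ _⟩
  have hc := hγ.1.continuous.continuousAt (x := s)
  have h1 : cRep γ (γ s) =ᶠ[𝓝 s] fun u => cRep (n := 3) γ x u + l := hc.eventually hl
  have h2 : jRep γ J (γ s) =ᶠ[𝓝 s] jRep γ J x := by
    filter_upwards [hc.eventually hl.eventually_nhds, am1_ev hγ hs] with u hu hu'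
    unfold jRep
    rw [am1_dch hu' hu]
  have h3 : deriv (cRep γ (γ s)) s = deriv (cRep (n := 3) γ x) s := by
    rw [h1.deriv_eq, deriv_add_const]
  have h4 : cRep (n := 3) γ (γ s) s 0 = cRep (n := 3) γ x s 0 := by
    rw [h1.self_of_nhds, PiLp.add_apply, hl0, add_zero]
  unfold stY Prof.stateOf
  rw [h2.deriv_eq, h2.self_of_nhds, h3, h4]

theorem am1_FF (h : Warp α β σ cL cR) (D : GeoData α β σ g) (hγ : IsGeodesic g γ)
    (hJ : IsJacobiField g γ J) {x : M} (hx : x ∈ D.Nk) {s : ℝ}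
    (hs : γ s ∈ (chartAt (E 3) x).source) :
    FF D γ J s = (profOf α β σ).GG (stY α β σ γ J x s) := by
  unfold FF
  rw [am1_st D hγ J hx hs]
  split_ifs with h1
  · rfl
  · rw [am1_W h D hγ hJ hx hs, Prof.GG, if_neg fun h2 => h1 ⟨D.src x hx hs, h2⟩]

theorem neck_local (h : Warp α β σ cL cR) (D : GeoData α β σ g) (hγ : IsGeodesic g γ)
    (hJ : IsJacobiField g γ J) {s₀ : ℝ} (hs : γ s₀ ∈ D.Nk) :
    ∀ᶠ s in 𝓝 s₀, (profOf α β σ).SolAt (stY α β σ γ J (γ s₀)) s ∧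
      Wg g γ J s = (profOf α β σ).W (stY α β σ γ J (γ s₀) s) ∧
      FF D γ J s = (profOf α β σ).GG (stY α β σ γ J (γ s₀) s) := by
  filter_upwards [am1_ev hγ (mem_chart_source (E 3) (γ s₀))] with s hs'
  exact ⟨am1_sol h D hγ hJ hs hs', am1_W h D hγ hJ hs hs', am1_FF h D hγ hJ hs hs'⟩

end Crest.Agent.R244
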