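import Crest.Agent.R244.AIneq
import Crest.Agent.R244.AGerm2
import Crest.Agent.R244.AMain1

/-!
# R244 / AMain : no conjugate points

`stX s` is the state read in the preferred chart at `γ s`; `FF s = GG (stX s)` if `γ s` is in the neck
with `0 < t < 3`, and `Wg s = ½ (|J|²)'` otherwise.

`neck_local` (`x₀ = γ s₀ ∈ Nk`, `Y = stateOf (cRep γ x₀) (jRep γ J x₀)`): for `s` near `s₀`,
`γ s ∈ (chartAt x₀).source ⊆ Nk`; the metric in the chart at `x₀` is `GN` near `cRep γ x₀ s` (`met`, the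
target is open), so `geo_rep`, `lin_rep`, `geo_congr`, `lin_congr`, `solAt_of` give `SolAt Y s`;
by `trans`, `chartAt (γ s) = chartAt x₀ + l` near `γ s` with `l 0 = 0`, so near `s`
`cRep γ (γ s) = cRep γ x₀ + l` and `jRep γ J (γ s) = jRep γ J x₀` (`Filter.EventuallyEq.mfderiv_eq`; the
`mfderiv` of `f + l` is that of `f`), hence `stX s = Y s`;
`g.inner (γ u) (J u) (J u) = Nn (Y u)` for `u` near `s` (`inner_eq_ip`, `met`, `ip_GN`) so `Wg s = W (Y s)`
(`SolAt.hasDerivAt_Nn`); finally `GG = W` unless `0 < t < 3`.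
`Wg_deriv_nonneg`: at a flat point `hasDerivAt_Wg` + `flat_of_const` + `ip_nonneg`; at a neck point with
`t ≤ 0` or `t ≥ 3`: `Wg = W ∘ Y` near `s`, `SolAt.hasDerivAt_W`, `DW_L`, `DW_R`.
`out_local` (`γ s₀ ∉ Nk`): `κ (γ s₀) ∈ {-1, 4}`, so for `s` near `s₀`, `κ (γ s) < 0` or `> 3`; if
`γ s ∈ Nk`, `κN` gives `t < 0` or `t > 3`.
`no_conj`: `FF` is monotone (`mono_of_local`; `germ_right`, `germ_left`, `RG.right`, `RG.congr`; at points
outside `Nk` `FF = Wg` has a non-negative derivative near `s₀`), `FF a = FF b = 0` (`GG_zero`, `Wg_eq`), so for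
`a < b`, `FF = 0` on `[a,b]`; `RG.eq_zero` gives `E0 = 0` so `v = 0`, `π = 0` and `j'(a) = zd = 0`; outside
`Nk`, `ip (Dj) (Dj) = 0` so `j'(a) = 0` (`covDeriv_eq`, `gam_zero_right`); conclude with `jacobi_zero`.
-/

set_option autoImplicit false

noncomputable section

open scoped ContDiff Manifold Topology
open Set Crest.GeometryTopology.CoordMetric Crest.GeometryTopology.ChartCurvature
open Crest.GeometryTopology.Geodesic

namespace Crest.Agent.R244

variable {α β σ : ℝ → ℝ} {cL cR : ℝ} {M : Type} [TopologicalSpace M] [ChartedSpace (E 3) M]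
  [IsManifold 𝓘(ℝ, E 3) ∞ M] {g : Met 3 M} {γ : ℝ → M} {J : ℝ → E 3}

theorem am_flat (D : GeoData α β σ g) (hγ : IsGeodesic g γ) (hJ : IsJacobiField g γ J) {s : ℝ}
    (hs : γ s ∉ D.Nk) :
    HasDerivAt (Wg g γ J) (ip (metricInChart g (γ s)) (cRep γ (γ s) s)
      (covDeriv (metricInChart g (γ s)) (cRep γ (γ s)) (jRep γ J (γ s)) s)
      (covDeriv (metricInChart g (γ s)) (cRep γ (γ s)) (jRep γ J (γ s)) s)) s := by
  have h0 := mem_chart_source (E 3) (γ s)
  obtain ⟨G0, hG0⟩ := D.flat _ hs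
  have h1 := hasDerivAt_Wg hγ hJ h0
  rwa [flat_of_const (x := cRep γ (γ s) s) (G0 := G0) (Filter.mem_of_superset
    ((chartAt (E 3) (γ s)).open_target.mem_nhds ((chartAt (E 3) (γ s)).map_source h0)) hG0),
    sub_zero] at h1

theorem am_left {H H' : ℝ → ℝ} {s₀ : ℝ} (h : ∀ᶠ s in 𝓝 s₀, HasDerivAt H (H' s) s ∧ 0 ≤ H' s) :
    ∀ᶠ t in 𝓝[<] s₀, H t ≤ H s₀ := by
  obtain ⟨p, q, h1, h2⟩ := mem_nhds_iff_exists_Ioo_subset.1 h
  have h3 : MonotoneOn H (Ioo p q) :=
    monotoneOn_of_deriv_nonneg (convex_Ioo p q)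
      (fun s hs => (h2 hs).1.continuousAt.continuousWithinAt)
      (fun s hs => (h2 (interior_subset hs)).1.differentiableAt.differentiableWithinAt)
      fun s hs => by
        rw [(h2 (interior_subset hs)).1.deriv]
        exact (h2 (interior_subset hs)).2
  filter_upwards [Ioo_mem_nhdsLT h1.1] with t ht
  exact h3 ⟨ht.1, ht.2.trans h1.2⟩ h1 ht.2.le

omit [IsManifold 𝓘(ℝ, E 3) ∞ M] in
theorem am_jRep {s : ℝ} (h : J s = 0) (x : M) : jRep γ J x s = 0 := by
  rw [jRep, h, map_zero]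

omit [IsManifold 𝓘(ℝ, E 3) ∞ M] in
theorem am_yz {s : ℝ} (h : J s = 0) (x : M) :
    (stY α β σ γ J x s).y = 0 ∧ (stY α β σ γ J x s).z = 0 := by
  simp [stY, Prof.stateOf, am_jRep h]

theorem am_FF_zero (D : GeoData α β σ g) (hγ : IsGeodesic g γ) (hJ : IsJacobiField g γ J) {s : ℝ}
    (h : J s = 0) : FF D γ J s = 0 := by
  unfold FF
  split_ifs
  · exact Prof.GG_zero (am_yz h _).1 (am_yz h _).2
  · rw [Wg_eq hγ hJ (mem_chart_source (E 3) (γ s)), am_jRep h, ip_zero_right]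

theorem Wg_deriv_nonneg (h : Warp α β σ cL cR) (hG : (profOf α β σ).Good) (D : GeoData α β σ g)
    (hγ : IsGeodesic g γ) (hJ : IsJacobiField g γ J) {s : ℝ}
    (hs : γ s ∈ D.Nk → (stY α β σ γ J (γ s) s).t ≤ 0 ∨ 3 ≤ (stY α β σ γ J (γ s) s).t) :
    HasDerivAt (Wg g γ J) (deriv (Wg g γ J) s) s ∧ 0 ≤ deriv (Wg g γ J) s := by
  by_cases h0 : γ s ∈ D.Nk
  · have h1 := neck_local h D hγ hJ h0
    have h2 : HasDerivAt (Wg g γ J) ((profOf α β σ).DW (stY α β σ γ J (γ s) s)) s :=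
      (h1.self_of_nhds.1.hasDerivAt_W h.reg).congr_of_eventuallyEq (h1.mono fun _ ht => ht.2.1)
    rw [h2.deriv]
    refine ⟨h2, ?_⟩
    rcases hs h0 with h3 | h3
    · exact Prof.DW_L h.reg hG h3
    · exact Prof.DW_R h.reg hG h3
  · have h1 := am_flat D hγ hJ h0
    rw [h1.deriv]
    exact ⟨h1, ip_nonneg (metricInChart_riem g (γ s))
      ((chartAt (E 3) (γ s)).map_source (mem_chart_source (E 3) (γ s))) _⟩

theorem out_local (h : Warp α β σ cL cR) (hG : (profOf α β σ).Good) (D : GeoData α β σ g)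
    (hγ : IsGeodesic g γ) (hJ : IsJacobiField g γ J) {s₀ : ℝ} (hs : γ s₀ ∉ D.Nk) :
    ∀ᶠ s in 𝓝 s₀, FF D γ J s = Wg g γ J s ∧
      HasDerivAt (Wg g γ J) (deriv (Wg g γ J) s) s ∧ 0 ≤ deriv (Wg g γ J) s := by
  have hc : Continuous fun s => D.κ (γ s) := D.cκ.comp hγ.1.continuous
  have h1 : ∀ᶠ s in 𝓝 s₀, D.κ (γ s) < 0 ∨ 3 < D.κ (γ s) := by
    rcases D.κF _ hs with h2 | h2
    · exact (hc.continuousAt.eventually_lt continuousAt_const (by rw [h2]; norm_num)).mono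
        fun _ ht => Or.inl ht
    · exact (continuousAt_const.eventually_lt hc.continuousAt (by rw [h2]; norm_num)).mono
        fun _ ht => Or.inr ht
  filter_upwards [h1] with s h2
  have h3 : γ s ∈ D.Nk → (stY α β σ γ J (γ s) s).t ≤ 0 ∨ 3 ≤ (stY α β σ γ J (γ s) s).t := by
    intro h4
    rw [D.κN _ h4] at h2
    change chartAt (E 3) (γ s) (γ s) 0 ≤ 0 ∨ 3 ≤ chartAt (E 3) (γ s) (γ s) 0
    generalize chartAt (E 3) (γ s) (γ s) 0 = t at h2 ⊢
    by_contra h5
    push Not at h5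
    rw [min_eq_right (by linarith), max_eq_right (by linarith)] at h2
    rcases h2 with h2 | h2 <;> linarith
  refine ⟨if_neg fun h4 => ?_, Wg_deriv_nonneg h hG D hγ hJ h3⟩
  rcases h3 h4.1 with h5 | h5 <;> linarith [h4.2.1, h4.2.2]

theorem am_RG_in (h : Warp α β σ cL cR) (hG : (profOf α β σ).Good) (D : GeoData α β σ g)
    (hγ : IsGeodesic g γ) (hJ : IsJacobiField g γ J) {s₀ : ℝ} (hs : γ s₀ ∈ D.Nk) :
    RG (FF D γ J) s₀ ((profOf α β σ).E0 (stY α β σ γ J (γ s₀) s₀))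
      ((stY α β σ γ J (γ s₀) s₀).y = 0 ∧ (stY α β σ γ J (γ s₀) s₀).z = 0) :=
  have h1 := neck_local h D hγ hJ hs
  (Prof.germ_right h.reg hG (h1.mono fun _ ht => ht.1)).congr (h1.mono fun _ ht => ht.2.2)

theorem am_RG_out (h : Warp α β σ cL cR) (hG : (profOf α β σ).Good) (D : GeoData α β σ g)
    (hγ : IsGeodesic g γ) (hJ : IsJacobiField g γ J) {s₀ : ℝ} (hs : γ s₀ ∉ D.Nk) :
    RG (FF D γ J) s₀ (deriv (Wg g γ J) s₀) True :=
  have h1 := out_local h hG D hγ hJ hs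
  ⟨Wg g γ J, deriv (Wg g γ J), (h1.mono fun _ ht => ht.2).filter_mono nhdsWithin_le_nhds,
    h1.self_of_nhds.1.le, (h1.mono fun _ ht => ht.1).filter_mono nhdsWithin_le_nhds, fun _ => rfl⟩

theorem FF_mono (h : Warp α β σ cL cR) (hG : (profOf α β σ).Good) (D : GeoData α β σ g)
    (hγ : IsGeodesic g γ) (hJ : IsJacobiField g γ J) : Monotone (FF D γ J) := by
  refine mono_of_local (fun s => ?_) fun s => ?_
  · by_cases hs : γ s ∈ D.Nk
    · exact (am_RG_in h hG D hγ hJ hs).right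
    · exact (am_RG_out h hG D hγ hJ hs).right
  · by_cases hs : γ s ∈ D.Nk
    · have h1 := neck_local h D hγ hJ hs
      filter_upwards [Prof.germ_left h.reg hG (h1.mono fun _ ht => ht.1),
        h1.filter_mono nhdsWithin_le_nhds] with t h2 h3
      rwa [h3.2.2, h1.self_of_nhds.2.2]
    · have h1 := out_local h hG D hγ hJ hs
      filter_upwards [am_left (h1.mono fun _ ht => ht.2), h1.filter_mono nhdsWithin_le_nhds]
        with t h2 h3
      rwa [h3.1, h1.self_of_nhds.1]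

theorem am_lt (h : Warp α β σ cL cR) (hG : (profOf α β σ).Good) (D : GeoData α β σ g)
    (hγ : IsGeodesic g γ) (hJ : IsJacobiField g γ J) {a b : ℝ} (hab : a < b) (ha : J a = 0)
    (hb : J b = 0) (t : ℝ) : J t = 0 := by
  have hm := FF_mono h hG D hγ hJ
  have h0 : ∀ᶠ s in 𝓝[>] a, FF D γ J s = 0 := by
    filter_upwards [Ioo_mem_nhdsGT hab] with s hs
    exact le_antisymm ((hm hs.2.le).trans (am_FF_zero D hγ hJ hb).le)
      ((am_FF_zero D hγ hJ ha).ge.trans (hm hs.1.le))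
  refine jacobi_zero hγ hJ ha ?_ t
  by_cases hs : γ a ∈ D.Nk
  · obtain ⟨h1, h2⟩ := h.reg.E0_eq_zero ((am_RG_in h hG D hγ hJ hs).eq_zero (am_yz ha _) h0)
    have a0 := (h.reg.apos (cRep (n := 3) γ (γ a) a 0)).ne'
    have b0 := (h.reg.bpos (cRep (n := 3) γ (γ a) a 0)).ne'
    simp only [stY, Prof.stateOf, am_jRep ha, PiLp.zero_apply, zero_mul, add_zero, Prof.g0, e1, e2,
      mul_zero, mul_one, sub_zero, zero_div, Prod.mk_eq_zero, div_eq_zero_iff, a0, or_false] at h1 h2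
    obtain ⟨h3, h4⟩ := h2
    rw [h3, zero_mul, zero_div, zero_add, div_eq_zero_iff, or_iff_left b0] at h4
    rw [h4, mul_zero, sub_zero] at h3
    ext i
    fin_cases i
    exacts [h1, h3, h4]
  · have h1 := (am_RG_out h hG D hγ hJ hs).eq_zero trivial h0
    rw [(am_flat D hγ hJ hs).deriv] at h1
    by_contra h2
    refine (ip_pos (metricInChart_riem g (γ a))
      ((chartAt (E 3) (γ a)).map_source (mem_chart_source (E 3) (γ a))) ?_).ne' h1
    rwa [covDeriv_eq, am_jRep ha, gam_zero_right, add_zero]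

theorem no_conj_of (h : Warp α β σ cL cR) (hG : (profOf α β σ).Good) (D : GeoData α β σ g) :
    NoConjugatePoints g := by
  intro γ J hγ hJ a b hab ha hb
  rcases lt_or_gt_of_ne hab with h1 | h1
  · exact am_lt h hG D hγ hJ h1 ha hb
  · exact am_lt h hG D hγ hJ h1 hb ha

theorem no_conj : AStmt := by
  obtain ⟨α, β, σ, cL, cR, hW, hI⟩ := exists_warp
  exact ⟨α, β, σ, cL, cR, hW, fun M _ _ _ g D => no_conj_of hW (hI.good hW.reg) D⟩

end Crest.Agent.R244
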