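import Crest.Agent.R244.ANeck1

/-!
# R244 / ANeck : the geodesic and the linearised equation of the neck metric give `SolAt`

`F = profOf α β σ`, `r = x 0`, `ū = (u 1, u 2)`.  `ip_GN` is algebra (`Fin.sum_univ_three`, `a = 1/α²`).
`dG_GN`: `y ↦ ip (GN) y v w = v 0 * w 0 + g0 (y 0) v̄ w̄`, chain rule with `Reg.hasDerivAt_g0`.
`gam_GN`: by `ip_ext` and the Koszul formula `ip_gam`:
`ip (Γ(u,v)) w = ½ (u 0 * g1 v̄ w̄ + v 0 * g1 ū w̄ - w 0 * g1 ū v̄)`, and `g0 (Q κ e1, Q κ e2) w̄ = κ · w̄`.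
`solAt_of`: `τ' = c'' 0 = ½ g1(ẋ,ẋ) = -½ Q1(p,p)` for `p = g0 ẋ`; `p' = τ g1 ẋ + g0 ẍ = 0`; for the
linearised equation `fderiv (fun x => Γ x u u) x j` is computed from `gam_GN` (a function of `x 0`, use
`Reg.hasDerivAt_g1`, `Reg.hasDerivAt_Q` along `r ↦ r`, or differentiate the Koszul identity instead);
`π' = 0` and the formula for `v'` follow by `field_simp; ring` after substituting `c''`, `j''`.
The `z`-equation is the algebraic identity `Q (g0 z' + y g1 ẋ) + y Q1 (g0 ẋ) = z'`.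
-/

set_option autoImplicit false

noncomputable section

open scoped ContDiff Topology
open Set Crest.GeometryTopology.CoordMetric Crest.GeometryTopology.ChartCurvature
open Crest.GeometryTopology.Geodesic

namespace Crest.Agent.R244

variable {α β σ : ℝ → ℝ} {cL cR : ℝ}

theorem an_hasDerivAt_of_comp {Γ : ℝ → E 3} {Γ' : E 3} {r : ℝ}
    (h : ∀ k, HasDerivAt (fun r => Γ r k) (Γ' k) r) : HasDerivAt Γ Γ' r := by
  have h1 : HasDerivAt (fun r k => Γ r k) (fun k => Γ' k) r := hasDerivAt_pi.2 h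
  exact (EuclideanSpace.equiv (Fin 3) ℝ).symm.hasFDerivAt.comp_hasDerivAt r h1

theorem an_comp {c : ℝ → E 3} {c' : E 3} {s : ℝ} (h : HasDerivAt c c' s) (k : Fin 3) :
    HasDerivAt (fun s => c s k) (c' k) s :=
  (EuclideanSpace.proj k : E 3 →L[ℝ] ℝ).hasFDerivAt.comp_hasDerivAt s h

theorem an_fderiv {Γ : ℝ → E 3} {Γ' : E 3} {x : E 3} (h : HasDerivAt Γ Γ' (x 0)) (j : E 3) :
    fderiv ℝ (fun x : E 3 => Γ (x 0)) x j = j 0 • Γ' := by
  have h1 : HasFDerivAt (fun x : E 3 => x 0) (EuclideanSpace.proj 0 : E 3 →L[ℝ] ℝ) x :=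
    (EuclideanSpace.proj 0 : E 3 →L[ℝ] ℝ).hasFDerivAt
  have h2 := h.hasFDerivAt.comp x h1
  have h3 : fderiv ℝ (fun x : E 3 => Γ (x 0)) x = _ := h2.fderiv
  rw [h3]
  simp

theorem an_g1_zero_left (F : Prof) (r : ℝ) (q : ℝ × ℝ) : F.g1 r 0 q = 0 := by simp [Prof.g1]
theorem an_g1_zero_right (F : Prof) (r : ℝ) (q : ℝ × ℝ) : F.g1 r q 0 = 0 := by simp [Prof.g1]
theorem an_g0_zero_right (F : Prof) (r : ℝ) (q : ℝ × ℝ) : F.g0 r q 0 = 0 := by simp [Prof.g0]

theorem an_fderiv_gam (h : Warp α β σ cL cR) (x u j : E 3) :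
    fderiv ℝ (fun x => Gam (GN α β σ) x u u) x j =
      j 0 • (!₂[-((profOf α β σ).g2 (x 0) (u 1, u 2) (u 1, u 2)) / 2,
        (profOf α β σ).Q1 (x 0) ((profOf α β σ).kc (x 0) u u) e1 +
          (profOf α β σ).Q (x 0) (u 0 * (profOf α β σ).g2 (x 0) (u 1, u 2) e1,
            u 0 * (profOf α β σ).g2 (x 0) (u 1, u 2) e2) e1,
        (profOf α β σ).Q1 (x 0) ((profOf α β σ).kc (x 0) u u) e2 +
          (profOf α β σ).Q (x 0) (u 0 * (profOf α β σ).g2 (x 0) (u 1, u 2) e1,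
            u 0 * (profOf α β σ).g2 (x 0) (u 1, u 2) e2) e2] : E 3) := by
  have hR := h.reg
  simp only [gam_GN h]
  generalize profOf α β σ = F at *
  have hg : ∀ p q : ℝ × ℝ, HasDerivAt (fun r => F.g1 r p q) (F.g2 (x 0) p q) (x 0) := fun p q => by
    have := hR.hasDerivAt_g1 (hasDerivAt_id (x 0)) (hasDerivAt_const _ p) (hasDerivAt_const _ q)
    simpa only [an_g1_zero_left, an_g1_zero_right, add_zero, one_mul, id] using this
  have hk : HasDerivAt (fun r => F.kc r u u)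
      (u 0 * F.g2 (x 0) (u 1, u 2) e1, u 0 * F.g2 (x 0) (u 1, u 2) e2) (x 0) := by
    refine HasDerivAt.prodMk ?_ ?_
    · refine HasDerivAt.congr_deriv
        ((((hg _ e1).const_mul (u 0)).add ((hg _ e1).const_mul (u 0))).div_const 2) ?_
      ring
    · refine HasDerivAt.congr_deriv
        ((((hg _ e2).const_mul (u 0)).add ((hg _ e2).const_mul (u 0))).div_const 2) ?_
      ring
  have hQ : ∀ e : ℝ × ℝ, HasDerivAt (fun r => F.Q r (F.kc r u u) e)
      (F.Q1 (x 0) (F.kc (x 0) u u) e +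
        F.Q (x 0) (u 0 * F.g2 (x 0) (u 1, u 2) e1, u 0 * F.g2 (x 0) (u 1, u 2) e2) e) (x 0) :=
    fun e => by
    have := hR.hasDerivAt_Q (hasDerivAt_id (x 0)) hk (hasDerivAt_const _ e)
    simpa only [Prof.Q_zero_right, add_zero, one_mul, id] using this
  refine an_fderiv (Γ := fun r => (!₂[-(F.g1 r (u 1, u 2) (u 1, u 2)) / 2,
    F.Q r (F.kc r u u) e1, F.Q r (F.kc r u u) e2] : E 3)) (an_hasDerivAt_of_comp fun k => ?_) j
  fin_cases k
  · exact (hg _ _).neg.div_const 2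
  · exact hQ e1
  · exact hQ e2

theorem solAt_of (h : Warp α β σ cL cR) {c j : ℝ → E 3} {s : ℝ} (hc : ContDiffAt ℝ 2 c s)
    (hj : ContDiffAt ℝ 2 j s) (hg : GeodesicEqAt (GN α β σ) c s) (hL : Lin (GN α β σ) c j s) :
    (profOf α β σ).SolAt ((profOf α β σ).stateOf c j) s := by
  have hR := h.reg
  have dc : HasDerivAt c (deriv c s) s := (hc.differentiableAt (by norm_num)).hasDerivAt
  have dj : HasDerivAt j (deriv j s) s := (hj.differentiableAt (by norm_num)).hasDerivAt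
  have dc2 : HasDerivAt (deriv c) (deriv (deriv c) s) s :=
    ((hc.derivWithin (m := 1) (by norm_num)).differentiableAt (by norm_num)).hasDerivAt
  have dj2 : HasDerivAt (deriv j) (deriv (deriv j) s) s :=
    ((hj.derivWithin (m := 1) (by norm_num)).differentiableAt (by norm_num)).hasDerivAt
  rw [geo_iff, gam_GN h] at hg
  unfold Lin at hL
  rw [an_fderiv_gam h, gam_GN h] at hL
  generalize profOf α β σ = F at *
  have g0 := congrArg (fun w : E 3 => w 0) hg
  have g1 := congrArg (fun w : E 3 => w 1) hg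
  have g2 := congrArg (fun w : E 3 => w 2) hg
  have l0 := congrArg (fun w : E 3 => w 0) hL
  have l1 := congrArg (fun w : E 3 => w 1) hL
  have l2 := congrArg (fun w : E 3 => w 2) hL
  simp only [PiLp.add_apply, PiLp.smul_apply, PiLp.zero_apply, smul_eq_mul, Matrix.cons_val_zero,
    Matrix.cons_val_one, Matrix.cons_val] at g0 g1 g2 l0 l1 l2
  have a0 := (hR.apos (c s 0)).ne'
  have b0 := (hR.bpos (c s 0)).ne'
  have t := an_comp dc 0
  have xd : HasDerivAt (fun s => (deriv c s 1, deriv c s 2))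
      (deriv (deriv c) s 1, deriv (deriv c) s 2) s := (an_comp dc2 1).prodMk (an_comp dc2 2)
  have zd : HasDerivAt (fun s => (deriv j s 1, deriv j s 2))
      (deriv (deriv j) s 1, deriv (deriv j) s 2) s := (an_comp dj2 1).prodMk (an_comp dj2 2)
  have e0 := eq_neg_of_add_eq_zero_left g0
  have e1' := eq_neg_of_add_eq_zero_left g1
  have e2' := eq_neg_of_add_eq_zero_left g2
  have f0 := eq_neg_of_add_eq_zero_left ((add_assoc _ _ _).symm.trans l0)
  have f1 := eq_neg_of_add_eq_zero_left ((add_assoc _ _ _).symm.trans l1)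
  have f2 := eq_neg_of_add_eq_zero_left ((add_assoc _ _ _).symm.trans l2)
  refine ⟨t, ?_, an_comp dj 0, ?_, ?_, ?_, ?_⟩
  · refine HasDerivAt.congr_deriv (an_comp dc2 0) ?_
    rw [e0]
    simp only [Prof.stateOf, Prof.Q1, Prof.g0, Prof.g1, e1, e2]
    field_simp
    ring
  · refine HasDerivAt.congr_deriv (an_comp dj2 0) ?_
    rw [f0]
    simp only [Prof.stateOf, Prof.Q1, Prof.Q2, Prof.g0, Prof.g1, Prof.g2, e1, e2]
    field_simp
    ring
  · refine HasDerivAt.congr_deriv ((an_comp dj 1).prodMk (an_comp dj 2)) ?_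
    simp only [Prof.stateOf, Prof.zd, Prof.Q, Prof.Q1, Prof.g0, Prof.g1, e1, e2]
    refine Prod.ext ?_ ?_ <;> simp only <;> field_simp <;> ring
  · refine HasDerivAt.congr_deriv ((hR.hasDerivAt_g0 t xd (hasDerivAt_const s e1)).prodMk
      (hR.hasDerivAt_g0 t xd (hasDerivAt_const s e2))) ?_
    rw [e1', e2']
    simp only [an_g0_zero_right, Prof.kc, Prof.Q, Prof.g0, Prof.g1, e1, e2]
    refine Prod.ext ?_ ?_ <;> simp only [Prod.fst_zero, Prod.snd_zero] <;> field_simp <;> ring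
  · refine HasDerivAt.congr_deriv (((hR.hasDerivAt_g0 t zd (hasDerivAt_const s e1)).add
      ((an_comp dj 0).mul (hR.hasDerivAt_g1 t xd (hasDerivAt_const s e1)))).prodMk
      ((hR.hasDerivAt_g0 t zd (hasDerivAt_const s e2)).add
      ((an_comp dj 0).mul (hR.hasDerivAt_g1 t xd (hasDerivAt_const s e2))))) ?_
    rw [e1', e2', f1, f2]
    simp only [an_g0_zero_right, an_g1_zero_right, Prof.kc, Prof.Q, Prof.Q1, Prof.g0, Prof.g1,
      Prof.g2, e1, e2]
    refine Prod.ext ?_ ?_ <;> simp only [Prod.fst_zero, Prod.snd_zero] <;> field_simp <;> ring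

end Crest.Agent.R244
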