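import Crest.Agent.R244.AProf1

/-!
# R244 / AProf2 : the explicit warping functions satisfy `Warp` and `Ineq`

`ω = 2π/3`, `α = ω A`, `A r = 100 + h r`, `β = ω B`, `B r = Λ + h (3 - r)`, `Λ = 10^7 C²`,
`cL = (Λ + 9 - c0)/3`, `cR = (100 - c0)/3`.  With `k = ω⁻²`:
`a = k A⁻²`, `a1 = -2k h1(r) A⁻³`, `a2 = k (6 h1(r)² A⁻⁴ - 2 h2(r) A⁻³)`,
`b = k B⁻²`, `b1 = 2k h1(3-r) B⁻³`, `b2 = k (6 h1(3-r)² B⁻⁴ - 2 h2(3-r) B⁻³)` (lemma `prof_eq`).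
On `[0,3]`: `A ∈ [100,109]`, `B ∈ [Λ, Λ + 9]`, `h1² ≤ 3 h1 ≤ 9 h2`, so `-a2 ≥ 1.46 k h2(r) A⁻³`,
`-b2 ≥ 1.46 k h2(3-r) B⁻³`; on `[5/4,7/4]` both `h2` are `1`, `h1(r), h1(3-r) ≥ 1/4`.
`L0`: `3 b1² - 2 b b2 = 4 k² h2(3-r) B⁻⁵ ≥ 0`, same for `R3`.
`I3`: `4 C² B⁻² ≤ 1.46 A⁻³`; `2 (12 C B⁻³ + C B⁻²)² ≤ 2.6 C² B⁻⁴ ≤ 1.46² A⁻³ B⁻³`.
`I4`: `1000 A² ≤ B²`.  `I5`: `5 h1(r) A ≤ B h1(3-r)` (`h1(3-r) ≥ 1/4` for `r ≤ 7/4`).
`I6`: `30 B⁻³ ≤ A⁻³`.  `I7`: `h1 r ≤ (5/4) h2 r`; `42 B⁻³ ≤ A⁻²`.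
All inequalities are homogeneous in `k`; it pays to prove them first for abstract reals
`A B k h1 h2 …` after clearing denominators.
-/

set_option autoImplicit false

noncomputable section

open scoped ContDiff
open Set

namespace Crest.Agent.R244

theorem ap2_smooth {f : ℝ → ℝ} (hf : ContDiff ℝ ∞ f) :
    (∀ r, HasDerivAt f (deriv f r) r) ∧ (∀ r, HasDerivAt (deriv f) (deriv (deriv f) r) r) ∧
      Continuous (deriv (deriv f)) := by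
  obtain ⟨h1, h2⟩ := contDiff_infty_iff_deriv.1 hf
  obtain ⟨h3, h4⟩ := contDiff_infty_iff_deriv.1 h2
  exact ⟨fun r => (h1 r).hasDerivAt, fun r => (h3 r).hasDerivAt, h4.continuous⟩

theorem ap2_deriv {f f1 f2 : ℝ → ℝ} (ϖ : ℝ) (h0 : ∀ x, HasDerivAt f (f1 x) x)
    (h1 : ∀ x, HasDerivAt f1 (f2 x) x) (hp : ∀ x, f x ≠ 0) (r : ℝ) :
    1 / (ϖ * f r) ^ 2 = (ϖ ^ 2)⁻¹ * (f r)⁻¹ ^ 2 ∧
    deriv (fun r => 1 / (ϖ * f r) ^ 2) r = -2 * (ϖ ^ 2)⁻¹ * f1 r * (f r)⁻¹ ^ 3 ∧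
    deriv (deriv fun r => 1 / (ϖ * f r) ^ 2) r =
      (ϖ ^ 2)⁻¹ * (6 * f1 r ^ 2 * (f r)⁻¹ ^ 4 - 2 * f2 r * (f r)⁻¹ ^ 3) := by
  have e0 : (fun r => 1 / (ϖ * f r) ^ 2) = fun r => (ϖ ^ 2)⁻¹ * (f r)⁻¹ ^ 2 := by
    funext r
    rw [one_div, mul_pow, mul_inv, inv_pow]
  have hu : ∀ x, HasDerivAt (fun r => (f r)⁻¹) (-f1 x * (f x)⁻¹ ^ 2) x := fun x =>
    ((h0 x).fun_inv (hp x)).congr_deriv (by rw [div_eq_mul_inv, inv_pow])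
  have e1 : deriv (fun r => 1 / (ϖ * f r) ^ 2) = fun r => -2 * (ϖ ^ 2)⁻¹ * f1 r * (f r)⁻¹ ^ 3 := by
    funext x
    rw [e0, (((hu x).fun_pow 2).const_mul _).deriv]
    norm_num
    ring
  refine ⟨congrFun e0 r, congrFun e1 r, ?_⟩
  rw [e1, (((h1 r).const_mul _).fun_mul ((hu r).fun_pow 3)).deriv]
  norm_num
  ring

theorem ap2_neg {k u p p2 : ℝ} (hk : 0 < k) (hu : 0 < u) (hu1 : u ≤ 1 / 100) (hp : 0 ≤ p)
    (hp3 : p ≤ 3) (hp2 : p ≤ 3 * p2) :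
    k * (6 * p ^ 2 * u ^ 4 - 2 * p2 * u ^ 3) ≤ -(7 / 5 * (k * u ^ 3) * p2) := by
  have h1 : p ^ 2 * u ≤ 3 * (3 * p2) * (1 / 100) := by
    rw [sq]
    gcongr
    linarith
  have h2 : 0 ≤ k * u ^ 3 * (3 / 5 * p2 - 6 * (p ^ 2 * u)) :=
    mul_nonneg (by positivity) (by linarith)
  linarith

theorem ap2_I3 {k u w q s1 s2 C a2 b2 : ℝ} (hk : 0 < k) (hu : 1 / 109 ≤ u) (hw : 0 < w)
    (hC : 1 ≤ C) (hwC : w * C ^ 2 ≤ 1 / 10 ^ 7) (hq : 0 ≤ q) (hq3 : q ≤ 3) (h1 : |s1| ≤ C)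
    (h2 : |s2| ≤ C) (ha : a2 ≤ -(7 / 5 * (k * u ^ 3) * 1)) (hb : b2 ≤ -(7 / 5 * (k * w ^ 3) * 1)) :
    4 * (k * w ^ 2) * s1 ^ 2 ≤ -a2 ∧
      2 * (2 * (-2 * k * -q * w ^ 3) * s1 + k * w ^ 2 * s2) ^ 2 ≤ a2 * b2 := by
  have hu3 : (1 / 109 : ℝ) ^ 3 ≤ u ^ 3 := by gcongr
  have hw1 : w ≤ 1 / 10 ^ 7 := (le_mul_of_one_le_right hw.le (one_le_pow₀ hC)).trans hwC
  have hs1 : s1 ^ 2 ≤ C ^ 2 := by rw [← sq_abs]; gcongr
  have hu0 : 0 < u := by linarith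
  constructor
  · have : w ^ 2 * s1 ^ 2 ≤ 1 / 10 ^ 7 := by
      calc w ^ 2 * s1 ^ 2 ≤ w ^ 2 * C ^ 2 := by gcongr
        _ = w * (w * C ^ 2) := by ring
        _ ≤ 1 * (1 / 10 ^ 7) := by gcongr; linarith
        _ = _ := one_mul _
    have : 0 ≤ k * (7 / 5 * u ^ 3 - 4 * (w ^ 2 * s1 ^ 2)) := mul_nonneg hk.le (by linarith)
    linarith
  · have h3 : |4 * q * w * s1 + s2| ≤ 2 * C := by
      refine (abs_add_le _ _).trans ?_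
      rw [abs_mul, abs_of_nonneg (by positivity)]
      have : 4 * q * w * |s1| ≤ 4 * 3 * (1 / 10 ^ 7) * C := by gcongr
      linarith
    have h4 : (4 * q * w * s1 + s2) ^ 2 ≤ (2 * C) ^ 2 := by rw [← sq_abs]; gcongr
    calc _ = 2 * k ^ 2 * w ^ 4 * (4 * q * w * s1 + s2) ^ 2 := by ring
      _ ≤ 2 * k ^ 2 * w ^ 4 * (2 * C) ^ 2 := by gcongr
      _ = k ^ 2 * w ^ 3 * (8 * (w * C ^ 2)) := by ring
      _ ≤ k ^ 2 * w ^ 3 * (49 / 25 * u ^ 3) := by gcongr ?_ * ?_; linarith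
      _ = 7 / 5 * (k * u ^ 3) * 1 * (7 / 5 * (k * w ^ 3) * 1) := by ring
      _ ≤ -a2 * -b2 := by
        have : 0 ≤ 7 / 5 * (k * u ^ 3) * 1 := by positivity
        gcongr <;> linarith
      _ = _ := by ring

/-- for any admissible warping functions the profile is regular -/
theorem Warp.reg {α β σ : ℝ → ℝ} {cL cR : ℝ} (h : Warp α β σ cL cR) : (profOf α β σ).Reg := by
  obtain ⟨a0, a1, a2⟩ := ap2_smooth (f := fun r => 1 / α r ^ 2)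
    (contDiff_const.div (h.sα.pow 2) fun r => pow_ne_zero 2 (h.αpos r).ne')
  obtain ⟨b0, b1, b2⟩ := ap2_smooth (f := fun r => 1 / β r ^ 2)
    (contDiff_const.div (h.sβ.pow 2) fun r => pow_ne_zero 2 (h.βpos r).ne')
  obtain ⟨s0, s1, s2⟩ := ap2_smooth h.sσ
  exact ⟨a0, a1, b0, b1, s0, s1, a2, b2, s2, fun r => one_div_pos.2 (pow_pos (h.αpos r) 2),
    fun r => one_div_pos.2 (pow_pos (h.βpos r) 2)⟩

theorem exists_warp : ∃ (α β σ : ℝ → ℝ) (cL cR : ℝ), Warp α β σ cL cR ∧ (profOf α β σ).Ineq := by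
  obtain ⟨h, h1, h2, c0, H⟩ := exists_hfun
  obtain ⟨σ, C, S⟩ := exists_sfun
  obtain ⟨ϖ, hϖ⟩ : ∃ ϖ : ℝ, ϖ = 2 * Real.pi / 3 := ⟨_, rfl⟩
  obtain ⟨Λ, hΛ⟩ : ∃ Λ : ℝ, Λ = 10 ^ 7 * C ^ 2 := ⟨_, rfl⟩
  have ϖ0 : 0 < ϖ := by rw [hϖ]; positivity
  have hC := S.C1
  have Λ1 : 10 ^ 7 ≤ Λ := by nlinarith
  have hA : ∀ r, 100 ≤ 100 + h r := fun r => by linarith [H.h0 r]
  have hB : ∀ r, Λ ≤ Λ + h (3 - r) := fun r => by linarith [H.h0 (3 - r)]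
  have hA0 : ∀ r, 0 < 100 + h r := fun r => by linarith [hA r]
  have hB0 : ∀ r, 0 < Λ + h (3 - r) := fun r => by linarith [hB r]
  refine ⟨fun r => ϖ * (100 + h r), fun r => ϖ * (Λ + h (3 - r)), σ, (Λ + 9 - c0) / 3,
    (100 - c0) / 3, ⟨contDiff_const.mul (contDiff_const.add H.smooth),
      contDiff_const.mul (contDiff_const.add (H.smooth.comp (contDiff_const.sub contDiff_id))),
      S.smooth, fun r => mul_pos ϖ0 (hA0 r), fun r => mul_pos ϖ0 (hB0 r), fun r hr => ?_,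
      fun r hr => (S.L r (by linarith)).1, fun r hr => ?_, fun r hr => ?_,
      fun r hr => (S.R r (by linarith)).1, fun r hr => ?_, by linarith [H.c0b.2],
      by linarith [H.c0b.2]⟩, ?_⟩
  · rw [(H.neg r hr).1, (H.neg 0 le_rfl).1]
  · rw [H.lin _ (by linarith), hϖ]; ring
  · rw [(H.neg _ (by linarith)).1, (H.neg (3 - 3) (by norm_num)).1]
  · rw [H.lin _ hr, hϖ]; ring
  have Ea := ap2_deriv ϖ (fun x => (H.d0 x).const_add 100) H.d1 fun x => (hA0 x).ne'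
  have Eb := ap2_deriv (f := fun r => Λ + h (3 - r)) (f1 := fun r => -h1 (3 - r))
    (f2 := fun r => h2 (3 - r)) ϖ (fun x => ((H.d0 (3 - x)).comp_const_sub 3 x).const_add Λ)
    (fun x => by simpa using ((H.d1 (3 - x)).comp_const_sub 3 x).fun_neg) fun x => (hB0 x).ne'
  have hk : 0 < (ϖ ^ 2)⁻¹ := by positivity
  generalize (ϖ ^ 2)⁻¹ = k at Ea Eb hk
  have u0 : ∀ r, 0 < (100 + h r)⁻¹ := fun r => inv_pos.2 (hA0 r)
  have w0 : ∀ r, 0 < (Λ + h (3 - r))⁻¹ := fun r => inv_pos.2 (hB0 r)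
  have u1 : ∀ r, (100 + h r)⁻¹ ≤ 1 / 100 := fun r => by
    rw [one_div]; exact inv_anti₀ (by norm_num) (hA r)
  have u2 : ∀ r ∈ Icc (0 : ℝ) 3, 1 / 109 ≤ (100 + h r)⁻¹ := fun r hr => by
    rw [one_div]; exact inv_anti₀ (hA0 r) (by linarith [H.hb r hr])
  have w1 : ∀ r, (Λ + h (3 - r))⁻¹ ≤ 1 / 10 ^ 7 := fun r => by
    rw [one_div]; exact inv_anti₀ (by norm_num) (Λ1.trans (hB r))
  have w2 : ∀ r, (Λ + h (3 - r))⁻¹ * C ^ 2 ≤ 1 / 10 ^ 7 := fun r => by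
    rw [inv_mul_le_iff₀ (hB0 r)]
    linarith [hB r]
  have hp2 : ∀ r ∈ Icc (0 : ℝ) 3, h1 r ≤ 3 * h2 r := fun r hr =>
    (H.h1le r hr).trans (mul_le_mul_of_nonneg_right hr.2 (H.h2b r).1)
  have hr3 : ∀ r ∈ Icc (0 : ℝ) 3, 3 - r ∈ Icc (0 : ℝ) 3 := fun r hr =>
    ⟨by linarith [hr.2], by linarith [hr.1]⟩
  have na := fun r hr => ap2_neg hk (u0 r) (u1 r) (H.h1b r).1 (H.h1b r).2 (hp2 r hr)
  have nb := fun r hr => ap2_neg hk (w0 r) ((w1 r).trans (by norm_num)) (H.h1b (3 - r)).1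
    (H.h1b (3 - r)).2 (hp2 _ (hr3 r hr))
  refine ⟨fun r hr => ?_, fun r hr => ?_, S.L, S.R, S.b01, fun r hr => ?_, fun r hr => ?_,
    fun r hr => ?_, fun r hr => ?_, fun r hr => ?_, fun r hr => ?_⟩ <;>
    simp only [profOf, (Ea r).1, (Ea r).2.1, (Ea r).2.2, (Eb r).1, (Eb r).2.1, (Eb r).2.2,
      neg_sq] <;>
    have hu0 := u0 r <;> have hw0 := w0 r <;> have hu1 := u1 r <;> have hw1 := w1 r <;>
    have hp := H.h1b r <;> have hq := H.h1b (3 - r) <;> have hp' := H.h2b r <;>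
    have hq' := H.h2b (3 - r)
  · obtain ⟨-, e1, e2⟩ := H.neg r hr
    have : 0 ≤ k ^ 2 * h2 (3 - r) * (Λ + h (3 - r))⁻¹ ^ 5 := by have := hq'.1; positivity
    exact ⟨by rw [e1]; ring, by rw [e1, e2]; ring, by linarith⟩
  · obtain ⟨-, e1, e2⟩ := H.neg (3 - r) (by linarith)
    have : 0 ≤ k ^ 2 * h2 r * (100 + h r)⁻¹ ^ 5 := by have := hp'.1; positivity
    exact ⟨by rw [e1]; ring, by rw [e1, e2]; ring, by linarith⟩
  · have := hp.1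
    have := hq.1
    have := hp'.1
    have := hq'.1
    have : 0 ≤ k * h1 r * (100 + h r)⁻¹ ^ 3 := by positivity
    have : 0 ≤ k * h1 (3 - r) * (Λ + h (3 - r))⁻¹ ^ 3 := by positivity
    exact ⟨by linarith, (na r hr).trans (neg_nonpos.2 (by positivity)), by linarith,
      (nb r hr).trans (neg_nonpos.2 (by positivity))⟩
  · have hr' : r ∈ Icc (0 : ℝ) 3 := ⟨by linarith [hr.1], by linarith [hr.2]⟩
    refine ap2_I3 hk (u2 r hr') hw0 hC (w2 r) hq.1 hq.2 (S.bd r).1 (S.bd r).2 ?_ ?_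
    · rw [← (H.one r ⟨by linarith [hr.1], hr'.2⟩).1]
      exact na r hr'
    · rw [← (H.one (3 - r) ⟨by linarith [hr.2], by linarith [hr.1]⟩).1]
      exact nb r hr'
  · have := u2 r hr
    generalize (100 + h r)⁻¹ = u at *
    generalize (Λ + h (3 - r))⁻¹ = w at *
    have : (100 * w) ^ 2 ≤ u ^ 2 := by gcongr; linarith
    have : 0 ≤ k * (u ^ 2 - 1000 * w ^ 2) := mul_nonneg hk.le (by nlinarith)
    linarith
  · have := u2 r ⟨hr.1, by linarith [hr.2]⟩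
    have := (H.one (3 - r) ⟨by linarith [hr.2], by linarith [hr.1]⟩).2
    generalize (100 + h r)⁻¹ = u at *
    generalize (Λ + h (3 - r))⁻¹ = w at *
    have e1 : h1 r * w ≤ 3 * (1 / 10 ^ 7) := by gcongr; exact hp.2
    have e2 : 1 / 4 * (1 / 109) ≤ h1 (3 - r) * u := by gcongr; exacts [hq.1, by linarith [hr.2]]
    have : 0 ≤ k ^ 3 * u ^ 3 * w ^ 3 * (h1 (3 - r) * u - 5 * (h1 r * w)) :=
      mul_nonneg (by positivity) (by linarith)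
    linarith
  · have := u2 r ⟨by linarith [hr.1], by linarith [hr.2]⟩
    have := (H.one r ⟨by linarith [hr.1], by linarith [hr.2]⟩).2
    generalize (100 + h r)⁻¹ = u at *
    generalize (Λ + h (3 - r))⁻¹ = w at *
    have e1 : h1 (3 - r) * w ^ 3 ≤ 3 * (1 / 10 ^ 7) ^ 3 := by gcongr; exact hq.2
    have e2 : 1 / 4 * (1 / 109) ^ 3 ≤ h1 r * u ^ 3 := by gcongr; exacts [hp.1, by linarith [hr.1]]
    have : 0 ≤ k * (2 * (h1 r * u ^ 3) - 5 * (h1 (3 - r) * w ^ 3)) :=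
      mul_nonneg hk.le (by linarith)
    linarith
  · have hr' : r ∈ Icc (0 : ℝ) 3 := ⟨hr.1, by linarith [hr.2]⟩
    have := u2 r hr'
    have := na r hr'
    have e0 : h1 r ≤ 5 / 4 * h2 r :=
      (H.h1le r hr').trans (mul_le_mul_of_nonneg_right hr.2 hp'.1)
    generalize (100 + h r)⁻¹ = u at *
    generalize (Λ + h (3 - r))⁻¹ = w at *
    have e1 : h1 (3 - r) * w ^ 3 ≤ 3 * (1 / 10 ^ 7) ^ 3 := by gcongr; exact hq.2
    have e2 : (1 / 109) ^ 2 ≤ u ^ 2 := by gcongr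
    have : 0 ≤ k * (u ^ 2 - 14 * (h1 (3 - r) * w ^ 3)) := mul_nonneg hk.le (by linarith)
    have : 0 ≤ k * u ^ 3 * (7 * h2 r - 4 * h1 r) :=
      mul_nonneg (by positivity) (by linarith [hp'.1])
    exact ⟨by linarith, by linarith⟩

end Crest.Agent.R244
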