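import Crest.Agent.R244.Calc0

/-!
# R244 / Calc1 : algebra and smoothness of `ip`, `Gam`; Koszul formula; metric compatibility

Proof hints.  `G x` is symmetric (`(h.posDef x hx).isHermitian`/`.1`), `ip G x u v = u ⬝ᵥ (G x *ᵥ v)`.
Smoothness of the inverse matrix: `(G x)⁻¹ i j = (G x).det⁻¹ * (G x).adjugate i j`
(`Matrix.inv_def`, `Ring.inverse_eq_inv'`), determinants are polynomials in the entries
(`Matrix.det_apply`, `adjugate_apply`); compare `R202/Jet.lean` (`contDiff_christoffel`, same proof for
`U = univ`).  `pderiv i f` is `ContDiffOn` on the open `U` by `ContDiffOn.fderiv_of_isOpen`.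
`dG G x u v w = ∑ i j, (∑ k, pderiv k (G · i j) x * u k) * v i * w j` (`dG_eq`); `ip_gam` then is
`G * G⁻¹ = 1`.
-/

set_option autoImplicit false

noncomputable section

open scoped ContDiff Manifold Topology
open Set Crest.GeometryTopology.CoordMetric Crest.GeometryTopology.ChartCurvature
open Crest.GeometryTopology.Geodesic

namespace Crest.Agent.R244

variable {n : ℕ} {G : MetricField n} {U : Set (E n)}

theorem c1_fderiv_sum (f : E n → ℝ) (x u : E n) :
    fderiv ℝ f x u = ∑ k, pderiv k f x * u k := by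
  have hu : u = ∑ k, u k • EuclideanSpace.single k (1 : ℝ) := by
    ext i
    simp [Finset.sum_apply, Pi.single_apply]
  conv_lhs => rw [hu]
  rw [map_sum]
  refine Finset.sum_congr rfl fun k _ => ?_
  rw [map_smul, smul_eq_mul, pderiv, mul_comm]

theorem c1_diffG (h : IsRiemannianOn G U) {x : E n} (hx : x ∈ U) (i j : Fin n) :
    DifferentiableAt ℝ (fun y => G y i j) x :=
  ((h.contDiffOn i j).contDiffAt (h.isOpen.mem_nhds hx)).differentiableAt (by simp)

theorem c1_diffΓ (h : IsRiemannianOn G U) {x : E n} (hx : x ∈ U) (k i j : Fin n) :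
    DifferentiableAt ℝ (fun y => christoffel G y k i j) x :=
  ((christoffel_smooth h k i j).contDiffAt (h.isOpen.mem_nhds hx)).differentiableAt (by simp)

theorem c1_dG_eq (h : IsRiemannianOn G U) {x : E n} (hx : x ∈ U) (u v w : E n) :
    dG G x u v w = ∑ i, ∑ j, fderiv ℝ (fun y => G y i j) x u * v i * w j := by
  have H : HasFDerivAt (fun y => ip G y v w)
      (∑ i, ∑ j, (v i * w j) • fderiv ℝ (fun y => G y i j) x) x := by
    unfold ip
    refine HasFDerivAt.fun_sum fun i _ => HasFDerivAt.fun_sum fun j _ => ?_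
    have := ((c1_diffG h hx i j).hasFDerivAt).const_mul (v i * w j)
    have e : (fun y => G y i j * v i * w j) = fun y => v i * w j * G y i j := by
      funext y
      ring
    rw [e]
    exact this
  rw [dG, H.fderiv]
  simp only [sum_apply, smul_apply, smul_eq_mul]
  refine Finset.sum_congr rfl fun i _ => Finset.sum_congr rfl fun j _ => by ring

theorem c1_coord {V : ℝ → E n} {s : ℝ} {V' : E n} (hV : HasDerivAt V V' s) (i : Fin n) :
    HasDerivAt (fun t => V t i) (V' i) s :=
  ((EuclideanSpace.proj i : E n →L[ℝ] ℝ).hasFDerivAt).comp_hasDerivAt s hV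

theorem c1_of_coord {V : ℝ → E n} {s : ℝ} {V' : E n}
    (hV : ∀ i, HasDerivAt (fun t => V t i) (V' i) s) : HasDerivAt V V' s := by
  have h1 : HasDerivAt (fun t => (fun i => V t i : Fin n → ℝ)) (fun i => V' i) s :=
    hasDerivAt_pi.2 hV
  have h2 := ((EuclideanSpace.equiv (Fin n) ℝ).symm.toContinuousLinearMap.hasFDerivAt).comp_hasDerivAt
    s h1
  exact h2

theorem dG_eq (h : IsRiemannianOn G U) {x : E n} (hx : x ∈ U) (u v w : E n) :
    dG G x u v w = ∑ i, ∑ j, (∑ k, pderiv k (fun y => G y i j) x * u k) * v i * w j := by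
  rw [c1_dG_eq h hx]
  simp only [c1_fderiv_sum]

theorem c1_lower (h : IsRiemannianOn G U) {x : E n} (hx : x ∈ U) (m i j : Fin n) :
    ∑ k, G x k m * christoffel G x k i j =
      (pderiv i (fun y => G y j m) x + pderiv j (fun y => G y i m) x -
        pderiv m (fun y => G y i j) x) / 2 := by
  have hp := h.posDef x hx
  have hs : ∀ a b, G x a b = G x b a := fun a b => by
    have := hp.isHermitian.apply b a
    simpa using this
  have hu : IsUnit (G x).det := (Matrix.isUnit_iff_isUnit_det _).1 hp.isUnit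
  have hinv : ∀ l, ∑ k, G x k m * (G x)⁻¹ k l = if m = l then 1 else 0 := fun l => by
    have := congrFun (congrFun (Matrix.mul_nonsing_inv (G x) hu) m) l
    rw [Matrix.mul_apply, Matrix.one_apply] at this
    rw [← this]
    exact Finset.sum_congr rfl fun k _ => by rw [hs k m]
  unfold christoffel inverseField
  set P : Fin n → ℝ := fun l => pderiv i (fun y => G y j l) x + pderiv j (fun y => G y i l) x -
    pderiv l (fun y => G y i j) x with hP
  calc ∑ k, G x k m * ((1 / 2) * ∑ l, (G x)⁻¹ k l * P l)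
      = ∑ k, ∑ l, (G x k m * (G x)⁻¹ k l) * (P l / 2) := by
        refine Finset.sum_congr rfl fun k _ => ?_
        rw [Finset.mul_sum, Finset.mul_sum]
        exact Finset.sum_congr rfl fun l _ => by ring
    _ = ∑ l, (∑ k, G x k m * (G x)⁻¹ k l) * (P l / 2) := by
        rw [Finset.sum_comm]
        exact Finset.sum_congr rfl fun l _ => by rw [Finset.sum_mul]
    _ = P m / 2 := by
        simp only [hinv, ite_mul, one_mul, zero_mul]
        rw [Finset.sum_ite_eq]
        simp

theorem c1_sum3 (F : Fin n → Fin n → Fin n → ℝ) :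
    ∑ a, ∑ b, ∑ c, F a b c = ∑ b, ∑ c, ∑ a, F a b c := by
  rw [Finset.sum_comm]
  exact Finset.sum_congr rfl fun b _ => Finset.sum_comm

theorem c1_dG3 (h : IsRiemannianOn G U) {x : E n} (hx : x ∈ U) (u v w : E n) :
    dG G x u v w = ∑ k, ∑ i, ∑ j, pderiv k (fun y => G y i j) x * u k * v i * w j := by
  rw [dG_eq h hx, c1_sum3]
  refine Finset.sum_congr rfl fun i _ => Finset.sum_congr rfl fun j _ => ?_
  rw [Finset.sum_mul, Finset.sum_mul]

/-- Koszul formula -/
theorem ip_gam (h : IsRiemannianOn G U) {x : E n} (hx : x ∈ U) (u v w : E n) :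
    ip G x (Gam G x u v) w = (dG G x u v w + dG G x v u w - dG G x w u v) / 2 := by
  have e0 : ip G x (Gam G x u v) w =
      ∑ i, ∑ j, ∑ m, (∑ k, G x k m * christoffel G x k i j) * u i * v j * w m := by
    unfold ip Gam
    simp only [Finset.sum_mul, Finset.mul_sum]
    calc ∑ k, ∑ m, ∑ i, ∑ j, G x k m * (christoffel G x k i j * u i * v j) * w m
        = ∑ m, ∑ i, ∑ j, ∑ k, G x k m * (christoffel G x k i j * u i * v j) * w m := by
          rw [Finset.sum_comm]
          exact Finset.sum_congr rfl fun m _ => c1_sum3 _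
      _ = ∑ i, ∑ j, ∑ m, ∑ k, G x k m * (christoffel G x k i j * u i * v j) * w m := c1_sum3 _
      _ = _ := by
          refine Finset.sum_congr rfl fun i _ => Finset.sum_congr rfl fun j _ =>
            Finset.sum_congr rfl fun m _ => Finset.sum_congr rfl fun k _ => by ring
  have e1 : dG G x u v w = ∑ i, ∑ j, ∑ m, pderiv i (fun y => G y j m) x * u i * v j * w m :=
    c1_dG3 h hx u v w
  have e2 : dG G x v u w = ∑ i, ∑ j, ∑ m, pderiv j (fun y => G y i m) x * u i * v j * w m := by
    rw [c1_dG3 h hx, Finset.sum_comm]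
    refine Finset.sum_congr rfl fun i _ => Finset.sum_congr rfl fun j _ =>
      Finset.sum_congr rfl fun m _ => by ring
  have e3 : dG G x w u v = ∑ i, ∑ j, ∑ m, pderiv m (fun y => G y i j) x * u i * v j * w m := by
    rw [c1_dG3 h hx, c1_sum3]
    refine Finset.sum_congr rfl fun i _ => Finset.sum_congr rfl fun j _ =>
      Finset.sum_congr rfl fun m _ => by ring
  rw [e0, e1, e2, e3]
  simp only [c1_lower h hx, ← Finset.sum_add_distrib, ← Finset.sum_sub_distrib, Finset.sum_div]
  refine Finset.sum_congr rfl fun i _ => Finset.sum_congr rfl fun j _ =>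
    Finset.sum_congr rfl fun m _ => by ring

theorem geo_iff (G : MetricField n) (c : ℝ → E n) (s : ℝ) :
    GeodesicEqAt G c s ↔ deriv (deriv c) s + Gam G (c s) (deriv c s) (deriv c s) = 0 := by
  unfold GeodesicEqAt Gam
  constructor
  · intro H
    ext k
    simpa using H k
  · intro H k
    have := congrArg (fun z : E n => z k) H
    simpa using this

theorem covDeriv_eq (G : MetricField n) (c V : ℝ → E n) (s : ℝ) :
    covDeriv G c V s = deriv V s + Gam G (c s) (deriv c s) (V s) := by
  ext k
  simp [covDeriv, Gam]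

/-- chain rule for `ip` along a curve -/
theorem hasDerivAt_ip' (h : IsRiemannianOn G U) {c V W : ℝ → E n} {s : ℝ} {c' V' W' : E n}
    (hs : c s ∈ U) (hc : HasDerivAt c c' s) (hV : HasDerivAt V V' s) (hW : HasDerivAt W W' s) :
    HasDerivAt (fun t => ip G (c t) (V t) (W t))
      (dG G (c s) c' (V s) (W s) + ip G (c s) V' (W s) + ip G (c s) (V s) W') s := by
  have H : HasDerivAt (fun t => ∑ i, ∑ j, G (c t) i j * V t i * W t j)
      (∑ i, ∑ j, ((fderiv ℝ (fun y => G y i j) (c s) c' * V s i + G (c s) i j * V' i) * W s j +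
        G (c s) i j * V s i * W' j)) s := by
    refine HasDerivAt.fun_sum fun i _ => HasDerivAt.fun_sum fun j _ => ?_
    have h1 : HasDerivAt (fun t => G (c t) i j) (fderiv ℝ (fun y => G y i j) (c s) c') s :=
      (c1_diffG h hs i j).hasFDerivAt.comp_hasDerivAt s hc
    exact (h1.mul (c1_coord hV i)).mul (c1_coord hW j)
  refine HasDerivAt.congr_deriv (f := fun t => ip G (c t) (V t) (W t)) H ?_
  rw [c1_dG_eq h hs]
  unfold ip
  simp only [← Finset.sum_add_distrib]
  refine Finset.sum_congr rfl fun i _ => Finset.sum_congr rfl fun j _ => by ring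

theorem c1_fderiv_gam (h : IsRiemannianOn G U) {x : E n} (hx : x ∈ U) (u v w : E n) (k : Fin n) :
    fderiv ℝ (fun y => Gam G y v w) x u k =
      ∑ i, ∑ j, fderiv ℝ (fun y => christoffel G y k i j) x u * v i * w j := by
  have hl : HasDerivAt (fun t : ℝ => x + t • u) u 0 := by
    simpa using ((hasDerivAt_id (0 : ℝ)).smul_const u).const_add x
  have hx0 : x + (0 : ℝ) • u = x := by simp
  have hd : DifferentiableAt ℝ (fun y => Gam G y v w) x := by
    rw [differentiableAt_euclidean]
    intro k
    change DifferentiableAt ℝ (fun y => ∑ i, ∑ j, christoffel G y k i j * v i * w j) x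
    exact DifferentiableAt.fun_sum fun i _ => DifferentiableAt.fun_sum fun j _ =>
      ((c1_diffΓ h hx k i j).mul_const _).mul_const _
  have A : HasDerivAt (fun t : ℝ => Gam G (x + t • u) v w k)
      (fderiv ℝ (fun y => Gam G y v w) x u k) 0 := by
    have h1 : HasFDerivAt (fun y => Gam G y v w) (fderiv ℝ (fun y => Gam G y v w) x)
        (x + (0 : ℝ) • u) := by rw [hx0]; exact hd.hasFDerivAt
    exact c1_coord (h1.comp_hasDerivAt (0 : ℝ) hl) k
  have B : HasDerivAt (fun t : ℝ => Gam G (x + t • u) v w k)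
      (∑ i, ∑ j, fderiv ℝ (fun y => christoffel G y k i j) x u * v i * w j) 0 := by
    change HasDerivAt (fun t : ℝ => ∑ i, ∑ j, christoffel G (x + t • u) k i j * v i * w j) _ 0
    refine HasDerivAt.fun_sum fun i _ => HasDerivAt.fun_sum fun j _ => ?_
    have h1 : HasFDerivAt (fun y => christoffel G y k i j)
        (fderiv ℝ (fun y => christoffel G y k i j) x) (x + (0 : ℝ) • u) := by
      rw [hx0]; exact (c1_diffΓ h hx k i j).hasFDerivAt
    exact ((h1.comp_hasDerivAt (0 : ℝ) hl).mul_const _).mul_const _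
  exact A.unique B

/-- chain rule for `Gam` along a curve -/
theorem hasDerivAt_gam (h : IsRiemannianOn G U) {c V W : ℝ → E n} {s : ℝ} {c' V' W' : E n}
    (hs : c s ∈ U) (hc : HasDerivAt c c' s) (hV : HasDerivAt V V' s) (hW : HasDerivAt W W' s) :
    HasDerivAt (fun t => Gam G (c t) (V t) (W t))
      (fderiv ℝ (fun y => Gam G y (V s) (W s)) (c s) c' + Gam G (c s) V' (W s) +
        Gam G (c s) (V s) W') s := by
  refine c1_of_coord fun k => ?_
  have H : HasDerivAt (fun t => ∑ i, ∑ j, christoffel G (c t) k i j * V t i * W t j)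
      (∑ i, ∑ j, ((fderiv ℝ (fun y => christoffel G y k i j) (c s) c' * V s i +
        christoffel G (c s) k i j * V' i) * W s j + christoffel G (c s) k i j * V s i * W' j)) s := by
    refine HasDerivAt.fun_sum fun i _ => HasDerivAt.fun_sum fun j _ => ?_
    have h1 : HasDerivAt (fun t => christoffel G (c t) k i j)
        (fderiv ℝ (fun y => christoffel G y k i j) (c s) c') s :=
      (c1_diffΓ h hs k i j).hasFDerivAt.comp_hasDerivAt s hc
    exact (h1.mul (c1_coord hV i)).mul (c1_coord hW j)
  refine HasDerivAt.congr_deriv (f := fun t => Gam G (c t) (V t) (W t) k) H ?_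
  rw [PiLp.add_apply, PiLp.add_apply, c1_fderiv_gam h hs]
  simp only [Gam, ← Finset.sum_add_distrib]
  refine Finset.sum_congr rfl fun i _ => Finset.sum_congr rfl fun j _ => by ring

theorem c1_dG_symm (h : IsRiemannianOn G U) {x : E n} (hx : x ∈ U) (u v w : E n) :
    dG G x u v w = dG G x u w v := by
  unfold dG
  have : (fun y => ip G y v w) =ᶠ[𝓝 x] fun y => ip G y w v := by
    filter_upwards [h.isOpen.mem_nhds hx] with y hy using ip_symm h hy v w
  rw [this.fderiv_eq]

/-- metric compatibility: by Koszul `dG x u v w = ip (Γ(u,v)) w + ip v (Γ(u,w))` -/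
theorem hasDerivAt_ip (h : IsRiemannianOn G U) {c V W : ℝ → E n} {s : ℝ} (hs : c s ∈ U)
    (hc : DifferentiableAt ℝ c s) (hV : DifferentiableAt ℝ V s) (hW : DifferentiableAt ℝ W s) :
    HasDerivAt (fun t => ip G (c t) (V t) (W t))
      (ip G (c s) (covDeriv G c V s) (W s) + ip G (c s) (V s) (covDeriv G c W s)) s := by
  have H := hasDerivAt_ip' h hs hc.hasDerivAt hV.hasDerivAt hW.hasDerivAt
  convert H using 1
  rw [covDeriv_eq, covDeriv_eq, ip_add_left, ip_add_right, ip_gam h hs,
    ip_symm h hs (V s) (Gam G (c s) (deriv c s) (W s)), ip_gam h hs,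
    c1_dG_symm h hs (deriv c s) (W s) (V s), c1_dG_symm h hs (W s) (deriv c s) (V s),
    c1_dG_symm h hs (V s) (deriv c s) (W s)]
  ring

/-- pure algebra from the definitions -/
theorem ip_jacobi {c j : ℝ → E n} {s : ℝ} (hj : JacobiEqAt G c j s) :
    ip G (c s) (covDeriv G c (covDeriv G c j) s) (j s) = -secNumer G (c s) (j s) (deriv c s) := by
  unfold ip secNumer
  rw [← Finset.sum_neg_distrib]
  refine Finset.sum_congr rfl fun l _ => ?_
  rw [← Finset.sum_neg_distrib]
  refine Finset.sum_congr rfl fun m _ => ?_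
  rw [eq_neg_of_add_eq_zero_left (hj l)]
  ring

theorem c1_diff_deriv {j : ℝ → E n} {s : ℝ} (hj : ContDiffAt ℝ 2 j s) :
    DifferentiableAt ℝ (deriv j) s := by
  have h1 : ContDiffAt ℝ 1 (fderiv ℝ j) s := hj.fderiv_right (by norm_num)
  have h2 : DifferentiableAt ℝ (fun t => fderiv ℝ j t 1) s :=
    (h1.differentiableAt (by simp)).clm_apply (differentiableAt_const _)
  exact h2

theorem differentiableAt_covDeriv (h : IsRiemannianOn G U) {c j : ℝ → E n} {s : ℝ} (hs : c s ∈ U)
    (hc : ContDiffAt ℝ 2 c s) (hj : ContDiffAt ℝ 2 j s) :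
    DifferentiableAt ℝ (covDeriv G c j) s := by
  have e : covDeriv G c j = fun t => deriv j t + Gam G (c t) (deriv c t) (j t) :=
    funext fun t => covDeriv_eq G c j t
  rw [e]
  have d1 : DifferentiableAt ℝ (deriv j) s :=
    c1_diff_deriv hj
  have d2 : DifferentiableAt ℝ (deriv c) s :=
    c1_diff_deriv hc
  have d3 := hasDerivAt_gam h hs (hc.differentiableAt (by simp)).hasDerivAt d2.hasDerivAt
    (hj.differentiableAt (by simp)).hasDerivAt
  exact d1.add d3.differentiableAt

/-- `⟨Dj, j⟩' = |Dj|² - ⟨R(j,c')c', j⟩` for a Jacobi field -/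
theorem hasDerivAt_ip_cov (h : IsRiemannianOn G U) {c j : ℝ → E n} {s : ℝ} (hs : c s ∈ U)
    (hc : ContDiffAt ℝ 2 c s) (hj : ContDiffAt ℝ 2 j s) (hJ : JacobiEqAt G c j s) :
    HasDerivAt (fun t => ip G (c t) (covDeriv G c j t) (j t))
      (ip G (c s) (covDeriv G c j s) (covDeriv G c j s) - secNumer G (c s) (j s) (deriv c s)) s := by
  have H := hasDerivAt_ip h hs (hc.differentiableAt (by simp))
    (differentiableAt_covDeriv h hs hc hj) (hj.differentiableAt (by simp))
  convert H using 1
  rw [ip_jacobi hJ]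
  ring

/-- locality: everything only depends on the germ of `G` -/
theorem christoffel_congr {G' : MetricField n} {x : E n} (h : G =ᶠ[𝓝 x] G') :
    ∀ᶠ y in 𝓝 x, christoffel G y = christoffel G' y := by
  filter_upwards [h.eventuallyEq_nhds] with y hy
  funext k i j
  have e : ∀ a b l, pderiv l (fun z => G z a b) y = pderiv l (fun z => G' z a b) y := by
    intro a b l
    have : (fun z => G z a b) =ᶠ[𝓝 y] fun z => G' z a b := by
      filter_upwards [hy] with z hz
      rw [hz]
    unfold pderiv
    rw [this.fderiv_eq]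
  unfold christoffel inverseField
  simp only [e, hy.eq_of_nhds]

/-- a locally constant metric is flat -/
theorem flat_of_const {x : E n} {G0 : Matrix (Fin n) (Fin n) ℝ} (h : ∀ᶠ y in 𝓝 x, G y = G0)
    (u v : E n) : secNumer G x u v = 0 := by
  have h1 : ∀ᶠ y in 𝓝 x, christoffel G y = christoffel (fun _ => G0) y := christoffel_congr h
  have h0 : ∀ y : E n, christoffel (fun _ => G0) y = fun _ _ _ => 0 := by
    intro y
    funext k i j
    simp [christoffel, pderiv]
  have h2 : ∀ᶠ y in 𝓝 x, christoffel G y = fun _ _ _ => 0 := by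
    filter_upwards [h1] with y hy
    rw [hy, h0]
  have h3 : ∀ a l i j, pderiv a (fun y => christoffel G y l i j) x = 0 := by
    intro a l i j
    have : (fun y => christoffel G y l i j) =ᶠ[𝓝 x] fun _ => (0 : ℝ) := by
      filter_upwards [h2] with y hy
      rw [hy]
    unfold pderiv
    rw [this.fderiv_eq]
    simp
  have h4 : christoffel G x = fun _ _ _ => 0 := h2.self_of_nhds
  simp [secNumer, riemann, h3, h4]

end Crest.Agent.R244
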