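import Crest.Agent.R244.AId1
import Crest.Agent.R244.AProf2
import Crest.Agent.R244.Calc1

/-!
# R244 / ANeck1 : the geodesic and the linearised equation of the neck metric give `SolAt`

`F = profOf α β σ`, `r = x 0`, `ū = (u 1, u 2)`.  `ip_GN` is algebra (`Fin.sum_univ_three`, `a = 1/α²`).
`dG_GN`: `y ↦ ip (GN) y v w = v 0 * w 0 + g0 (y 0) v̄ w̄`, chain rule with `Reg.hasDerivAt_g0`.
`gam_GN`: by `ip_ext` and the Koszul formula `ip_gam`:
`ip (Γ(u,v)) w = ½ (u 0 * g1 v̄ w̄ + v 0 * g1 ū w̄ - w 0 * g1 ū v̄)`, and `g0 (Q κ e1, Q κ e2) w̄ = κ · w̄`.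
`solAt_of`: `τ' = c'' 0 = ½ g1(ẋ,ẋ) = -½ Q1(p,p)` for `p = g0 ẋ`; `p' = τ g1 ẋ + g0 ẍ = 0`; for the
linearised equation `fderiv (fun x => Γ x u u) x j` is computed from `gam_GN` (a function of `x 0`, use
`Reg.hasDerivAt_g1`, `Reg.hasDerivAt_Q` along `r ↦ r`, or differentiate the Koszul identity instead);
`π' = 0` and the formula for `v'` follow by `field_simp; ring` after substituting `c''`, `j''`.
The `z`-equation is the algebraic identity `Q (g0 z' + y g1 ẋ) + y Q1 (g0 ẋ) = z'`.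
-/

set_option autoImplicit false

noncomputable section

open scoped ContDiff Topology
open Set Crest.GeometryTopology.CoordMetric Crest.GeometryTopology.ChartCurvature
open Crest.GeometryTopology.Geodesic

namespace Crest.Agent.R244

variable {α β σ : ℝ → ℝ} {cL cR : ℝ}

theorem gn_riem (h : Warp α β σ cL cR) : IsRiemannianOn (GN α β σ) univ := by
  have h0 : ContDiff ℝ ∞ (fun x : E 3 => x 0) := (EuclideanSpace.proj (0 : Fin 3) : E 3 →L[ℝ] ℝ).contDiff
  have ha : ContDiff ℝ ∞ (fun x : E 3 => α (x 0)) := h.sα.comp h0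
  have hb : ContDiff ℝ ∞ (fun x : E 3 => β (x 0)) := h.sβ.comp h0
  have hs : ContDiff ℝ ∞ (fun x : E 3 => σ (x 0)) := h.sσ.comp h0
  refine ⟨isOpen_univ, fun i j => ContDiff.contDiffOn ?_, fun x _ => ?_⟩
  · have h1 := ha.pow 2
    have h2 := ((ha.pow 2).mul hs).neg
    have h3 := ((ha.pow 2).mul (hs.pow 2)).add (hb.pow 2)
    fin_cases i <;> fin_cases j
    exacts [contDiff_const (c := (1 : ℝ)), contDiff_const (c := (0 : ℝ)), contDiff_const (c := (0 : ℝ)),
      contDiff_const (c := (0 : ℝ)), h1, h2, contDiff_const (c := (0 : ℝ)), h2, h3]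
  · refine Matrix.PosDef.of_dotProduct_mulVec_pos ?_ fun v hv => ?_
    · ext i j
      fin_cases i <;> fin_cases j <;> rfl
    · have e : star v ⬝ᵥ (GN α β σ x).mulVec v =
          v 0 ^ 2 + (α (x 0) * (v 1 - σ (x 0) * v 2)) ^ 2 + (β (x 0) * v 2) ^ 2 := by
        simp [GN, dotProduct, Matrix.mulVec, Fin.sum_univ_three]
        ring
      rw [e]
      have a0 := (h.αpos (x 0)).ne'
      have b0 := (h.βpos (x 0)).ne'
      by_contra hle
      have q0 := sq_nonneg (v 0)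
      have q1 := sq_nonneg (α (x 0) * (v 1 - σ (x 0) * v 2))
      have q2 := sq_nonneg (β (x 0) * v 2)
      have z0 : v 0 = 0 := pow_eq_zero_iff two_ne_zero |>.1 (by linarith)
      have z2 : v 2 = 0 := by
        have : β (x 0) * v 2 = 0 := pow_eq_zero_iff two_ne_zero |>.1 (by linarith)
        exact (mul_eq_zero.1 this).resolve_left b0
      have z1 : v 1 = 0 := by
        have : α (x 0) * (v 1 - σ (x 0) * v 2) = 0 := pow_eq_zero_iff two_ne_zero |>.1 (by linarith)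
        have := (mul_eq_zero.1 this).resolve_left a0
        rwa [z2, mul_zero, sub_zero] at this
      apply hv
      funext i
      fin_cases i
      exacts [z0, z1, z2]

theorem ip_GN (_h : Warp α β σ cL cR) (x u v : E 3) :
    ip (GN α β σ) x u v = u 0 * v 0 + (profOf α β σ).g0 (x 0) (u 1, u 2) (v 1, v 2) := by
  simp [ip, GN, Prof.g0, profOf, Fin.sum_univ_three]
  ring

theorem dG_GN (h : Warp α β σ cL cR) (x u v w : E 3) :
    dG (GN α β σ) x u v w = u 0 * (profOf α β σ).g1 (x 0) (v 1, v 2) (w 1, w 2) := by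
  have e : (fun y => ip (GN α β σ) y v w) =
      (fun r => v 0 * w 0 + (profOf α β σ).g0 r (v 1, v 2) (w 1, w 2)) ∘ fun y : E 3 => y 0 :=
    funext fun y => ip_GN h y v w
  have h1 := (h.reg.hasDerivAt_g0 (hasDerivAt_id (x 0)) (hasDerivAt_const (x 0) (v 1, v 2))
    (hasDerivAt_const (x 0) (w 1, w 2))).const_add (v 0 * w 0)
  have h0 : HasFDerivAt (fun y : E 3 => y 0) (EuclideanSpace.proj (0 : Fin 3) : E 3 →L[ℝ] ℝ) x :=
    (EuclideanSpace.proj (0 : Fin 3) : E 3 →L[ℝ] ℝ).hasFDerivAt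
  have h2 := HasDerivAt.comp_hasFDerivAt x h1 h0
  unfold dG
  rw [e]
  refine (congrArg (fun L : E 3 →L[ℝ] ℝ => L u) h2.fderiv).trans ?_
  simp [Prof.g0, mul_comm]

/-- the covector `½ (u₀ g₁(v̄,·) + v₀ g₁(ū,·))` -/
def Prof.kc (F : Prof) (r : ℝ) (u v : E 3) : ℝ × ℝ :=
  ((u 0 * F.g1 r (v 1, v 2) e1 + v 0 * F.g1 r (u 1, u 2) e1) / 2,
    (u 0 * F.g1 r (v 1, v 2) e2 + v 0 * F.g1 r (u 1, u 2) e2) / 2)

theorem gam_GN (h : Warp α β σ cL cR) (x u v : E 3) :
    Gam (GN α β σ) x u v = !₂[-((profOf α β σ).g1 (x 0) (u 1, u 2) (v 1, v 2)) / 2,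
      (profOf α β σ).Q (x 0) ((profOf α β σ).kc (x 0) u v) e1,
      (profOf α β σ).Q (x 0) ((profOf α β σ).kc (x 0) u v) e2] := by
  have hr := h.reg
  refine ip_ext (gn_riem h) (mem_univ x) fun w => ?_
  rw [ip_gam (gn_riem h) (mem_univ x), dG_GN h, dG_GN h, dG_GN h, ip_GN h]
  have a0 := (hr.apos (x 0)).ne'
  have b0 := (hr.bpos (x 0)).ne'
  generalize profOf α β σ = F at *
  change _ = -(F.g1 (x 0) (u 1, u 2) (v 1, v 2)) / 2 * w 0 +
    F.g0 (x 0) (F.Q (x 0) (F.kc (x 0) u v) e1, F.Q (x 0) (F.kc (x 0) u v) e2) (w 1, w 2)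
  simp only [Prof.g0, Prof.g1, Prof.Q, Prof.kc, e1, e2]
  field_simp
  ring

end Crest.Agent.R244
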