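import Crest.Agent.R244.ADefs

/-!
# R244 / AProf1 : the convex function `h` and the shear `σ`

With `ST = Real.smoothTransition` (smooth, monotone, `0` on `(-∞,0]`, `1` on `[1,∞)`):
`h2 x = ST x - ST (x - 3)`, `h1 x = ∫ 0..x h2`, `h x = ∫ 0..x h1` (smoothness: `contDiff_infty_iff_deriv`
and `Continuous.deriv_integral` / `intervalIntegral.integral_hasDerivAt_right`).  On `[0,3]`
`h2 = ST` is monotone so `h1 x ≤ x * h2 x`; `h2 = 1` on `[1,3]` so `h1 x ≥ x - 1` there;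
for `x ≥ 4`, `h2 = 0` and `h1 4 = ∫ 0..4 ST - ∫ (-3)..1 ST = ∫ 1..4 ST - ∫ (-3)..0 ST = 3`;
`0 ≤ h1 ≤ 3` as `h1` is monotone and constant on `(-∞, 0]`, `[4, ∞)`.  `c0 = 12 - h 4`.
`σ r = ST (2 r - 5/2)`; the derivatives of `σ` vanish on the closed half lines `r ≤ 5/4`, `r ≥ 7/4` (they
vanish on the open ones, and are continuous), and are bounded on the compact `[5/4, 7/4]`.
-/

set_option autoImplicit false

noncomputable section

open scoped ContDiff
open Set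

namespace Crest.Agent.R244

/-- the convex function -/
structure HFun (h h1 h2 : ℝ → ℝ) (c0 : ℝ) : Prop where
  smooth : ContDiff ℝ ∞ h
  d0 : ∀ x, HasDerivAt h (h1 x) x
  d1 : ∀ x, HasDerivAt h1 (h2 x) x
  neg : ∀ x ≤ 0, h x = 0 ∧ h1 x = 0 ∧ h2 x = 0
  h0 : ∀ x, 0 ≤ h x
  h1b : ∀ x, 0 ≤ h1 x ∧ h1 x ≤ 3
  h2b : ∀ x, 0 ≤ h2 x ∧ h2 x ≤ 1
  hb : ∀ x ∈ Icc (0 : ℝ) 3, h x ≤ 9
  h1le : ∀ x ∈ Icc (0 : ℝ) 3, h1 x ≤ x * h2 x
  one : ∀ x ∈ Icc (1 : ℝ) 3, h2 x = 1 ∧ x - 1 ≤ h1 x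
  lin : ∀ x, 4 ≤ x → h x = 3 * x - c0
  c0b : 0 ≤ c0 ∧ c0 ≤ 12

/-- the shear -/
structure SFun (σ : ℝ → ℝ) (C : ℝ) : Prop where
  smooth : ContDiff ℝ ∞ σ
  L : ∀ r ≤ 5 / 4, σ r = 0 ∧ deriv σ r = 0 ∧ deriv (deriv σ) r = 0
  R : ∀ r, 7 / 4 ≤ r → σ r = 1 ∧ deriv σ r = 0 ∧ deriv (deriv σ) r = 0
  b01 : ∀ r, 0 ≤ σ r ∧ σ r ≤ 1 ∧ 0 ≤ deriv σ r
  C1 : 1 ≤ C
  bd : ∀ r, |deriv σ r| ≤ C ∧ |deriv (deriv σ) r| ≤ C

theorem ap1_prim_deriv {f : ℝ → ℝ} (hf : Continuous f) (x : ℝ) :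
    HasDerivAt (fun u => ∫ t in (0 : ℝ)..u, f t) (f x) x :=
  intervalIntegral.integral_hasDerivAt_right (hf.intervalIntegrable _ _)
    (hf.stronglyMeasurableAtFilter _ _) hf.continuousAt

theorem ap1_prim_smooth {f : ℝ → ℝ} (hf : ContDiff ℝ ∞ f) :
    ContDiff ℝ ∞ (fun u => ∫ t in (0 : ℝ)..u, f t) := by
  refine contDiff_infty_iff_deriv.2 ⟨fun x => (ap1_prim_deriv hf.continuous x).differentiableAt, ?_⟩
  have : deriv (fun u => ∫ t in (0 : ℝ)..u, f t) = f :=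
    funext fun x => (ap1_prim_deriv hf.continuous x).deriv
  rw [this]; exact hf

theorem ap1_int_const {f : ℝ → ℝ} {a b c : ℝ} (h : ∀ t ∈ uIcc a b, f t = c) :
    ∫ t in a..b, f t = (b - a) * c := by
  rw [intervalIntegral.integral_congr (g := fun _ => c) (fun t ht => h t ht)]
  simp

theorem ap1_prim_neg {f : ℝ → ℝ} (h : ∀ t ≤ 0, f t = 0) {x : ℝ} (hx : x ≤ 0) :
    ∫ t in (0 : ℝ)..x, f t = 0 := by
  rw [ap1_int_const (c := 0)]
  · simp
  · intro t ht
    rw [uIcc_of_ge hx] at ht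
    exact h t ht.2

theorem ap1_prim_sub {f : ℝ → ℝ} (hf : Continuous f) (a b : ℝ) :
    (∫ t in (0 : ℝ)..b, f t) - ∫ t in (0 : ℝ)..a, f t = ∫ t in a..b, f t :=
  intervalIntegral.integral_interval_sub_left (hf.intervalIntegrable _ _)
    (hf.intervalIntegrable _ _)

theorem ap1_int_le {f : ℝ → ℝ} (hf : Continuous f) {a b c : ℝ} (hab : a ≤ b)
    (h : ∀ t ∈ Icc a b, f t ≤ c) : ∫ t in a..b, f t ≤ (b - a) * c := by
  have := intervalIntegral.integral_mono_on (f := f) (g := fun _ => c) (μ := MeasureTheory.volume)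
    hab (hf.intervalIntegrable _ _) (continuous_const.intervalIntegrable _ _) h
  simpa using this

/-- second derivative of `h` -/
def ap1H2 (x : ℝ) : ℝ := Real.smoothTransition x - Real.smoothTransition (x - 3)

/-- first derivative of `h` -/
def ap1H1 (x : ℝ) : ℝ := ∫ t in (0 : ℝ)..x, ap1H2 t

/-- the function `h` -/
def ap1H (x : ℝ) : ℝ := ∫ t in (0 : ℝ)..x, ap1H1 t

theorem ap1H2_smooth : ContDiff ℝ ∞ ap1H2 := by
  unfold ap1H2
  exact Real.smoothTransition.contDiff.sub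
    (Real.smoothTransition.contDiff.comp (contDiff_id.sub contDiff_const))

theorem ap1H1_smooth : ContDiff ℝ ∞ ap1H1 := ap1_prim_smooth ap1H2_smooth

theorem ap1H_smooth : ContDiff ℝ ∞ ap1H := ap1_prim_smooth ap1H1_smooth

theorem ap1H2_nonneg (x : ℝ) : 0 ≤ ap1H2 x :=
  sub_nonneg.2 (Real.smoothTransition.monotone (by linarith))

theorem ap1H2_le (x : ℝ) : ap1H2 x ≤ 1 := by
  have h1 := Real.smoothTransition.le_one x
  have h2 := Real.smoothTransition.nonneg (x - 3)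
  unfold ap1H2; linarith

theorem ap1H2_eq {x : ℝ} (hx : x ≤ 3) : ap1H2 x = Real.smoothTransition x := by
  unfold ap1H2
  rw [Real.smoothTransition.zero_of_nonpos (x := x - 3) (by linarith), sub_zero]

theorem ap1H2_neg {x : ℝ} (hx : x ≤ 0) : ap1H2 x = 0 := by
  rw [ap1H2_eq (by linarith), Real.smoothTransition.zero_of_nonpos hx]

theorem ap1H1_neg {x : ℝ} (hx : x ≤ 0) : ap1H1 x = 0 :=
  ap1_prim_neg (fun _ ht => ap1H2_neg ht) hx

theorem ap1H_neg {x : ℝ} (hx : x ≤ 0) : ap1H x = 0 :=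
  ap1_prim_neg (fun _ ht => ap1H1_neg ht) hx

theorem ap1H1_mono : Monotone ap1H1 := by
  intro a b hab
  have h := ap1_prim_sub ap1H2_smooth.continuous a b
  have h2 : 0 ≤ ∫ t in a..b, ap1H2 t :=
    intervalIntegral.integral_nonneg hab fun t _ => ap1H2_nonneg t
  unfold ap1H1; linarith

theorem ap1H1_big {x : ℝ} (hx : 4 ≤ x) : ap1H1 x = 3 := by
  have hc := Real.smoothTransition.continuous
  have hc' : Continuous fun t : ℝ => Real.smoothTransition (t - 3) :=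
    hc.comp (continuous_id.sub continuous_const)
  unfold ap1H1 ap1H2
  rw [intervalIntegral.integral_sub (hc.intervalIntegrable _ _) (hc'.intervalIntegrable _ _),
    intervalIntegral.integral_comp_sub_right (fun t => Real.smoothTransition t) 3,
    ← ap1_prim_sub hc (0 - 3) (x - 3),
    ap1_prim_neg (fun t ht => Real.smoothTransition.zero_of_nonpos ht) (x := 0 - 3) (by norm_num),
    sub_zero, ap1_prim_sub hc, ap1_int_const (c := 1)]
  · ring
  · intro t ht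
    rw [uIcc_of_le (by linarith)] at ht
    exact Real.smoothTransition.one_of_one_le (by linarith [ht.1])

theorem ap1H1_nonneg (x : ℝ) : 0 ≤ ap1H1 x := by
  have h := ap1H1_mono (min_le_left x 0)
  rwa [ap1H1_neg (min_le_right x 0)] at h

theorem ap1H1_le (x : ℝ) : ap1H1 x ≤ 3 := by
  have h := ap1H1_mono (le_max_left x 4)
  rwa [ap1H1_big (le_max_right x 4)] at h

theorem ap1H_nonneg (x : ℝ) : 0 ≤ ap1H x := by
  rcases le_total x 0 with hx | hx
  · exact (ap1H_neg hx).ge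
  · exact intervalIntegral.integral_nonneg hx fun t _ => ap1H1_nonneg t

theorem ap1H_le {x : ℝ} (hx : 0 ≤ x) : ap1H x ≤ x * 3 := by
  have := ap1_int_le ap1H1_smooth.continuous hx (c := 3) fun t _ => ap1H1_le t
  simpa [ap1H] using this

theorem exists_hfun : ∃ h h1 h2 c0, HFun h h1 h2 c0 := by
  refine ⟨ap1H, ap1H1, ap1H2, 12 - ap1H 4, ap1H_smooth,
    ap1_prim_deriv ap1H1_smooth.continuous, ap1_prim_deriv ap1H2_smooth.continuous,
    fun x hx => ⟨ap1H_neg hx, ap1H1_neg hx, ap1H2_neg hx⟩, ap1H_nonneg,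
    fun x => ⟨ap1H1_nonneg x, ap1H1_le x⟩, fun x => ⟨ap1H2_nonneg x, ap1H2_le x⟩,
    ?_, ?_, ?_, ?_, ?_⟩
  · intro x hx
    have := ap1H_le hx.1
    linarith [hx.2]
  · intro x hx
    have := ap1_int_le ap1H2_smooth.continuous hx.1 (c := ap1H2 x) fun t ht => by
      rw [ap1H2_eq (ht.2.trans hx.2), ap1H2_eq hx.2]
      exact Real.smoothTransition.monotone ht.2
    simpa [ap1H1] using this
  · intro x hx
    refine ⟨by rw [ap1H2_eq hx.2, Real.smoothTransition.one_of_one_le hx.1], ?_⟩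
    have h := ap1_prim_sub ap1H2_smooth.continuous 1 x
    rw [ap1_int_const (a := 1) (b := x) (c := 1)] at h
    · have h2 := ap1H1_nonneg 1
      unfold ap1H1 at h2 ⊢
      linarith
    · intro t ht
      rw [uIcc_of_le hx.1] at ht
      rw [ap1H2_eq (ht.2.trans hx.2), Real.smoothTransition.one_of_one_le ht.1]
  · intro x hx
    have h := ap1_prim_sub ap1H1_smooth.continuous 4 x
    rw [ap1_int_const (a := 4) (b := x) (c := 3)] at h
    · unfold ap1H
      linarith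
    · intro t ht
      rw [uIcc_of_le hx] at ht
      exact ap1H1_big ht.1
  · have h1 := ap1H_nonneg 4
    have h2 := ap1H_le (x := 4) (by norm_num)
    constructor <;> linarith

theorem ap1_deriv_left {g : ℝ → ℝ} (hg : Differentiable ℝ g) {a c : ℝ} (h : ∀ x ≤ a, g x = c)
    (x : ℝ) (hx : x ≤ a) : deriv g x = 0 := by
  have h1 : HasDerivWithinAt g (deriv g x) (Iic a) x := (hg x).hasDerivAt.hasDerivWithinAt
  have h2 : HasDerivWithinAt g 0 (Iic a) x :=
    (hasDerivWithinAt_const x (Iic a) c).congr (fun y hy => h y hy) (h x hx)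
  exact (uniqueDiffOn_Iic a x hx).eq_deriv _ h1 h2

theorem ap1_deriv_right {g : ℝ → ℝ} (hg : Differentiable ℝ g) {a c : ℝ} (h : ∀ x, a ≤ x → g x = c)
    (x : ℝ) (hx : a ≤ x) : deriv g x = 0 := by
  have h1 : HasDerivWithinAt g (deriv g x) (Ici a) x := (hg x).hasDerivAt.hasDerivWithinAt
  have h2 : HasDerivWithinAt g 0 (Ici a) x :=
    (hasDerivWithinAt_const x (Ici a) c).congr (fun y hy => h y hy) (h x hx)
  exact (uniqueDiffOn_Ici a x hx).eq_deriv _ h1 h2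

theorem ap1_bound {g : ℝ → ℝ} (hg : Continuous g) {a b : ℝ} (h1 : ∀ x ≤ a, g x = 0)
    (h2 : ∀ x, b ≤ x → g x = 0) : ∃ C, 1 ≤ C ∧ ∀ x, |g x| ≤ C := by
  obtain ⟨C, hC⟩ := (isCompact_Icc (a := a) (b := b)).exists_bound_of_continuousOn hg.continuousOn
  refine ⟨max C 1, le_max_right _ _, fun x => ?_⟩
  rcases le_total x a with hx | hx
  · rw [h1 x hx, abs_zero]; exact le_trans zero_le_one (le_max_right _ _)
  rcases le_total b x with hx' | hx'
  · rw [h2 x hx', abs_zero]; exact le_trans zero_le_one (le_max_right _ _)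
  exact (hC x ⟨hx, hx'⟩).trans (le_max_left _ _)

theorem exists_sfun : ∃ σ C, SFun σ C := by
  obtain ⟨σ, hσ⟩ : ∃ σ : ℝ → ℝ, σ = fun r => Real.smoothTransition (2 * r - 5 / 2) := ⟨_, rfl⟩
  have hs : ContDiff ℝ ∞ σ := by
    rw [hσ]
    exact Real.smoothTransition.contDiff.comp
      ((contDiff_const.mul contDiff_id).sub contDiff_const)
  have hs1 : ContDiff ℝ ∞ (deriv σ) := (contDiff_infty_iff_deriv.1 hs).2
  have hs2 : ContDiff ℝ ∞ (deriv (deriv σ)) := (contDiff_infty_iff_deriv.1 hs1).2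
  have hd := (contDiff_infty_iff_deriv.1 hs).1
  have hd1 := (contDiff_infty_iff_deriv.1 hs1).1
  have L0 : ∀ r ≤ (5 / 4 : ℝ), σ r = 0 := fun r hr => by
    rw [hσ]; exact Real.smoothTransition.zero_of_nonpos (by linarith)
  have R0 : ∀ r, (7 / 4 : ℝ) ≤ r → σ r = 1 := fun r hr => by
    rw [hσ]; exact Real.smoothTransition.one_of_one_le (by linarith)
  have L1 := ap1_deriv_left hd L0
  have R1 := ap1_deriv_right hd R0
  have L2 := ap1_deriv_left hd1 L1
  have R2 := ap1_deriv_right hd1 R1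
  have hm : Monotone σ := by
    rw [hσ]
    intro a b hab
    exact Real.smoothTransition.monotone (by linarith)
  obtain ⟨C1, hC1, hb1⟩ := ap1_bound hs1.continuous L1 R1
  obtain ⟨C2, -, hb2⟩ := ap1_bound hs2.continuous L2 R2
  refine ⟨σ, max C1 C2, hs, fun r hr => ⟨L0 r hr, L1 r hr, L2 r hr⟩,
    fun r hr => ⟨R0 r hr, R1 r hr, R2 r hr⟩, fun r => ⟨?_, ?_, hm.deriv_nonneg⟩,
    hC1.trans (le_max_left _ _),
    fun r => ⟨(hb1 r).trans (le_max_left _ _), (hb2 r).trans (le_max_right _ _)⟩⟩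
  · rw [hσ]; exact Real.smoothTransition.nonneg _
  · rw [hσ]; exact Real.smoothTransition.le_one _

end Crest.Agent.R244
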