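import Crest.Agent.R244.CHTopA

/-!
# rid 244, part CH, file `CHTop`

Two topological lemmas on local homeomorphisms: path lifting from an a priori Lipschitz bound, and even covering from
path lifting.

Prefix helper lemmas with `chtpb_`.
-/

set_option autoImplicit false

open scoped ContDiff Manifold Topology
open Bundle Set Filter
open Crest.GeometryTopology.CoordMetric Crest.GeometryTopology.ChartCurvature Crest.GeometryTopology.Geodesic

noncomputable section

namespace Crest.Agent.R244

open unitInterval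

/-- Even covering from path lifting along a contraction `ρ` of the open set `V` to `y₀`.  If the fibre over `y₀` is
empty then so is `p ⁻¹' V` (`hback`): `IsEvenlyCovered.of_preimage_eq_empty` and `to_isEvenlyCovered_preimage`.
Otherwise, for `e` over `y₀` let `σ e y` be the end point of the lift of `ρ (·, y)` from `e`; `σ e : V → E` is continuous
(`IsLocalHomeomorph.continuous_lift`) and a section of `p`, so its range `U e` is open
(`IsLocalHomeomorph.isOpenEmbedding_of_comp` or by hand); the `U e` are disjoint by uniqueness of lifts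
(`IsSeparatedMap.eq_of_comp_eq` at the time `1`) and cover `p ⁻¹' V` (`hback` and uniqueness).  The fibre is discrete
(local injectivity).  Conclude with `IsOpen.trivializationDiscrete` and `IsEvenlyCovered.of_trivialization`. -/
theorem isEvenlyCovered_of_lifts {E M : Type} [TopologicalSpace E] [T2Space E] [TopologicalSpace M] {p : E → M}
    (hp : IsLocalHomeomorph p) {V : Set M} (hV : IsOpen V) {y₀ : M} (hy₀ : y₀ ∈ V) (ρ : C(I × V, M))
    (h0 : ∀ y, ρ (0, y) = y₀) (h1 : ∀ y, ρ (1, y) = y)
    (hfwd : ∀ (y : V) (e : E), p e = y₀ → ∃ β : C(I, E), β 0 = e ∧ ∀ s, p (β s) = ρ (s, y))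
    (hback : ∀ (y : V) (e : E), p e = y → ∃ β : C(I, E), β 1 = e ∧ ∀ s, p (β s) = ρ (s, y)) :
    IsEvenlyCovered p y₀ (p ⁻¹' {y₀}) := by
  have sep : IsSeparatedMap p := T2Space.isSeparatedMap p
  have linj : IsLocallyInjective p := hp.isLocallyInjective
  have hdisc : DiscreteTopology (p ⁻¹' {y₀}) := by
    rw [discreteTopology_iff_isOpen_singleton]
    intro e
    obtain ⟨U, hU, heU, hinj⟩ := linj e.1
    rw [isOpen_induced_iff]
    refine ⟨U, hU, ?_⟩
    ext x
    simp only [mem_preimage, mem_singleton_iff]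
    constructor
    · intro hx
      exact Subtype.ext (hinj hx heU (x.2.trans e.2.symm))
    · rintro rfl
      exact heU
  by_cases hne : Nonempty (p ⁻¹' {y₀})
  swap
  · have : IsEmpty (p ⁻¹' {y₀}) := not_nonempty_iff.1 hne
    refine IsEvenlyCovered.of_preimage_eq_empty _ (hV.mem_nhds hy₀) ?_
    rw [eq_empty_iff_forall_notMem]
    intro e he
    obtain ⟨β, -, hβ⟩ := hback ⟨p e, he⟩ e rfl
    exact this.false ⟨β 0, (hβ 0).trans (h0 _)⟩
  choose B hB0 hB using hfwd
  -- the sections
  let τ : p ⁻¹' {y₀} → V → E := fun e y => B y e.1 e.2 1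
  have hτp : ∀ e y, p (τ e y) = y := fun e y => (hB y e.1 e.2 1).trans (h1 y)
  have hτc : ∀ e, Continuous (τ e) := by
    intro e
    have : Continuous fun q : I × V => B q.2 e.1 e.2 q.1 := by
      refine hp.continuous_lift sep ρ (funext fun q => hB q.2 e.1 e.2 q.1) ?_ fun y => (B y e.1 e.2).continuous
      exact (continuous_const (y := e.1)).congr fun y => (hB0 y e.1 e.2).symm
    exact this.comp (Continuous.prodMk_right 1)
  have hτo : ∀ e, Topology.IsOpenEmbedding (τ e) := by
    intro e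
    refine hp.isOpenEmbedding_of_comp ?_ (hτc e)
    have : p ∘ τ e = Subtype.val := funext (hτp e)
    rw [this]
    exact hV.isOpenEmbedding_subtypeVal
  have uniq : ∀ (y : V) (β₁ β₂ : C(I, E)), (∀ s, p (β₁ s) = ρ (s, y)) → (∀ s, p (β₂ s) = ρ (s, y)) →
      ∀ s, β₁ s = β₂ s → ∀ t, β₁ t = β₂ t := by
    intro y β₁ β₂ h₁ h₂ s hs t
    exact congrFun (sep.eq_of_comp_eq linj β₁.continuous β₂.continuous
      (funext fun r => (h₁ r).trans (h₂ r).symm) s hs) t
  obtain ⟨e₀⟩ := hne
  have : Nonempty (p ⁻¹' {y₀}) := ⟨e₀⟩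
  have : Nonempty (M → E) := ⟨fun _ => e₀.1⟩
  refine IsEvenlyCovered.of_trivialization
    (t := IsOpen.trivializationDiscrete (f := p) (fun e => range (τ e)) V hV ?_ ?_ ?_ ?_ ?_) ?_
  · intro e W hWV
    constructor
    · intro hW
      exact (hW.preimage hp.continuous).inter (hτo e).isOpen_range
    · intro hW
      have : W = p '' (p ⁻¹' W ∩ range (τ e)) := by
        ext w
        constructor
        · intro hw
          refine ⟨τ e ⟨w, hWV hw⟩, ⟨?_, mem_range_self _⟩, hτp _ _⟩
          rw [mem_preimage, hτp]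
          exact hw
        · rintro ⟨x, ⟨hx, -⟩, rfl⟩
          exact hx
      rw [this]
      exact hp.isOpenMap _ hW
  · rintro e _ ⟨y, rfl⟩ _ ⟨y', rfl⟩ h
    rw [hτp, hτp] at h
    rw [Subtype.ext h]
  · intro e y hy
    exact ⟨τ e ⟨y, hy⟩, mem_range_self _, hτp _ _⟩
  · intro e e' hee'
    refine Set.disjoint_left.2 ?_
    rintro _ ⟨y, rfl⟩ ⟨y', h⟩
    have hy : y' = y := by
      apply Subtype.ext
      rw [← hτp e' y', ← hτp e y, h]
    subst hy
    apply hee'
    apply Subtype.ext
    have := uniq y' _ _ (hB y' e.1 e.2) (hB y' e'.1 e'.2) 1 h.symm 0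
    exact ((hB0 y' e.1 e.2).symm.trans this).trans (hB0 y' e'.1 e'.2)
  · intro x hx
    obtain ⟨β, hβ1, hβ⟩ := hback ⟨p x, hx⟩ x rfl
    have h0' : p (β 0) = y₀ := (hβ 0).trans (h0 _)
    refine mem_iUnion.2 ⟨⟨β 0, h0'⟩, ⟨p x, hx⟩, ?_⟩
    have := uniq ⟨p x, hx⟩ _ _ (hB ⟨p x, hx⟩ (β 0) h0') hβ 0 (hB0 _ _ _) 1
    exact this.trans hβ1
  · exact hy₀

end Crest.Agent.R244

end
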