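import Crest.Agent.R244.CHCoverA
import Crest.Agent.R244.CHTop

/-!
# rid 244, part CH, file `CHCover`

An expanding map from a Euclidean space to a manifold is a covering map.

Prefix helper lemmas with `chcvb_`.
-/

set_option autoImplicit false
set_option linter.unusedSectionVars false

open scoped ContDiff Manifold Topology
open Bundle Set Filter
open Crest.GeometryTopology.CoordMetric Crest.GeometryTopology.ChartCurvature Crest.GeometryTopology.Geodesic

noncomputable section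

namespace Crest.Agent.R244

variable {E M : Type} [NormedAddCommGroup E] [NormedSpace ℝ E] [FiniteDimensional ℝ E] [TopologicalSpace M]
  [ChartedSpace E M] {G : M → E → E →L[ℝ] E →L[ℝ] ℝ} {q : E →L[ℝ] E →L[ℝ] ℝ} {p : E → M}

theorem chcvb_coercive (hpos : ∀ v, v ≠ 0 → 0 < q v v) : ∃ c > 0, ∀ v : E, c * ‖v‖ ^ 2 ≤ q v v := by
  have : ProperSpace E := FiniteDimensional.proper_real E
  have hc : Continuous fun v : E => q v v := by fun_prop
  obtain ⟨c, hc0, hc1⟩ := (isCompact_sphere (0 : E) 1).exists_forall_le' hc.continuousOn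
    (fun v hv => hpos v (by rintro rfl; simp at hv))
  refine ⟨c, hc0, fun v => ?_⟩
  by_cases hv : v = 0
  · simp [hv]
  have hn : 0 < ‖v‖ := norm_pos_iff.2 hv
  have h1 := hc1 (‖v‖⁻¹ • v) (by simp [norm_smul, hn.ne'])
  simp only [map_smul, smul_apply, smul_eq_mul] at h1
  have h2 : c * ‖v‖ ^ 2 ≤ ‖v‖⁻¹ * (‖v‖⁻¹ * q v v) * ‖v‖ ^ 2 := mul_le_mul_of_nonneg_right h1 (sq_nonneg _)
  refine h2.trans_eq ?_
  field_simp

/-- `c ‖v‖² ≤ q v v` for some `c > 0` (compactness of the unit sphere), so `lift_le` gives the hypothesis of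
`exists_lift_of_lipschitz`. -/
theorem Expanding.exists_lift [T2Space M] (h : Expanding G q p) {γ : ℝ → M} {L : ℝ}
    (hγ : ContinuousOn γ (Icc 0 1)) (hs : ∀ s ∈ Ioo (0 : ℝ) 1, SpeedLe G γ s L) {e : E} (he : p e = γ 0) :
    ∃ β : ℝ → E, ContinuousOn β (Icc 0 1) ∧ β 0 = e ∧ ∀ s ∈ Icc (0 : ℝ) 1, p (β s) = γ s := by
  have : CompleteSpace E := FiniteDimensional.complete ℝ E
  obtain ⟨c, hc, hq⟩ := chcvb_coercive h.q_pos
  refine exists_lift_of_lipschitz h.isLocalHomeomorph hγ (L := Real.sqrt (L / c)) ?_ he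
  intro a b β ha hab hb hβ hl
  have h1 := h.lift_le (L := L) hab hβ hl fun s hs' => hs s ⟨ha.trans_lt hs'.1, hs'.2.trans_le hb⟩
  have h2 := (hq (β b - β a)).trans h1
  rw [dist_comm, dist_eq_norm, ← Real.sqrt_sq (sub_nonneg.2 hab), ← Real.sqrt_mul' _ (sq_nonneg _)]
  refine Real.le_sqrt_of_sq_le ?_
  rw [div_mul_eq_mul_div, le_div_iff₀ hc]
  linarith

/-- For `y₀ : M` put `φ = chartAt E y₀`, take `r > 0` with `closedBall (φ y₀) r ⊆ φ.target`,
`V = φ.source ∩ φ ⁻¹' ball (φ y₀) r` and `ρ (s, y) = φ.symm (φ y₀ + s • (φ y - φ y₀))`.  `‖G y₀ ·‖ ≤ C` on the closed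
ball, so the curves `s ↦ ρ (s, y)` and `s ↦ ρ (1 - s, y)` have squared speed `≤ C r²`; `exists_lift` gives the two
hypotheses of `isEvenlyCovered_of_lifts`. -/
theorem Expanding.isCoveringMap [T2Space M] (h : Expanding G q p) : IsCoveringMap p := by
  have : ProperSpace E := FiniteDimensional.proper_real E
  intro y₀
  set φ := chartAt E y₀ with hφ
  have hy₀ : y₀ ∈ φ.source := mem_chart_source E y₀
  obtain ⟨r, hr, hrt⟩ := Metric.nhds_basis_closedBall.mem_iff.1
    (φ.open_target.mem_nhds (φ.map_source hy₀))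
  obtain ⟨C, hC⟩ := (isCompact_closedBall (φ y₀) r).exists_bound_of_continuousOn
    (f := G y₀) ((h.G_cont y₀).mono hrt)
  set V : Set M := φ.source ∩ φ ⁻¹' Metric.ball (φ y₀) r with hV
  have hVo : IsOpen V := φ.isOpen_inter_preimage Metric.isOpen_ball
  have hmem : ∀ y ∈ V, ∀ s ∈ Icc (0 : ℝ) 1, φ y₀ + s • (φ y - φ y₀) ∈ Metric.closedBall (φ y₀) r := by
    intro y hy s hs
    have h1 : ‖φ y - φ y₀‖ < r := by simpa [dist_eq_norm] using hy.2
    rw [Metric.mem_closedBall, dist_eq_norm, add_sub_cancel_left, norm_smul, Real.norm_of_nonneg hs.1]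
    nlinarith [hs.1, hs.2, norm_nonneg (φ y - φ y₀)]
  -- lifting of straight segments
  have hlift : ∀ y ∈ V, ∀ (τ : ℝ → ℝ) (ε : ℝ), ε ^ 2 = 1 → (∀ s, HasDerivAt τ ε s) →
      (∀ s ∈ Icc (0 : ℝ) 1, τ s ∈ Icc (0 : ℝ) 1) → ∀ e, p e = φ.symm (φ y₀ + τ 0 • (φ y - φ y₀)) →
      ∃ β : ℝ → E, ContinuousOn β (Icc 0 1) ∧ β 0 = e ∧
        ∀ s ∈ Icc (0 : ℝ) 1, p (β s) = φ.symm (φ y₀ + τ s • (φ y - φ y₀)) := by
    intro y hy τ ε hε hτ hτm e he
    have hτc : Continuous τ := continuous_iff_continuousAt.2 fun s => (hτ s).continuousAt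
    have hcc : Continuous fun s => φ y₀ + τ s • (φ y - φ y₀) := by fun_prop
    refine h.exists_lift (γ := fun s => φ.symm (φ y₀ + τ s • (φ y - φ y₀))) (L := C * r ^ 2)
      (φ.continuousOn_symm.comp hcc.continuousOn fun s hs => hrt (hmem y hy _ (hτm s hs))) ?_ he
    intro s hs
    have ht : φ y₀ + τ s • (φ y - φ y₀) ∈ φ.target := hrt (hmem y hy _ (hτm s (Ioo_subset_Icc_self hs)))
    refine ⟨ContinuousAt.comp (f := fun s => φ y₀ + τ s • (φ y - φ y₀)) (φ.continuousAt_symm ht) hcc.continuousAt,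
      y₀, φ.map_target ht, ε • (φ y - φ y₀), ?_, ?_⟩
    · refine (((hτ s).smul_const (φ y - φ y₀)).const_add (φ y₀)).congr_of_eventuallyEq ?_
      filter_upwards [hcc.continuousAt.eventually (φ.open_target.mem_nhds ht)] with u hu
      exact φ.right_inv hu
    · have h1 : ‖φ y - φ y₀‖ ≤ r := by simpa [dist_eq_norm] using (Metric.mem_ball.1 hy.2).le
      have h2 := hC _ (hmem y hy _ (hτm s (Ioo_subset_Icc_self hs)))
      rw [← hφ, φ.right_inv ht]
      set B := G y₀ (φ y₀ + τ s • (φ y - φ y₀))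
      have h3 := B.le_opNorm₂ (φ y - φ y₀) (φ y - φ y₀)
      have h4 : ‖B‖ * ‖φ y - φ y₀‖ * ‖φ y - φ y₀‖ ≤ C * r * r := by
        have hC0 : 0 ≤ C := (norm_nonneg _).trans h2
        gcongr
      simp only [map_smul, smul_apply, smul_eq_mul]
      rw [← mul_assoc, ← sq, hε, one_mul]
      have h5 := le_abs_self (B (φ y - φ y₀) (φ y - φ y₀))
      rw [Real.norm_eq_abs] at h3
      nlinarith
  let ρ : C(unitInterval × V, M) := ⟨fun a => φ.symm (φ y₀ + (a.1 : ℝ) • (φ a.2 - φ y₀)), by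
    refine φ.continuousOn_symm.comp_continuous ?_ fun a => hrt (hmem _ a.2.2 _ a.1.2)
    have : Continuous fun a : unitInterval × V => φ a.2 :=
      φ.continuousOn.comp_continuous (by fun_prop) fun a => a.2.2.1
    exact continuous_const.add ((continuous_subtype_val.comp continuous_fst).smul (this.sub continuous_const))⟩
  refine isEvenlyCovered_of_lifts h.isLocalHomeomorph hVo
    ⟨hy₀, Metric.mem_ball_self hr⟩ ρ ?_ ?_ ?_ ?_
  · intro y
    simp [ρ, φ.left_inv hy₀]
  · intro y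
    simp [ρ, φ.left_inv y.2.1]
  · intro y e he
    obtain ⟨β, h1, h2, h3⟩ := hlift y y.2 id 1 (by norm_num) hasDerivAt_id (fun s hs => hs) e
      (by simp [he, φ.left_inv hy₀])
    exact ⟨⟨fun s => β s, h1.comp_continuous continuous_subtype_val fun s => s.2⟩, h2,
      fun s => h3 s s.2⟩
  · intro y e he
    obtain ⟨β, h1, h2, h3⟩ := hlift y y.2 (fun s => 1 - s) (-1) (by norm_num)
      (fun s => by simpa using (hasDerivAt_id s).const_sub 1)
      (fun s hs => ⟨by linarith [hs.2], by linarith [hs.1]⟩) e (by simp [he, φ.left_inv y.2.1])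
    refine ⟨⟨fun s => β (1 - s), h1.comp_continuous (by fun_prop) fun s =>
      ⟨by linarith [s.2.2], by linarith [s.2.1]⟩⟩, by simpa using h2, fun s => ?_⟩
    have := h3 (1 - s) ⟨by linarith [s.2.2], by linarith [s.2.1]⟩
    simpa [ρ] using this

end Crest.Agent.R244

end
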