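import Crest.Agent.R244.CHJac

/-!
# rid 244, part CH, file `CHCoverA`

An expanding map from a Euclidean space to a manifold is a covering map.

Prefix helper lemmas with `chcva_`.
-/

set_option autoImplicit false
set_option linter.unusedSectionVars false

open scoped ContDiff Manifold Topology
open Bundle Set Filter
open Crest.GeometryTopology.CoordMetric Crest.GeometryTopology.ChartCurvature Crest.GeometryTopology.Geodesic

noncomputable section

namespace Crest.Agent.R244

variable {E M : Type} [NormedAddCommGroup E] [NormedSpace ℝ E] [FiniteDimensional ℝ E] [TopologicalSpace M]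
  [ChartedSpace E M] {G : M → E → E →L[ℝ] E →L[ℝ] ℝ} {q : E →L[ℝ] E →L[ℝ] ℝ} {p : E → M}

/-- The derivative `D` in `expand` is injective (`q_pos`), hence a linear equivalence. -/
theorem Expanding.expand_equiv (h : Expanding G q p) {v : E} {z : M} (hz : p v ∈ (chartAt E z).source) :
    ∃ D : E ≃L[ℝ] E, HasStrictFDerivAt (fun u => chartAt E z (p u)) (D : E →L[ℝ] E) v ∧
      ∀ w, q w w ≤ G z (chartAt E z (p v)) (D w) (D w) := by
  obtain ⟨D, hD, hq⟩ := h.expand v z hz
  have hinj : Function.Injective D := by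
    rw [injective_iff_map_eq_zero]
    intro w hw
    by_contra hne
    have h1 := h.q_pos w hne
    have h2 := hq w
    rw [hw, map_zero] at h2
    linarith
  refine ⟨(LinearEquiv.ofInjectiveEndo (D : E →ₗ[ℝ] E) hinj).toContinuousLinearEquiv, ?_, hq⟩
  convert hD using 1
  ext w
  rfl

/-- Inverse function theorem (`HasStrictFDerivAt.toOpenPartialHomeomorph`) for `chartAt z ∘ p`, restricted to the open
set `p ⁻¹' (chartAt z).source` and composed with `(chartAt z).symm` (`IsLocalHomeomorph.mk`). -/
theorem Expanding.isLocalHomeomorph (h : Expanding G q p) : IsLocalHomeomorph p := by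
  have : CompleteSpace E := FiniteDimensional.complete ℝ E
  refine IsLocalHomeomorph.mk p fun v => ?_
  have hz := mem_chart_source E (p v)
  obtain ⟨D, hD, -⟩ := h.expand_equiv hz
  have ho : IsOpen (p ⁻¹' (chartAt E (p v)).source) := (chartAt E (p v)).open_source.preimage h.cont
  refine ⟨((hD.toOpenPartialHomeomorph _).restrOpen _ ho) ≫ₕ (chartAt E (p v)).symm, ?_, ?_⟩
  · simp only [OpenPartialHomeomorph.trans_source, OpenPartialHomeomorph.restrOpen_source, mem_inter_iff,
      mem_preimage, OpenPartialHomeomorph.symm_source]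
    exact ⟨⟨hD.mem_toOpenPartialHomeomorph_source, hz⟩, (chartAt E (p v)).map_source hz⟩
  · intro u hu
    simp only [OpenPartialHomeomorph.trans_source, OpenPartialHomeomorph.restrOpen_source, mem_inter_iff,
      mem_preimage, OpenPartialHomeomorph.symm_source] at hu
    exact ((chartAt E (p v)).left_inv hu.1.2).symm

/-- A continuous lift of a curve of squared speed `≤ L` is differentiable with `q β' β' ≤ L`: near `s`, `β` is the
local inverse of `chartAt z ∘ p` (`HasStrictFDerivAt.localInverse`, `eventually_left_inverse`, `to_localInverse`)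
applied to `chartAt z ∘ γ`. -/
theorem Expanding.hasDerivAt_lift (h : Expanding G q p) {γ : ℝ → M} {β : ℝ → E} {s L : ℝ}
    (hβ : ContinuousAt β s) (hl : ∀ᶠ r in 𝓝 s, p (β r) = γ r) (hs : SpeedLe G γ s L) :
    ∃ β' : E, HasDerivAt β β' s ∧ q β' β' ≤ L := by
  have : CompleteSpace E := FiniteDimensional.complete ℝ E
  obtain ⟨-, z, hz, γ', hγ', hL⟩ := hs
  have h0 : p (β s) = γ s := hl.self_of_nhds
  obtain ⟨D, hD, hq⟩ := h.expand_equiv (v := β s) (z := z) (h0 ▸ hz)
  have h1 := hD.to_localInverse.hasFDerivAt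
  rw [h0] at h1
  have h2 := h1.comp_hasDerivAt s hγ'
  refine ⟨D.symm γ', h2.congr_of_eventuallyEq ?_, ?_⟩
  · filter_upwards [hl, hβ.eventually hD.eventually_left_inverse] with r h3 h4
    rw [h3] at h4
    exact h4.symm
  · have := hq (D.symm γ')
    rw [D.apply_symm_apply, h0] at this
    exact this.trans hL

/-- Mean value inequality for the real function `r ↦ q (β b - β a) (β r)` (`exists_hasDerivAt_eq_slope` or
`image_sub_le_mul_sub_of_deriv_le`) and `bilin_cs`. -/
theorem Expanding.lift_le (h : Expanding G q p) {γ : ℝ → M} {β : ℝ → E} {a b L : ℝ} (hab : a ≤ b)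
    (hβ : ContinuousOn β (Icc a b)) (hl : ∀ s ∈ Icc a b, p (β s) = γ s) (hs : ∀ s ∈ Ioo a b, SpeedLe G γ s L) :
    q (β b - β a) (β b - β a) ≤ L * (b - a) ^ 2 := by
  rcases hab.eq_or_lt with rfl | hab
  · simp
  have hn : ∀ v, 0 ≤ q v v := by
    intro v
    by_cases hv : v = 0
    · simp [hv]
    · exact (h.q_pos v hv).le
  have hd : ∀ s ∈ Ioo a b, ∃ β' : E, HasDerivAt β β' s ∧ q β' β' ≤ L := by
    intro s hs'
    have hm : Icc a b ∈ 𝓝 s := Icc_mem_nhds hs'.1 hs'.2
    exact h.hasDerivAt_lift (hβ.continuousAt hm) (mem_of_superset hm hl) (hs s hs')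
  choose! β' hβ' hL using hd
  set w := β b - β a with hw
  obtain ⟨c, hc, e⟩ := exists_hasDerivAt_eq_slope (fun r => q w (β r)) (fun r => q w (β' r)) hab
    ((q w).continuous.comp_continuousOn hβ)
    (fun r hr => (q w).hasFDerivAt.comp_hasDerivAt r (hβ' r hr))
  have hba : 0 < b - a := sub_pos.2 hab
  rw [← map_sub, ← hw, eq_div_iff hba.ne'] at e
  have h1 := bilin_cs h.q_symm hn w (β' c)
  have h2 := hL c hc
  have h3 := hn w
  have hL0 : 0 ≤ L := (hn _).trans h2
  rcases h3.eq_or_lt with h3 | h3
  · rw [← h3]; positivity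
  · have h4 : q w w * q w w ≤ q w w * (L * (b - a) ^ 2) := by
      have h5 : q w (β' c) ^ 2 ≤ q w w * L := h1.trans (mul_le_mul_of_nonneg_left h2 h3.le)
      calc q w w * q w w = q w (β' c) ^ 2 * (b - a) ^ 2 := by rw [← e]; ring
        _ ≤ q w w * L * (b - a) ^ 2 := mul_le_mul_of_nonneg_right h5 (sq_nonneg _)
        _ = _ := by ring
    exact le_of_mul_le_mul_left h4 h3

end Crest.Agent.R244

end
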