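import Crest.Agent.R244.CHDefs

/-!
# rid 244, part CH, file `CHFlow1`

Solutions of a vector field given in charts: local form, uniqueness, first integral.

Prefix helper lemmas with `chfl1_`.
-/

set_option autoImplicit false
set_option linter.unusedSectionVars false

open scoped ContDiff Manifold Topology
open Bundle Set Filter
open Crest.GeometryTopology.CoordMetric Crest.GeometryTopology.ChartCurvature Crest.GeometryTopology.Geodesic

noncomputable section

namespace Crest.Agent.R244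

variable {X F ι : Type} [TopologicalSpace X] [NormedAddCommGroup F] [NormedSpace ℝ F] (A : FlowAtlas X F ι)

theorem chfl1_ev {σ : ℝ → X} {t : ℝ} (hc : ContinuousAt σ t) {i : ι} (hi : σ t ∈ (A.χ i).source) :
    ∀ᶠ s in 𝓝 t, σ s ∈ (A.χ i).source := hc.eventually ((A.χ i).open_source.mem_nhds hi)

theorem chfl1_comp {Y : Type} (f : X → Y) {σ : ℝ → X} {t : ℝ} (hc : ContinuousAt σ t) {i : ι}
    (hi : σ t ∈ (A.χ i).source) :
    (fun s => f (σ s)) =ᶠ[𝓝 t] (f ∘ (A.χ i).symm) ∘ fun s => A.χ i (σ s) :=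
  (chfl1_ev A hc hi).mono fun _ hs => congrArg f ((A.χ i).left_inv hs).symm

/-- It is enough to check the equation in one chart: near `t`,
`χ j (σ s) = (χ j ∘ (χ i).symm) (χ i (σ s))`; chain rule and `trans_push`. -/
theorem FlowAtlas.isSolAt_of_chart {σ : ℝ → X} {t : ℝ} (hc : ContinuousAt σ t) {i : ι}
    (hi : σ t ∈ (A.χ i).source)
    (hd : HasDerivAt (fun s => A.χ i (σ s)) (A.V i (A.χ i (σ t))) t) : A.IsSolAt σ t := by
  refine ⟨hc, fun j hj => ?_⟩
  rw [← A.trans_push i j _ hi hj]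
  exact (((A.trans_smooth i j _ hi hj).differentiableAt (by simp)).hasFDerivAt.comp_hasDerivAt t
    hd).congr_of_eventuallyEq (chfl1_comp A (A.χ j) hc hi)

theorem FlowAtlas.IsSolAt.congr {A : FlowAtlas X F ι} {σ σ' : ℝ → X} {t : ℝ} (h : A.IsSolAt σ t)
    (he : σ' =ᶠ[𝓝 t] σ) : A.IsSolAt σ' t := by
  refine ⟨h.1.congr he.symm, fun i hi => ?_⟩
  rw [he.eq_of_nhds] at hi ⊢
  exact (h.2 i hi).congr_of_eventuallyEq (he.fun_comp (A.χ i))

theorem FlowAtlas.IsSolAt.comp_add {A : FlowAtlas X F ι} {σ : ℝ → X} {t a : ℝ} (h : A.IsSolAt σ (t + a)) :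
    A.IsSolAt (fun s => σ (s + a)) t := by
  exact ⟨ContinuousAt.comp (f := fun s => s + a) h.1 (by fun_prop),
    fun i hi => (h.2 i hi).comp_add_const t a⟩

/-- A solution of the chart equation with values in the target gives a solution on `X`. -/
theorem FlowAtlas.isSolAt_symm {i : ι} {c : ℝ → F} {t : ℝ} (ht : c t ∈ (A.χ i).target)
    (hd : HasDerivAt c (A.V i (c t)) t) : A.IsSolAt (fun s => (A.χ i).symm (c s)) t := by
  refine A.isSolAt_of_chart (((A.χ i).continuousAt_symm ht).comp hd.continuousAt)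
    ((A.χ i).map_target ht) ?_
  rw [(A.χ i).right_inv ht]
  exact hd.congr_of_eventuallyEq ((hd.continuousAt.eventually
    ((A.χ i).open_target.mem_nhds ht)).mono fun _ hs => (A.χ i).right_inv hs)

/-- Local uniqueness: read both solutions in a chart around `σ t`; `V i` is `C¹`, hence Lipschitz near the point
(`ContDiffAt.exists_lipschitzOnWith`); `ODE_solution_unique_of_eventually`. -/
theorem FlowAtlas.eventuallyEq_of_isSolAt {σ σ' : ℝ → X} {t : ℝ} (h : ∀ᶠ s in 𝓝 t, A.IsSolAt σ s)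
    (h' : ∀ᶠ s in 𝓝 t, A.IsSolAt σ' s) (he : σ t = σ' t) : σ =ᶠ[𝓝 t] σ' := by
  obtain ⟨i, hi⟩ := A.cover (σ t)
  have hi' : σ' t ∈ (A.χ i).source := he ▸ hi
  obtain ⟨K, S, hS, hK⟩ := (((A.smooth i).contDiffAt ((A.χ i).open_target.mem_nhds
    ((A.χ i).map_source hi))).of_le (by simp : (1 : WithTop ℕ∞) ≤ ∞)).exists_lipschitzOnWith
  have e1 := chfl1_ev A h.self_of_nhds.1 hi
  have e2 := chfl1_ev A h'.self_of_nhds.1 hi'
  have key : (fun s => A.χ i (σ s)) =ᶠ[𝓝 t] fun s => A.χ i (σ' s) :=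
    ODE_solution_unique_of_eventually (v := fun _ => A.V i) (s := fun _ => S)
      (.of_forall fun _ => hK)
      (((h.and e1).mono fun s hs => hs.1.2 i hs.2).and
        ((h.self_of_nhds.2 i hi).continuousAt.eventually hS))
      (((h'.and e2).mono fun s hs => hs.1.2 i hs.2).and
        ((h'.self_of_nhds.2 i hi').continuousAt.eventually (he ▸ hS :))) (congrArg _ he)
  filter_upwards [key, e1, e2] with s k k1 k2 using (A.χ i).injOn k1 k2 k

/-- Uniqueness on an open interval: the set where the solutions agree is open and relatively closed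
(`IsPreconnected.subset_of_closure_inter_subset` or `IsPreconnected.subset_left_of_subset_union`). -/
theorem FlowAtlas.eqOn_Ioo [T2Space X] {σ σ' : ℝ → X} {a b t₀ : ℝ} (ht₀ : t₀ ∈ Ioo a b)
    (h : ∀ t ∈ Ioo a b, A.IsSolAt σ t) (h' : ∀ t ∈ Ioo a b, A.IsSolAt σ' t) (he : σ t₀ = σ' t₀) :
    EqOn σ σ' (Ioo a b) := by
  have ev : ∀ t ∈ Ioo a b, σ t = σ' t → σ =ᶠ[𝓝 t] σ' := fun t ht e =>
    A.eventuallyEq_of_isSolAt (eventually_of_mem (isOpen_Ioo.mem_nhds ht) h)
      (eventually_of_mem (isOpen_Ioo.mem_nhds ht) h') e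
  have := isPreconnected_Ioo.subset_of_closure_inter_subset (u := {t | σ =ᶠ[𝓝 t] σ'})
    isOpen_setOfPred_eventually_nhds ⟨t₀, ht₀, ev t₀ ht₀ he⟩ fun t ht => ev t ht.2
      (tendsto_nhds_unique_of_frequently_eq (h t ht.2).1 (h' t ht.2).1
        ((mem_closure_iff_frequently.1 ht.1).mono fun _ hs => hs.eq_of_nhds))
  exact fun t ht => (this ht).eq_of_nhds

/-- `H` is constant along solutions: `H ∘ σ` has derivative `0` (chain rule in a chart, `H_diff`, `H_inv`). -/
theorem FlowAtlas.H_eq_of_isSolAt {σ : ℝ → X} {a b s t : ℝ} (h : ∀ t ∈ Ioo a b, A.IsSolAt σ t)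
    (hs : s ∈ Ioo a b) (ht : t ∈ Ioo a b) : A.H (σ s) = A.H (σ t) := by
  have hd : ∀ u ∈ Ioo a b, HasDerivAt (fun r => A.H (σ r)) 0 u := fun u hu => by
    obtain ⟨i, hi⟩ := A.cover (σ u)
    rw [← A.H_inv i _ hi]
    exact ((A.H_diff i _ hi).hasFDerivAt.comp_hasDerivAt u ((h u hu).2 i hi)).congr_of_eventuallyEq
      (chfl1_comp A A.H (h u hu).1 hi)
  exact isOpen_Ioo.is_const_of_deriv_eq_zero isPreconnected_Ioo
    (fun u hu => (hd u hu).differentiableAt.differentiableWithinAt) (fun u hu => (hd u hu).deriv) hs ht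

end Crest.Agent.R244

end
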