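import Crest.Agent.R244.CHFlow2
import Crest.Agent.Lib.SmoothFlow

/-!
# rid 244, part CH, file `CHFlow3`

Joint continuity and smoothness of the flow.

Prefix helper lemmas with `chfl3_`.
-/

set_option autoImplicit false
set_option linter.unusedSectionVars false

open scoped ContDiff Manifold Topology
open Bundle Set Filter
open Crest.GeometryTopology.CoordMetric Crest.GeometryTopology.ChartCurvature Crest.GeometryTopology.Geodesic

noncomputable section

namespace Crest.Agent.R244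

variable {X F ι : Type} [TopologicalSpace X] [NormedAddCommGroup F] [NormedSpace ℝ F] [FiniteDimensional ℝ F]

/-- Smooth dependence on initial data.  This is `exists_smooth_local_flow` of `Crest/Agent/Lib/SmoothFlow.lean`
(written by helper8); import that file and close this goal with it as soon as it is on main. -/
theorem chfl3_local_flow {f : F → F} {U : Set F} (hU : IsOpen U) (hf : ContDiffOn ℝ ∞ f U) {x₀ : F}
    (hx : x₀ ∈ U) :
    ∃ ε > 0, ∃ r > 0, ∃ φ : ℝ × F → F, ContDiffOn ℝ ∞ φ (Ioo (-ε) ε ×ˢ Metric.ball x₀ r) ∧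
      ∀ x ∈ Metric.ball x₀ r, φ (0, x) = x ∧
        ∀ t ∈ Ioo (-ε) ε, φ (t, x) ∈ U ∧ HasDerivAt (fun s => φ (s, x)) (f (φ (t, x))) t := by
  exact Crest.Agent.Lib.SmoothFlow.exists_smooth_local_flow hU hf hx

/-- The flow is continuous and `C²` in charts at `(t, x)`. -/
def FlowAtlas.Good (A : FlowAtlas X F ι) (Φ : ℝ → X → X) (t : ℝ) (x : X) : Prop :=
  ContinuousAt (fun q : ℝ × X => Φ q.1 q.2) (t, x) ∧
    ∀ i j, x ∈ (A.χ i).source → Φ t x ∈ (A.χ j).source →
      ContDiffAt ℝ 2 (fun q : ℝ × F => A.χ j (Φ q.1 ((A.χ i).symm q.2))) (t, A.χ i x)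

variable {A : FlowAtlas X F ι} {Φ : ℝ → X → X}

theorem chfl3_symm {i : ι} {x : X} (hi : x ∈ (A.χ i).source) (t : ℝ) :
    Tendsto (fun q : ℝ × F => (q.1, (A.χ i).symm q.2)) (𝓝 (t, A.χ i x)) (𝓝 (t, x)) :=
  continuousAt_fst.tendsto.prodMk_nhds (((A.χ i).tendsto_symm hi).comp continuousAt_snd.tendsto)

/-- one pair of charts is enough -/
theorem chfl3_good {t : ℝ} {x : X} (hc : ContinuousAt (fun q : ℝ × X => Φ q.1 q.2) (t, x)) {k l : ι}
    (hk : x ∈ (A.χ k).source) (hl : Φ t x ∈ (A.χ l).source)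
    (h : ContDiffAt ℝ 2 (fun q : ℝ × F => A.χ l (Φ q.1 ((A.χ k).symm q.2))) (t, A.χ k x)) :
    A.Good Φ t x := by
  refine ⟨hc, fun i j hi hj => ?_⟩
  have h1 : ContDiffAt ℝ 2 (fun q : ℝ × F => (q.1, (A.χ k ∘ (A.χ i).symm) q.2)) (t, A.χ i x) :=
    contDiffAt_fst.prodMk (ContDiffAt.comp (g := A.χ k ∘ (A.χ i).symm) (f := Prod.snd) (t, A.χ i x)
      ((A.trans_smooth i k x hi hk).of_le (m := 2) (by decide)) contDiffAt_snd)
  have h2 := ContDiffAt.comp (t, A.χ i x) (by simpa [(A.χ i).left_inv hi] using h) h1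
  have h3 := ContDiffAt.comp (t, A.χ i x) (g := A.χ j ∘ (A.χ l).symm) (by
    simpa [(A.χ i).left_inv hi, (A.χ k).left_inv hk] using
      (A.trans_smooth l j _ hl hj).of_le (m := 2) (by decide)) h2
  refine h3.congr_of_eventuallyEq ?_
  filter_upwards [(chfl3_symm hi t).eventually (hc.eventually ((A.χ l).open_source.mem_nhds hl)),
    (chfl3_symm hi t).eventually (continuousAt_snd.eventually ((A.χ k).open_source.mem_nhds hk))]
    with q h4 h5
  simp only [Function.comp_apply]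
  rw [(A.χ k).left_inv h5, (A.χ l).left_inv h4]

/-- Take a chart `k` around `x₀` and the local flow `φ` of `V k`.  For `x` in the source with `χ k x` in the ball and
`|t| < ε`, `Φ t x = (χ k).symm (φ (t, χ k x))` (`isSolAt_symm`, `eqOn_Ioo`).  This formula holds near `(t, x)`; for other
charts `i, j` compose with the transition maps (`trans_smooth`). -/
theorem FlowAtlas.IsPreFlow.good_nhds [T2Space X] (h : A.IsPreFlow Φ) (x₀ : X) :
    ∃ ε > 0, ∀ᶠ x in 𝓝 x₀, ∀ t ∈ Ioo (-ε) ε, A.Good Φ t x := by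
  obtain ⟨k, hk⟩ := A.cover x₀
  obtain ⟨ε, hε, r, hr, φ, h1, h2⟩ := chfl3_local_flow (A.χ k).open_target (A.smooth k) ((A.χ k).map_source hk)
  have hW := (A.χ k).isOpen_inter_preimage (Metric.isOpen_ball (x := A.χ k x₀) (ε := r))
  have h3 : ∀ x ∈ (A.χ k).source ∩ A.χ k ⁻¹' Metric.ball (A.χ k x₀) r, ∀ t ∈ Ioo (-ε) ε,
      Φ t x = (A.χ k).symm (φ (t, A.χ k x)) := fun x hx =>
    A.eqOn_Ioo (σ := fun t => Φ t x) (σ' := fun t => (A.χ k).symm (φ (t, A.χ k x)))
      ⟨neg_lt_zero.2 hε, hε⟩ (fun t _ => h.sol x t)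
      (fun t ht => A.isSolAt_symm ((h2 _ hx.2).2 t ht).1 ((h2 _ hx.2).2 t ht).2)
      (by simp only [h.zero, (h2 _ hx.2).1, (A.χ k).left_inv hx.1])
  refine ⟨ε, hε, mem_of_superset (hW.mem_nhds ⟨hk, Metric.mem_ball_self hr⟩) fun x hx t ht => ?_⟩
  have h4 := h1.contDiffAt ((isOpen_Ioo.prod Metric.isOpen_ball).mem_nhds (mk_mem_prod ht hx.2))
  have h5 := ((h2 _ hx.2).2 t ht).1
  have h6 : ∀ᶠ q : ℝ × X in 𝓝 (t, x), Φ q.1 q.2 = (A.χ k).symm (φ (q.1, A.χ k q.2)) := by
    filter_upwards [(isOpen_Ioo.prod hW).mem_nhds (mk_mem_prod ht hx)] with q hq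
    exact h3 _ hq.2 _ hq.1
  refine chfl3_good (ContinuousAt.congr ?_ (EventuallyEq.symm h6)) hx.1
    (h3 x hx t ht ▸ (A.χ k).map_target h5) ((h4.of_le (by decide)).congr_of_eventuallyEq ?_)
  · exact ContinuousAt.comp ((A.χ k).continuousAt_symm h5) (ContinuousAt.comp h4.continuousAt
      (continuousAt_fst.prodMk (ContinuousAt.comp ((A.χ k).continuousAt hx.1) continuousAt_snd)))
  · filter_upwards [(chfl3_symm hx.1 t).eventually h6, (isOpen_Ioo.prod ((A.χ k).open_target.inter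
      Metric.isOpen_ball)).mem_nhds (mk_mem_prod ht ⟨(A.χ k).map_source hx.1, hx.2⟩)] with q h7 h8
    rw [h7, (A.χ k).right_inv h8.2.1, (A.χ k).right_inv ((h2 _ h8.2.2).2 _ h8.1).1]

/-- `Φ r y = Φ (r - t) (Φ t y)`; insert a chart `k` around `Φ t x` (`Φ t y` stays in its source for `y` near `x`). -/
theorem FlowAtlas.IsPreFlow.good_add (h : A.IsPreFlow Φ) {s t : ℝ} {x : X} (h1 : A.Good Φ t x)
    (h2 : A.Good Φ s (Φ t x)) : A.Good Φ (s + t) x := by
  have h3 : ∀ r y, Φ r y = Φ (r - t) (Φ t y) := fun r y => by rw [← h.add, sub_add_cancel]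
  have h4 : ContinuousAt (fun y => Φ t y) x :=
    ContinuousAt.comp (f := fun y => (t, y)) h1.1 (by fun_prop)
  obtain ⟨k, hk⟩ := A.cover (Φ t x)
  refine ⟨?_, fun i j hi hj => ?_⟩
  · have h5 : ContinuousAt (fun q : ℝ × X => (q.1 - t, Φ t q.2)) (s + t, x) :=
      (continuousAt_fst.sub continuousAt_const).prodMk (ContinuousAt.comp h4 continuousAt_snd)
    exact (ContinuousAt.comp_of_eq h2.1 h5 (by simp)).congr (Eventually.of_forall fun q => (h3 _ _).symm)
  have h5 : ContDiffAt ℝ 2 (fun q : ℝ × F => (q.1 - t, A.χ k (Φ t ((A.χ i).symm q.2)))) (s + t, A.χ i x) :=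
    (contDiffAt_fst.sub contDiffAt_const).prodMk
      (ContDiffAt.comp (f := fun q : ℝ × F => (t, q.2)) (s + t, A.χ i x) (h1.2 i k hi hk) (by fun_prop))
  refine (ContDiffAt.comp (s + t, A.χ i x)
    (by simpa [(A.χ i).left_inv hi] using h2.2 k j hk (h.add s t x ▸ hj)) h5).congr_of_eventuallyEq ?_
  filter_upwards [(chfl3_symm hi (s + t)).eventually
    (continuousAt_snd.eventually (h4.eventually ((A.χ k).open_source.mem_nhds hk)))] with q h6
  simp only [Function.comp_apply]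
  rw [(A.χ k).left_inv h6, ← h3]

/-- A uniform `ε` on the compact invariant set `{y | H y ≤ H x}`; write `t = m • (t / m)` with `|t / m| < ε` and induct
with `good_add`. -/
theorem FlowAtlas.IsPreFlow.good [T2Space X] (h : A.IsPreFlow Φ) (t : ℝ) (x : X) : A.Good Φ t x := by
  have h1 : ∀ᶠ τ in 𝓝 (0 : ℝ), ∀ y ∈ {y | A.H y ≤ A.H x}, A.Good Φ τ y :=
    (A.H_cpt _).eventually_forall_of_forall_eventually fun y _ => by
      obtain ⟨ε, hε, h2⟩ := h.good_nhds y
      rw [nhds_prod_eq]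
      filter_upwards [prod_mem_prod (Ioo_mem_nhds (neg_lt_zero.2 hε) hε) h2] with q hq
      exact hq.2 _ hq.1
  obtain ⟨m, h2, h3⟩ := (((tendsto_const_div_atTop_nhds_zero_nat t).eventually h1).and
    (eventually_gt_atTop 0)).exists
  have h4 : ∀ n : ℕ, A.Good Φ (n * (t / m)) x := fun n => by
    induction n with
    | zero => simpa using h1.self_of_nhds x (le_refl (A.H x))
    | succ n ih =>
      rw [Nat.cast_succ, add_mul, one_mul, add_comm]
      exact h.good_add ih (h2 _ (h.H_eq _ _).le)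
  simpa [mul_div_cancel₀ t (Nat.cast_ne_zero.2 h3.ne')] using h4 m

theorem FlowAtlas.exists_isFlow [T2Space X] (A : FlowAtlas X F ι) : ∃ Φ : ℝ → X → X, A.IsFlow Φ := by
  obtain ⟨Φ, h⟩ := A.exists_isPreFlow
  exact ⟨Φ, h, continuous_iff_continuousAt.2 fun q => (h.good q.1 q.2).1,
    fun i j x t hi hj => (h.good t x).2 i j hi hj⟩

end Crest.Agent.R244

end
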