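import Crest.Agent.R244.CHDefs

/-!
# rid 244, part CH, file `CHJacC`

Abstract calculus with a Levi-Civita pair: transformation law, variational equation, Jacobi fields.

Prefix helper lemmas with `chjc_`.
-/

set_option autoImplicit false

open scoped ContDiff Manifold Topology
open Bundle Set Filter
open Crest.GeometryTopology.CoordMetric Crest.GeometryTopology.ChartCurvature Crest.GeometryTopology.Geodesic

noncomputable section

namespace Crest.Agent.R244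

theorem chjc_convex {N N₁ N₂ : ℝ → ℝ} (h0 : ∀ s, 0 ≤ N s) (h1 : ∀ s, HasDerivAt N (N₁ s) s)
    (h2 : ∀ s, HasDerivAt N₁ (N₂ s) s) (h3 : ∀ s, 0 ≤ N₂ s) (h4 : ∀ s, N₁ s ^ 2 ≤ 2 * N s * N₂ s)
    {ε : ℝ} (hε : 0 < ε) : ConvexOn ℝ univ fun s => √(N s + ε) := by
  have hp : ∀ s, 0 < N s + ε := fun s => by linarith [h0 s]
  have hf : ∀ s, HasDerivAt (fun s => √(N s + ε)) (N₁ s / (2 * √(N s + ε))) s := fun s =>
    ((h1 s).add_const ε).sqrt (hp s).ne'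
  have hq : ∀ s, 0 < √(N s + ε) := fun s => Real.sqrt_pos.2 (hp s)
  have hg : ∀ s, HasDerivAt (fun s => N₁ s / (2 * √(N s + ε)))
      ((N₂ s * (2 * √(N s + ε)) - N₁ s * (2 * (N₁ s / (2 * √(N s + ε))))) / (2 * √(N s + ε)) ^ 2) s :=
    fun s => (h2 s).div ((hf s).const_mul 2) (by have := hq s; positivity)
  refine Monotone.convexOn_univ_of_deriv (fun s => (hf s).differentiableAt) ?_
  rw [show deriv (fun s => √(N s + ε)) = fun s => N₁ s / (2 * √(N s + ε)) from funext fun s => (hf s).deriv]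
  refine monotone_of_deriv_nonneg (fun s => (hg s).differentiableAt) fun s => ?_
  rw [(hg s).deriv]
  refine div_nonneg ?_ (sq_nonneg _)
  have e : N₂ s * (2 * √(N s + ε)) - N₁ s * (2 * (N₁ s / (2 * √(N s + ε)))) =
      (2 * N₂ s * √(N s + ε) ^ 2 - N₁ s ^ 2) / √(N s + ε) := by
    have := (hq s).ne'
    field_simp
  rw [e, Real.sq_sqrt (hp s).le]
  refine div_nonneg ?_ (hq s).le
  nlinarith [h4 s, mul_nonneg (h3 s) hε.le]

theorem chjc_upper {N N₁ N₂ : ℝ → ℝ} (h0 : ∀ s, 0 ≤ N s) (h1 : ∀ s, HasDerivAt N (N₁ s) s)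
    (h2 : ∀ s, HasDerivAt N₁ (N₂ s) s) (h3 : ∀ s, 0 ≤ N₂ s) (h4 : ∀ s, N₁ s ^ 2 ≤ 2 * N s * N₂ s)
    (hN : N 0 = 0) {s : ℝ} (hs0 : 0 ≤ s) (hs1 : s ≤ 1) : N s ≤ s ^ 2 * N 1 := by
  have hc : Continuous fun ε : ℝ => (1 - s) * √ε + s * √(N 1 + ε) := by fun_prop
  have ht : Tendsto (fun ε : ℝ => (1 - s) * √ε + s * √(N 1 + ε)) (𝓝[>] 0) (𝓝 (s * √(N 1))) := by
    simpa using (hc.tendsto 0).mono_left nhdsWithin_le_nhds
  have h5 : √(N s) ≤ s * √(N 1) := by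
    refine ge_of_tendsto ht (eventually_nhdsWithin_of_forall fun ε hε => ?_)
    have h6 := (chjc_convex h0 h1 h2 h3 h4 hε).2 (mem_univ 0) (mem_univ 1) (sub_nonneg.2 hs1) hs0
      (sub_add_cancel 1 s)
    simp only [smul_eq_mul, mul_zero, mul_one, zero_add, hN] at h6
    exact (Real.sqrt_le_sqrt (by linarith [mem_Ioi.1 hε])).trans h6
  have h7 := pow_le_pow_left₀ (Real.sqrt_nonneg _) h5 2
  rwa [mul_pow, Real.sq_sqrt (h0 s), Real.sq_sqrt (h0 1)] at h7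

/-- Real-variable part of Rauch's comparison.  For `ε > 0` the function `f = √(N + ε)` has
`f' = N₁ / (2 f)` and `f'' = (2 N₂ (N + ε) - N₁²) / (4 f³) ≥ 0`, so it is convex
(`convexOn_univ_of_deriv2_nonneg` or `monotone_of_deriv_nonneg` twice) and `f s - f 0 ≤ s (f 1 - f 0)` for
`0 < s < 1`; let `ε → 0`: `√(N s) ≤ s √(N 1)`, i.e. `N s ≤ s² N 1`.  On the other hand `N s / s² → A` as `s → 0⁺`
(for `a < A`, `N₁ r ≥ 2 a r` for small `r > 0`, so `N s - a s²` is monotone there). -/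
theorem le_of_sqrt_convex {N N₁ N₂ : ℝ → ℝ} {A : ℝ} (h0 : ∀ s, 0 ≤ N s) (h1 : ∀ s, HasDerivAt N (N₁ s) s)
    (h2 : ∀ s, HasDerivAt N₁ (N₂ s) s) (h3 : ∀ s, 0 ≤ N₂ s) (h4 : ∀ s, N₁ s ^ 2 ≤ 2 * N s * N₂ s)
    (hN : N 0 = 0) (hN₁ : N₁ 0 = 0) (hN₂ : N₂ 0 = 2 * A) : A ≤ N 1 := by
  by_contra hA
  set a := (A + N 1) / 2 with ha
  have h5 := (h2 0).tendsto_slope_zero_right
  simp only [zero_add, hN₁, sub_zero, smul_eq_mul, hN₂] at h5
  have h6 := (h5.eventually (lt_mem_nhds (show 2 * a < 2 * A by linarith))).and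
    (Ioo_mem_nhdsGT (show (0 : ℝ) < 1 by norm_num))
  obtain ⟨δ, hδ, h7⟩ := (mem_nhdsGT_iff_exists_Ioc_subset).1 h6
  have hδ0 : 0 < δ := hδ
  have hd : ∀ r, HasDerivAt (fun s => N s - a * s ^ 2) (N₁ r - a * (2 * r)) r := fun r =>
    ((h1 r).fun_sub ((hasDerivAt_pow 2 r).const_mul a)).congr_deriv (by simp)
  have hm : MonotoneOn (fun s => N s - a * s ^ 2) (Icc 0 δ) := by
    refine monotoneOn_of_deriv_nonneg (convex_Icc 0 δ)
      (fun r _ => (hd r).continuousAt.continuousWithinAt)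
      (fun r _ => (hd r).differentiableAt.differentiableWithinAt) fun r hr => ?_
    rw [interior_Icc] at hr
    have h8 := (h7 ⟨hr.1, hr.2.le⟩).1
    rw [lt_inv_mul_iff₀ hr.1] at h8
    rw [(hd r).deriv]
    linarith
  have h9 := hm (left_mem_Icc.2 hδ0.le) (right_mem_Icc.2 hδ0.le) hδ0.le
  have h10 := chjc_upper h0 h1 h2 h3 h4 hN hδ0.le (h7 ⟨hδ0, le_rfl⟩).2.2.le
  simp only [hN] at h9
  nlinarith [pow_pos hδ0 2]

end Crest.Agent.R244

end
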