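import Crest.Agent.R244.CHMetricA
import Crest.Agent.R244.CHJac

/-!
# rid 244, part CH, file `CHMetric`

The distance on the universal cover.

Prefix helper lemmas with `chme_`.
-/

set_option autoImplicit false

open scoped ContDiff Manifold Topology
open Bundle Set Filter
open Crest.GeometryTopology.CoordMetric Crest.GeometryTopology.ChartCurvature Crest.GeometryTopology.Geodesic

noncomputable section

namespace Crest.Agent.R244

variable {E M : Type} [NormedAddCommGroup E] [NormedSpace ℝ E] [TopologicalSpace M]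

/-- the lifted exponential map at `u` -/
def ExpData.θ (D : ExpData E M) (x₀ : M) (u : E) : E ≃ₜ E := (D.exists_theta x₀ u).choose

theorem ExpData.θ_zero (D : ExpData E M) (x₀ : M) (u : E) : D.θ x₀ u 0 = u := (D.exists_theta x₀ u).choose_spec.1

theorem ExpData.exp_θ (D : ExpData E M) (x₀ : M) (u v : E) : D.exp x₀ (D.θ x₀ u v) = D.exp (D.exp x₀ u) v :=
  (D.exists_theta x₀ u).choose_spec.2 v

/-- the norm at `x` -/
def ExpData.nrm (D : ExpData E M) (x : M) (v : E) : ℝ := √(D.q x v v)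

/-- the distance -/
def ExpData.d (D : ExpData E M) (x₀ : M) (u w : E) : ℝ := D.nrm (D.exp x₀ u) ((D.θ x₀ u).symm w)

variable (D : ExpData E M) (x₀ : M)

theorem chme_nrm_nonneg (x : M) (v : E) : 0 ≤ D.nrm x v := Real.sqrt_nonneg _

theorem chme_nrm_sq (x : M) (v : E) : D.nrm x v ^ 2 = D.q x v v := Real.sq_sqrt (D.q_nonneg x v)

theorem chme_cs (x : M) (v w : E) : D.q x v w ≤ D.nrm x v * D.nrm x w := by
  have key : ∀ t : ℝ, 0 ≤ D.q x w w * (t * t) + 2 * D.q x v w * t + D.q x v v := by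
    intro t
    have h := D.q_nonneg x (v + t • w)
    simp only [map_add, map_smul, add_apply, smul_apply,
      smul_eq_mul] at h
    rw [D.q_symm x w v] at h
    nlinarith
  have hd := discrim_le_zero key
  unfold discrim at hd
  have h1 : D.q x v w ^ 2 ≤ D.q x v v * D.q x w w := by nlinarith
  unfold ExpData.nrm
  rw [← Real.sqrt_mul (D.q_nonneg x v)]
  exact Real.le_sqrt_of_sq_le h1

theorem ExpData.nrm_add_le (x : M) (v w : E) : D.nrm x (v + w) ≤ D.nrm x v + D.nrm x w := by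
  have h1 : D.nrm x (v + w) ^ 2 ≤ (D.nrm x v + D.nrm x w) ^ 2 := by
    have e : D.q x (v + w) (v + w) = D.q x v v + 2 * D.q x v w + D.q x w w := by
      simp only [map_add, add_apply]
      rw [D.q_symm x w v]; ring
    have := chme_cs D x v w
    rw [add_sq, chme_nrm_sq, chme_nrm_sq, chme_nrm_sq, e]
    nlinarith
  exact (abs_le_of_sq_le_sq' h1 (add_nonneg (chme_nrm_nonneg D x v) (chme_nrm_nonneg D x w))).2

theorem chme_nrm_neg (x : M) (v : E) : D.nrm x (-v) = D.nrm x v := by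
  simp [ExpData.nrm]

theorem chme_nrm_zero (x : M) : D.nrm x 0 = 0 := by
  simp [ExpData.nrm]

theorem chme_d_theta (u v : E) : D.d x₀ u (D.θ x₀ u v) = D.nrm (D.exp x₀ u) v := by
  simp [ExpData.d]

/-- The key inequality: `θ u` expands.  With `u₁ = θ u v`, `w = (θ u₁).symm (θ u v')` apply `lift_ineq` to
`β s = (θ u).symm (θ u₁ (s • w))`. -/
theorem ExpData.nrm_sub_le (u v v' : E) :
    D.nrm (D.exp x₀ u) (v' - v) ≤ D.d x₀ (D.θ x₀ u v) (D.θ x₀ u v') := by
  set u₁ := D.θ x₀ u v with hu₁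
  set w := (D.θ x₀ u₁).symm (D.θ x₀ u v') with hw
  have hβ : Continuous fun s : ℝ => (D.θ x₀ u).symm (D.θ x₀ u₁ (s • w)) := by fun_prop
  have h := D.lift_ineq (D.exp x₀ u) (D.exp x₀ u₁) w _ hβ (by
    intro s
    rw [← D.exp_θ x₀ u, Homeomorph.apply_symm_apply, D.exp_θ])
  have e1 : (D.θ x₀ u).symm (D.θ x₀ u₁ ((1 : ℝ) • w)) = v' := by
    rw [one_smul, hw, Homeomorph.apply_symm_apply, Homeomorph.symm_apply_apply]
  have e0 : (D.θ x₀ u).symm (D.θ x₀ u₁ ((0 : ℝ) • w)) = v := by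
    rw [zero_smul, D.θ_zero, hu₁, Homeomorph.symm_apply_apply]
  simp only [e1, e0] at h
  exact Real.sqrt_le_sqrt h

theorem ExpData.d_self (u : E) : D.d x₀ u u = 0 := by
  have h := chme_d_theta D x₀ u 0
  rwa [D.θ_zero, chme_nrm_zero] at h

theorem chme_d_le (u w : E) : D.d x₀ u w ≤ D.d x₀ w u := by
  obtain ⟨v, rfl⟩ := (D.θ x₀ u).surjective w
  have h := D.nrm_sub_le x₀ u v 0
  rw [zero_sub, chme_nrm_neg, D.θ_zero] at h
  rwa [chme_d_theta]

/-- `d u w = nrm (0 - v) ≤ d (θ u v) (θ u 0) = d w u`. -/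
theorem ExpData.d_comm (u w : E) : D.d x₀ u w = D.d x₀ w u :=
  le_antisymm (chme_d_le D x₀ u w) (chme_d_le D x₀ w u)

theorem ExpData.d_triangle (u v w : E) : D.d x₀ u w ≤ D.d x₀ u v + D.d x₀ v w := by
  obtain ⟨a, rfl⟩ := (D.θ x₀ u).surjective v
  obtain ⟨b, rfl⟩ := (D.θ x₀ u).surjective w
  rw [chme_d_theta, chme_d_theta]
  have h1 := D.nrm_add_le (D.exp x₀ u) a (b - a)
  have h2 := D.nrm_sub_le x₀ u a b
  rw [add_sub_cancel] at h1
  linarith

/-- `θ (T u) = T ∘ θ u` by uniqueness of lifts. -/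
theorem ExpData.d_deck {T : E → E} (hT : Continuous T) (hp : D.exp x₀ ∘ T = D.exp x₀) (u w : E) :
    D.d x₀ (T u) (T w) = D.d x₀ u w := by
  have hp' : ∀ z, D.exp x₀ (T z) = D.exp x₀ z := fun z => congrFun hp z
  have key : (D.θ x₀ (T u) : E → E) = T ∘ D.θ x₀ u := by
    refine (D.cover x₀).eq_of_comp_eq (D.θ x₀ (T u)).continuous (hT.comp (D.θ x₀ u).continuous) ?_ 0 ?_
    · funext v
      simp only [Function.comp]
      rw [D.exp_θ, hp', hp', D.exp_θ]
    · simp only [Function.comp]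
      rw [D.θ_zero, D.θ_zero]
  obtain ⟨v, rfl⟩ := (D.θ x₀ u).surjective w
  have e : T (D.θ x₀ u v) = D.θ x₀ (T u) v := (congrFun key v).symm
  rw [e, chme_d_theta, chme_d_theta, hp']

/-- With `w = θ u v`, `m = θ u (2⁻¹ • v)` and `v'` from `shift` (`a = 2⁻¹`): the curves `s ↦ θ m (s • v')` and
`s ↦ θ u ((s + 2⁻¹) • v)` lift the same curve and agree at `0`, so `u = θ m (-2⁻¹ • v')`, `w = θ m (2⁻¹ • v')`.  For
`z = θ m ζ` use `nrm_sub_le` at `m` twice and the parallelogram identity. -/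
theorem ExpData.d_cn (u w : E) :
    ∃ m, ∀ z, D.d x₀ z m ^ 2 ≤ (D.d x₀ z u ^ 2 + D.d x₀ z w ^ 2) / 2 - D.d x₀ u w ^ 2 / 4 := by
  obtain ⟨v, rfl⟩ := (D.θ x₀ u).surjective w
  obtain ⟨v', hq, hv'⟩ := D.shift (D.exp x₀ u) v 2⁻¹
  set m := D.θ x₀ u ((2⁻¹ : ℝ) • v) with hm
  have hem : D.exp x₀ m = D.exp (D.exp x₀ u) ((2⁻¹ : ℝ) • v) := D.exp_θ x₀ u _
  have key : (fun s : ℝ => D.θ x₀ m (s • v')) = fun s : ℝ => D.θ x₀ u ((s + 2⁻¹) • v) := by
    refine (D.cover x₀).eq_of_comp_eq (by fun_prop) (by fun_prop) ?_ 0 ?_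
    · funext s
      simp only [Function.comp]
      rw [D.exp_θ x₀ m, D.exp_θ x₀ u ((s + 2⁻¹) • v), hem, hv']
    · simp only [zero_smul, zero_add]
      rw [D.θ_zero]
  have hu : D.θ x₀ m ((-2⁻¹ : ℝ) • v') = u := by
    have := congrFun key (-2⁻¹)
    simp only [neg_add_cancel, zero_smul] at this
    rw [this, D.θ_zero]
  have hw : D.θ x₀ m ((2⁻¹ : ℝ) • v') = D.θ x₀ u v := by
    have := congrFun key 2⁻¹
    rw [this]
    norm_num
  refine ⟨m, fun z => ?_⟩
  obtain ⟨ζ, rfl⟩ := (D.θ x₀ m).surjective z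
  have h1 := D.nrm_sub_le x₀ m ζ ((-2⁻¹ : ℝ) • v')
  have h2 := D.nrm_sub_le x₀ m ζ ((2⁻¹ : ℝ) • v')
  rw [hu] at h1
  rw [hw] at h2
  have h1' := pow_le_pow_left₀ (chme_nrm_nonneg D _ _) h1 2
  have h2' := pow_le_pow_left₀ (chme_nrm_nonneg D _ _) h2 2
  rw [chme_nrm_sq] at h1' h2'
  rw [D.d_comm x₀ _ m, chme_d_theta, chme_d_theta D x₀ u v, chme_nrm_sq, chme_nrm_sq, ← hq, ← hem]
  simp only [map_sub, map_smul, sub_apply, smul_apply,
    smul_eq_mul] at h1' h2'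
  linarith

/-- `small` applied to the neighbourhoods of `covering_nhds`; the path is `s ↦ θ u (s • v)`, `ρ = √r`. -/
theorem ExpData.d_sys : ∃ ρ > 0, ∀ u w, D.exp x₀ u = D.exp x₀ w → D.d x₀ u w < ρ → u = w := by
  choose V hV hV' using covering_nhds (D.cover x₀)
  obtain ⟨r, hr, hs⟩ := D.small V hV
  refine ⟨√r, Real.sqrt_pos.2 hr, fun u w huw hd => ?_⟩
  obtain ⟨v, rfl⟩ := (D.θ x₀ u).surjective w
  rw [chme_d_theta] at hd
  have hq : D.q (D.exp x₀ u) v v ≤ r := by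
    have := (Real.sqrt_lt_sqrt_iff (D.q_nonneg _ v)).1 hd
    exact this.le
  obtain ⟨y, hy⟩ := hs _ v hq
  have := hV' y (fun s : ℝ => D.θ x₀ u (s • v)) (by fun_prop)
    (fun s hs' => by rw [D.exp_θ]; exact hy s hs') (by
      simp only [zero_smul, one_smul]
      rw [D.θ_zero, huw])
  simpa only [zero_smul, one_smul, D.θ_zero] using this

theorem ExpData.conclusion [ConnectedSpace M] (D : ExpData E M) : CHConclusion E M := by
  obtain ⟨x₀⟩ : Nonempty M := inferInstance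
  exact ⟨D.exp x₀, D.d x₀, D.cover x₀, covering_surjective (D.cover x₀), D.d_self x₀, D.d_comm x₀,
    D.d_triangle x₀, D.d_cn x₀, fun T hT hp => D.d_deck x₀ hT hp, D.d_sys x₀⟩

end Crest.Agent.R244

end
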