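import Crest.Agent.R244.CHRauchA

/-!
# rid 244, part CH, file `CHRauch`

Rauch comparison: in non-positive curvature the exponential map expands.

Prefix helper lemmas with `chrb_`.
-/

set_option autoImplicit false
set_option linter.unusedSectionVars false

open scoped ContDiff Manifold Topology
open Bundle Set Filter
open Crest.GeometryTopology.CoordMetric Crest.GeometryTopology.ChartCurvature Crest.GeometryTopology.Geodesic

noncomputable section

namespace Crest.Agent.R244

variable {n : ℕ} {M : Type} [TopologicalSpace M] [ChartedSpace (EE n) M] [IsManifold 𝓘(ℝ, EE n) ∞ M]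
  {g : RM n M} {Φ : ℝ → TM n M → TM n M}

theorem chrb_fst (x : M) (v w : EE n) (z : M) (s : ℝ) :
    (famT Φ x v w z (s, 0)).1 = chartAt (EE n) z (Φ s (mkT x v)).proj := by
  simp only [famT, zero_smul, add_zero, tmChart_fst]

theorem chrb_mem (x : M) (v w : EE n) {z : M} {s : ℝ}
    (hz : (Φ s (mkT x v)).proj ∈ (chartAt (EE n) z).source) :
    (famT Φ x v w z (s, 0)).1 ∈ (chartAt (EE n) z).target := by
  rw [chrb_fst]
  exact (chartAt (EE n) z).map_source hz

/-- The covariant derivative of the variation field in the chart at `z`. -/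
def chrb_DJ (g : RM n M) (Φ : ℝ → TM n M → TM n M) (x : M) (v w : EE n) (z : M) (s : ℝ) : EE n :=
  (varT Φ x v w z s).2 +
    chartΓ g z (famT Φ x v w z (s, 0)).1 (famT Φ x v w z (s, 0)).2 (varT Φ x v w z s).1

/-- The first derivative of `nrmT`. -/
def chrb_d1 (g : RM n M) (Φ : ℝ → TM n M → TM n M) (x : M) (v w : EE n) (z : M) (s : ℝ) : ℝ :=
  2 * chartG g z (famT Φ x v w z (s, 0)).1 (varT Φ x v w z s).1 (chrb_DJ g Φ x v w z s)

/-- The second derivative of `nrmT`. -/
def chrb_d2 (g : RM n M) (Φ : ℝ → TM n M → TM n M) (x : M) (v w : EE n) (z : M) (s : ℝ) : ℝ :=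
  2 * (chartG g z (famT Φ x v w z (s, 0)).1 (chrb_DJ g Φ x v w z s) (chrb_DJ g Φ x v w z s) -
    chartG g z (famT Φ x v w z (s, 0)).1
      (curv (chartΓ g z) (famT Φ x v w z (s, 0)).1 (varT Φ x v w z s).1 (famT Φ x v w z (s, 0)).2
        (famT Φ x v w z (s, 0)).2) (varT Φ x v w z s).1)

theorem chrb_deriv1 (h : IsGeoFlow g Φ) (x : M) (v w : EE n) {z : M} {s : ℝ}
    (hz : (Φ s (mkT x v)).proj ∈ (chartAt (EE n) z).source) :
    HasDerivAt (nrmT g Φ x v w z) (chrb_d1 g Φ x v w z s) s := by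
  obtain ⟨h1, -, h3, -⟩ := h.varT_ode x v w hz
  have hm := chrb_mem (Φ := Φ) x v w hz
  have := (isLC_chart g z).hasDerivAt_inner (c := fun r => (famT Φ x v w z (r, 0)).1)
    (X := fun r => (varT Φ x v w z r).1) (Y := fun r => (varT Φ x v w z r).1) hm h1 h3 h3
  refine HasDerivAt.congr_deriv this ?_
  unfold chrb_d1 chrb_DJ
  rw [(isLC_chart g z).g_symm _ hm (_ + _) (varT Φ x v w z s).1]
  ring

theorem chrb_deriv2 (h : IsGeoFlow g Φ) (x : M) (v w : EE n) {z : M} {s : ℝ}
    (hz : (Φ s (mkT x v)).proj ∈ (chartAt (EE n) z).source) :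
    HasDerivAt (chrb_d1 g Φ x v w z) (chrb_d2 g Φ x v w z s) s := by
  obtain ⟨h1, h2, h3, h4⟩ := h.varT_ode x v w hz
  have hm := chrb_mem (Φ := Φ) x v w hz
  have := (isLC_chart g z).hasDerivAt_jacobi (c := fun r => (famT Φ x v w z (r, 0)).1)
    (c' := fun r => (famT Φ x v w z (r, 0)).2) (J := fun r => (varT Φ x v w z r).1)
    (K := fun r => (varT Φ x v w z r).2) hm h1 h2 h3 h4
  exact this.const_mul 2

theorem chrb_eventually (h : IsGeoFlow g Φ) (x : M) (v : EE n) {z : M} {s : ℝ}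
    (hz : (Φ s (mkT x v)).proj ∈ (chartAt (EE n) z).source) :
    ∀ᶠ r in 𝓝 s, (Φ r (mkT x v)).proj ∈ (chartAt (EE n) z).source := by
  have hc : Continuous fun r : ℝ => (Φ r (mkT x v)).proj :=
    continuous_projT.comp (h.cont.comp (continuous_id.prodMk continuous_const))
  exact hc.continuousAt.preimage_mem_nhds ((chartAt (EE n) z).open_source.mem_nhds hz)

theorem chrb_derivN (h : IsGeoFlow g Φ) (x : M) (v w : EE n) {z : M} {s : ℝ}
    (hz : (Φ s (mkT x v)).proj ∈ (chartAt (EE n) z).source) :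
    HasDerivAt (fun r => nrmT g Φ x v w (Φ r (mkT x v)).proj r) (chrb_d1 g Φ x v w z s) s := by
  refine (chrb_deriv1 h x v w hz).congr_of_eventuallyEq ?_
  filter_upwards [chrb_eventually h x v hz] with r hr
  exact h.nrmT_indep x v w (mem_chart_source _ _) hr

theorem chrb_derivN1 (h : IsGeoFlow g Φ) (x : M) (v w : EE n) {z : M} {s : ℝ}
    (hz : (Φ s (mkT x v)).proj ∈ (chartAt (EE n) z).source) :
    HasDerivAt (fun r => chrb_d1 g Φ x v w (Φ r (mkT x v)).proj r) (chrb_d2 g Φ x v w z s) s := by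
  refine (chrb_deriv2 h x v w hz).congr_of_eventuallyEq ?_
  filter_upwards [chrb_eventually h x v hz] with r hr
  exact (chrb_derivN h x v w (mem_chart_source _ _)).unique (chrb_derivN h x v w hr)

theorem chrb_nonneg (g : RM n M) (z : M) {y : EE n} (hy : y ∈ (chartAt (EE n) z).target) (u : EE n) :
    0 ≤ chartG g z y u u := by
  by_cases hu : u = 0
  · simp [hu]
  · exact ((isLC_chart g z).g_pos y hy u hu).le

/-- Let `N s = nrmT … (Φ s (mkT x v)).proj s`.  Near `s₀`, `N = nrmT … z₀` with `z₀ = (Φ s₀ (mkT x v)).proj`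
(`nrmT_indep`), so by `varT_ode`, `IsLC.hasDerivAt_inner` the derivative of `N` near `s₀` is `2 g(J, DJ)` (chart at
`z₀`), and by `IsLC.hasDerivAt_jacobi` the function `N₁ = deriv N` has at `s₀` the derivative
`N₂ s₀ = 2 g(DJ,DJ) - 2 g(R(J,c')c',J) ≥ 2 g(DJ,DJ)` (`curv_center_nonpos`: `(famT z₀ (s₀,0)).1` is the centre of the
chart).  `bilin_cs` gives `N₁² ≤ 2 N N₂`; at `s₀ = 0` use `varT_zero`, `chartG_center`.  Conclude with
`le_of_sqrt_convex` and `nrmT_indep`. -/
theorem IsGeoFlow.le_nrmT (h : IsGeoFlow g Φ) (hg : HasNonposSectionalCurvature g) (x : M) (v w : EE n) {z : M}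
    (hz : (Φ 1 (mkT x v)).proj ∈ (chartAt (EE n) z).source) : qT g x w w ≤ nrmT g Φ x v w z 1 := by
  have hP0 : (Φ 0 (mkT x v)).proj = x := by rw [h.zero]; rfl
  have hmem : ∀ s : ℝ, (famT Φ x v w (Φ s (mkT x v)).proj (s, 0)).1 ∈
      (chartAt (EE n) (Φ s (mkT x v)).proj).target := fun s =>
    chrb_mem x v w (mem_chart_source _ _)
  have hcurv : ∀ s : ℝ, 2 * chartG g (Φ s (mkT x v)).proj (famT Φ x v w (Φ s (mkT x v)).proj (s, 0)).1
      (chrb_DJ g Φ x v w (Φ s (mkT x v)).proj s) (chrb_DJ g Φ x v w (Φ s (mkT x v)).proj s) ≤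
      chrb_d2 g Φ x v w (Φ s (mkT x v)).proj s := by
    intro s
    unfold chrb_d2
    have := curv_center_nonpos hg (Φ s (mkT x v)).proj (varT Φ x v w (Φ s (mkT x v)).proj s).1
      (famT Φ x v w (Φ s (mkT x v)).proj (s, 0)).2
    rw [← chrb_fst x v w] at this
    linarith
  have hc0 : (famT Φ x v w x (0, 0)).1 = chartAt (EE n) x x := by rw [chrb_fst, hP0]
  have key := le_of_sqrt_convex (N := fun r => nrmT g Φ x v w (Φ r (mkT x v)).proj r)
    (N₁ := fun r => chrb_d1 g Φ x v w (Φ r (mkT x v)).proj r)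
    (N₂ := fun r => chrb_d2 g Φ x v w (Φ r (mkT x v)).proj r) (A := qT g x w w)
    (fun s => chrb_nonneg g _ (hmem s) _)
    (fun s => chrb_derivN h x v w (mem_chart_source _ _))
    (fun s => chrb_derivN1 h x v w (mem_chart_source _ _))
    (fun s => le_trans (mul_nonneg zero_le_two (chrb_nonneg g _ (hmem s) _)) (hcurv s))
    (fun s => by
      have h1 := bilin_cs ((isLC_chart g _).g_symm _ (hmem s)) (chrb_nonneg g _ (hmem s))
        (varT Φ x v w (Φ s (mkT x v)).proj s).1 (chrb_DJ g Φ x v w (Φ s (mkT x v)).proj s)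
      have h2 := hcurv s
      have h3 := chrb_nonneg g _ (hmem s) (varT Φ x v w (Φ s (mkT x v)).proj s).1
      have h4 := mul_le_mul_of_nonneg_left h2 h3
      unfold chrb_d1 nrmT
      nlinarith)
    (by
      simp only [hP0]
      unfold nrmT
      rw [h.varT_zero]
      simp)
    (by
      simp only [hP0]
      unfold chrb_d1
      rw [h.varT_zero]
      simp)
    (by
      simp only [hP0]
      unfold chrb_d2 chrb_DJ
      rw [h.varT_zero, hc0]
      simp [chartG_center])
  rwa [h.nrmT_indep x v w (mem_chart_source _ _) hz] at key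

/-- `u ↦ chartAt z (expT Φ x u)` is the first component of `h.smooth x z (mkT x v) 1` composed with
`u ↦ (1, (chartAt x x, u))`, so it is `C²` at `v`; with `D` its derivative, `D w = (varT Φ x v w z 1).1` (both are the
derivative at `0` of `λ ↦ chartAt z (expT Φ x (v + λ • w))`). -/
theorem IsGeoFlow.expanding (h : IsGeoFlow g Φ) (hg : HasNonposSectionalCurvature g) (x : M) :
    Expanding (chartG g) (qT g x) (expT Φ x) := by
  refine ⟨qT_symm g x, fun v hv => qT_pos g x hv,
    fun z => (isLC_chart g z).g_smooth.continuousOn, h.continuous_expT x, fun v z hz => ?_⟩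
  have hz' : (Φ 1 (mkT x v)).proj ∈ (chartAt (EE n) z).source := hz
  have hs := h.smooth x z (mkT x v) 1 (mem_chart_source _ _) hz'
  rw [tmChart_mkT] at hs
  have hi : ContDiffAt ℝ 2 (fun u : EE n => ((1 : ℝ), (chartAt (EE n) x x, u))) v :=
    contDiffAt_const.prodMk (contDiffAt_const.prodMk contDiffAt_id)
  have hf : ContDiffAt ℝ 2 (fun u => chartAt (EE n) z (expT Φ x u)) v := by
    have := (ContDiffAt.comp v (f := fun u : EE n => ((1 : ℝ), (chartAt (EE n) x x, u))) hs hi).fst
    simpa only [Function.comp_def, tmChart_symm_center, tmChart_fst, expT] using this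
  have hD := hf.hasStrictFDerivAt (by norm_num)
  refine ⟨_, hD, fun w => ?_⟩
  have h1 : HasDerivAt (fun l : ℝ => chartAt (EE n) z (expT Φ x (v + l • w)))
      (fderiv ℝ (fun u => chartAt (EE n) z (expT Φ x u)) v w) 0 := by
    have hl : HasDerivAt (fun l : ℝ => v + l • w) w 0 := by
      simpa using ((hasDerivAt_id (0 : ℝ)).smul_const w).const_add v
    exact HasFDerivAt.comp_hasDerivAt_of_eq (0 : ℝ) hD.hasFDerivAt hl (by simp)
  have h2 : HasDerivAt (fun l : ℝ => chartAt (EE n) z (expT Φ x (v + l • w)))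
      (varT Φ x v w z 1).1 0 := by
    have hF := ((h.famT_smooth x v w hz').differentiableAt (by norm_num)).hasFDerivAt
    have hl : HasDerivAt (fun l : ℝ => ((1 : ℝ), l)) ((0 : ℝ), (1 : ℝ)) 0 :=
      (hasDerivAt_const (0 : ℝ) (1 : ℝ)).prodMk (hasDerivAt_id 0)
    have h3 := HasFDerivAt.comp_hasDerivAt (0 : ℝ) hF hl
    have := (ContinuousLinearMap.fst ℝ (EE n) (EE n)).hasFDerivAt.comp_hasDerivAt (0 : ℝ) h3
    simpa only [Function.comp_def, famT, tmChart_fst, expT, varT, ContinuousLinearMap.coe_fst'] using this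
  rw [h1.unique h2]
  have := h.le_nrmT hg x v w hz'
  unfold nrmT at this
  rwa [chrb_fst] at this

end Crest.Agent.R244

end
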