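import Crest.Agent.R244.Defs

/-!
# R244 / Iface : the statements of the four parts, and the final assembly from them

* `ModelStmt` : to be proved in `R244/MMain.lean` as `theorem model : ModelStmt` (helper8);
* `CHStmt`    : `R244/CHMain.lean`, `theorem cartan_hadamard3 : CHStmt` (helper36);
* `TStmt`     : `R244/TMain.lean`, `theorem no_cn : TStmt` (helper98);
* `AStmt`     : `R244/AMain.lean`, `theorem no_conj : AStmt` (helper79).
-/

set_option autoImplicit false

noncomputable section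

open scoped ContDiff Manifold Topology
open Set Crest.GeometryTopology.CoordMetric Crest.GeometryTopology.ChartCurvature
open Crest.GeometryTopology.Geodesic

namespace Crest.Agent.R244

/-- a simply connected cover with an invariant distance satisfying the CN inequality -/
def CNCover (n : ℕ) (M : Type) [TopologicalSpace M] : Prop :=
  ∃ (p : E n → M) (d : E n → E n → ℝ), IsCoveringMap p ∧ Function.Surjective p ∧
    (∀ u, d u u = 0) ∧ (∀ u w, d u w = d w u) ∧ (∀ u v w, d u w ≤ d u v + d v w) ∧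
    (∀ u w, ∃ m, ∀ z, d z m ^ 2 ≤ (d z u ^ 2 + d z w ^ 2) / 2 - d u w ^ 2 / 4) ∧
    (∀ D : E n → E n, Continuous D → p ∘ D = p → ∀ u w, d (D u) (D w) = d u w) ∧
    (∃ ρ > 0, ∀ u w, p u = p w → u ≠ w → ρ ≤ d u w)

/-- part `M` -/
def ModelStmt : Prop :=
  ∀ (α β σ : ℝ → ℝ) (cL cR : ℝ), Warp α β σ cL cR →
    ∃ (M : Type) (_ : TopologicalSpace M) (_ : ChartedSpace (E 3) M) (_ : IsManifold 𝓘(ℝ, E 3) ∞ M),
      T2Space M ∧ CompactSpace M ∧ ConnectedSpace M ∧ IsOrientable 3 M ∧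
      Nonempty (TopData M) ∧ ∃ g : Met 3 M, Nonempty (GeoData α β σ g)

/-- part `CH` -/
def CHStmt : Prop :=
  ∀ (M : Type) [TopologicalSpace M] [ChartedSpace (E 3) M] [IsManifold 𝓘(ℝ, E 3) ∞ M]
    [T2Space M] [CompactSpace M] [ConnectedSpace M] (g : Met 3 M),
    HasNonposSectionalCurvature g → CNCover 3 M

/-- part `T` -/
def TStmt : Prop :=
  ∀ (M : Type) [TopologicalSpace M], TopData M → ¬ CNCover 3 M

/-- part `A` -/
def AStmt : Prop :=
  ∃ (α β σ : ℝ → ℝ) (cL cR : ℝ), Warp α β σ cL cR ∧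
    ∀ (M : Type) [TopologicalSpace M] [ChartedSpace (E 3) M] [IsManifold 𝓘(ℝ, E 3) ∞ M]
      (g : Met 3 M), GeoData α β σ g → NoConjugatePoints g

theorem assemble (hM : ModelStmt) (hC : CHStmt) (hT : TStmt) (hA : AStmt) :
    ∃ (M : Type) (_ : TopologicalSpace M) (_ : ChartedSpace (E 3) M)
      (_ : IsManifold 𝓘(ℝ, E 3) ∞ M),
      T2Space M ∧ SecondCountableTopology M ∧ CompactSpace M ∧ ConnectedSpace M ∧
      IsOrientable 3 M ∧ (∃ g : Met 3 M, NoConjugatePoints g) ∧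
      ∀ g : Met 3 M, ¬ HasNonposSectionalCurvature g := by
  obtain ⟨α, β, σ, cL, cR, hW, hA⟩ := hA
  obtain ⟨M, i1, i2, i3, h2, hc, hcon, hor, ⟨T⟩, g, ⟨D⟩⟩ := hM α β σ cL cR hW
  refine ⟨M, i1, i2, i3, h2, ChartedSpace.secondCountable_of_sigmaCompact (E 3) M, hc, hcon, hor,
    ⟨g, hA M g D⟩, fun g' hg' => hT M T (hC M g' hg')⟩

end Crest.Agent.R244
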