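import Crest.Agent.R244.CHGeo
import Crest.Agent.R244.CHRauch
import Crest.Agent.R244.CHCover
import Crest.Agent.R244.CHMetric
import Crest.Agent.R244.Iface

/-!
# rid 244, part CH, file `CHMain`

Assembly.

Prefix helper lemmas with `chmain_`.
-/

set_option autoImplicit false

open scoped ContDiff Manifold Topology
open Bundle Set Filter
open Crest.GeometryTopology.CoordMetric Crest.GeometryTopology.ChartCurvature Crest.GeometryTopology.Geodesic

noncomputable section

namespace Crest.Agent.R244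

theorem chmain_conclusion {n : ℕ} {M : Type} [TopologicalSpace M] [ChartedSpace (EE n) M]
    [IsManifold 𝓘(ℝ, EE n) ∞ M] [T2Space M] [CompactSpace M] [ConnectedSpace M] (g : RM n M)
    (hg : HasNonposSectionalCurvature g) : CHConclusion (EE n) M := by
  obtain ⟨Φ, h⟩ := exists_geoFlow g
  refine ExpData.conclusion
    { exp := expT Φ
      q := qT g
      q_symm := qT_symm g
      q_nonneg := qT_nonneg g
      cover := fun x => (h.expanding hg x).isCoveringMap
      exp_zero := h.expT_zero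
      shift := h.shift
      lift_ineq := fun x y w β hβ hl => ?_
      small := h.small }
  have := (h.expanding hg x).lift_le (γ := fun s : ℝ => expT Φ y (s • w)) zero_le_one hβ.continuousOn
    (fun s _ => hl s) fun s _ => h.speedLe y w s
  simpa using this

/-- **Cartan–Hadamard**, in the form used for rid 244. -/
theorem cartan_hadamard {n : ℕ} {M : Type} [TopologicalSpace M] [ChartedSpace (EuclideanSpace ℝ (Fin n)) M]
    [IsManifold 𝓘(ℝ, EuclideanSpace ℝ (Fin n)) ∞ M] [T2Space M] [CompactSpace M] [ConnectedSpace M]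
    (g : ContMDiffRiemannianMetric 𝓘(ℝ, EuclideanSpace ℝ (Fin n)) ∞ (EuclideanSpace ℝ (Fin n))
      (fun x : M => TangentSpace 𝓘(ℝ, EuclideanSpace ℝ (Fin n)) x))
    (hg : HasNonposSectionalCurvature g) :
    ∃ (p : EuclideanSpace ℝ (Fin n) → M) (d : EuclideanSpace ℝ (Fin n) → EuclideanSpace ℝ (Fin n) → ℝ),
      IsCoveringMap p ∧ Function.Surjective p ∧
      (∀ u, d u u = 0) ∧ (∀ u w, d u w = d w u) ∧ (∀ u v w, d u w ≤ d u v + d v w) ∧
      (∀ u w, ∃ m, ∀ z, d z m ^ 2 ≤ (d z u ^ 2 + d z w ^ 2) / 2 - d u w ^ 2 / 4) ∧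
      (∀ D : EuclideanSpace ℝ (Fin n) → EuclideanSpace ℝ (Fin n), Continuous D → p ∘ D = p →
        ∀ u w, d (D u) (D w) = d u w) ∧
      (∃ ρ > 0, ∀ u w, p u = p w → u ≠ w → ρ ≤ d u w) := by
  obtain ⟨p, d, h1, h2, h3, h4, h5, h6, h7, ρ, hρ, h8⟩ := chmain_conclusion g hg
  exact ⟨p, d, h1, h2, h3, h4, h5, h6, h7, ρ, hρ, fun u w h hne => not_lt.1 fun hlt => hne (h8 u w h hlt)⟩

theorem cartan_hadamard3 : CHStmt := fun _ _ _ _ _ _ _ g hg => cartan_hadamard g hg

end Crest.Agent.R244

end
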