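import Crest.Agent.R244.CHDefs

/-!
# rid 244, part CH, file `CHMetricA`

The distance on the universal cover.

Prefix helper lemmas with `chma_`.
-/

set_option autoImplicit false

open scoped ContDiff Manifold Topology
open Bundle Set Filter
open Crest.GeometryTopology.CoordMetric Crest.GeometryTopology.ChartCurvature Crest.GeometryTopology.Geodesic

noncomputable section

namespace Crest.Agent.R244

variable {E M : Type} [NormedAddCommGroup E] [NormedSpace ℝ E] [TopologicalSpace M]

/-- A covering map from a non-empty space onto a connected space is surjective (the range is open, and so is its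
complement: an evenly covered neighbourhood of a point with empty fibre has empty preimage). -/
theorem covering_surjective {X Y : Type} [TopologicalSpace X] [TopologicalSpace Y] [Nonempty X]
    [PreconnectedSpace Y] {p : X → Y} (hp : IsCoveringMap p) : Function.Surjective p := by
  have hcl : IsClopen (range p) := by
    refine ⟨?_, hp.isOpenMap.isOpen_range⟩
    rw [← isOpen_compl_iff, isOpen_iff_mem_nhds]
    intro y hy
    obtain ⟨-, U, hyU, hU, -, H, -⟩ := hp y
    refine mem_of_superset (hU.mem_nhds hyU) ?_
    rintro _ hz ⟨x, rfl⟩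
    have e := (H ⟨x, hz⟩).2
    exact hy ⟨e.1, e.2⟩
  exact range_eq_univ.1 (hcl.eq_univ (range_nonempty p))

/-- Each point has a neighbourhood over which paths with the same projected end points are closed (an evenly covered
open set: the fibre coordinate of the path is a continuous map from `Icc 0 1` to a discrete space). -/
theorem covering_nhds {X Y : Type} [TopologicalSpace X] [TopologicalSpace Y] {p : X → Y} (hp : IsCoveringMap p)
    (y : Y) : ∃ V ∈ 𝓝 y, ∀ β : ℝ → X, Continuous β → (∀ s ∈ Icc (0 : ℝ) 1, p (β s) ∈ V) →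
      p (β 0) = p (β 1) → β 0 = β 1 := by
  obtain ⟨hd, U, hyU, hU, -, H, hH⟩ := hp y
  refine ⟨U, hU.mem_nhds hyU, fun β hβ hin h01 => ?_⟩
  let b : Icc (0 : ℝ) 1 → p ⁻¹' U := fun s => ⟨β s, hin s s.2⟩
  have hb : Continuous b := (hβ.comp continuous_subtype_val).subtype_mk _
  have hc : Continuous fun s => (H (b s)).2 := continuous_snd.comp (H.continuous.comp hb)
  have : PreconnectedSpace (Icc (0 : ℝ) 1) := isPreconnected_iff_preconnectedSpace.1 isPreconnected_Icc
  have h2 : (H (b ⟨0, by simp⟩)).2 = (H (b ⟨1, by simp⟩)).2 :=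
    (IsLocallyConstant.iff_continuous _).2 hc |>.apply_eq_of_preconnectedSpace _ _
  have h1 : (H (b ⟨0, by simp⟩)).1 = (H (b ⟨1, by simp⟩)).1 := by
    apply Subtype.ext
    rw [hH, hH]
    exact h01
  have := H.injective (Prod.ext h1 h2)
  exact congrArg Subtype.val this

/-- The two coverings `exp x₀` and `exp (exp x₀ u)` are isomorphic (`IsCoveringMap.existsUnique_continuousMap_lifts`
twice, `E` is contractible; `IsCoveringMap.eq_of_comp_eq` for the two compositions). -/
theorem ExpData.exists_theta (D : ExpData E M) (x₀ : M) (u : E) :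
    ∃ θ : E ≃ₜ E, θ 0 = u ∧ ∀ v, D.exp x₀ (θ v) = D.exp (D.exp x₀ u) v := by
  have hx := D.cover x₀
  have hy := D.cover (D.exp x₀ u)
  obtain ⟨F, ⟨hF0, hF⟩, -⟩ := hx.existsUnique_continuousMap_lifts
    (⟨D.exp (D.exp x₀ u), hy.continuous⟩ : C(E, M)) 0 u (by simp [D.exp_zero])
  obtain ⟨G, ⟨hG0, hG⟩, -⟩ := hy.existsUnique_continuousMap_lifts
    (⟨D.exp x₀, hx.continuous⟩ : C(E, M)) u 0 (by simp [D.exp_zero])
  have hF' : ∀ v, D.exp x₀ (F v) = D.exp (D.exp x₀ u) v := fun v => congrFun hF v
  have hG' : ∀ v, D.exp (D.exp x₀ u) (G v) = D.exp x₀ v := fun v => congrFun hG v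
  have h1 : (fun v => G (F v)) = id :=
    hy.eq_of_comp_eq (G.continuous.comp F.continuous) continuous_id
      (funext fun v => by simp [hF', hG']) 0 (by simp [hF0, hG0])
  have h2 : (fun v => F (G v)) = id :=
    hx.eq_of_comp_eq (F.continuous.comp G.continuous) continuous_id
      (funext fun v => by simp [hF', hG']) u (by simp [hF0, hG0])
  exact ⟨⟨⟨F, G, fun v => congrFun h1 v, fun v => congrFun h2 v⟩, F.continuous, G.continuous⟩, hF0, hF'⟩

end Crest.Agent.R244

end
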