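import Crest.Agent.R244.CHExp
import Crest.Agent.R244.CHJac

/-!
# rid 244, part CH, file `CHRauchA`

Rauch comparison: in non-positive curvature the exponential map expands.

Prefix helper lemmas with `chra_`.
-/

set_option autoImplicit false
set_option linter.unusedSectionVars false

open scoped ContDiff Manifold Topology
open Bundle Set Filter
open Crest.GeometryTopology.CoordMetric Crest.GeometryTopology.ChartCurvature Crest.GeometryTopology.Geodesic

noncomputable section

namespace Crest.Agent.R244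

variable {n : ℕ} {M : Type} [TopologicalSpace M] [ChartedSpace (EE n) M] [IsManifold 𝓘(ℝ, EE n) ∞ M]
  {g : RM n M} {Φ : ℝ → TM n M → TM n M}

/-- The family of geodesics with initial vectors `v + λ w` at `x`, read in the chart over `z`; `q = (s, λ)`. -/
def famT (Φ : ℝ → TM n M → TM n M) (x : M) (v w : EE n) (z : M) (q : ℝ × ℝ) : EE n × EE n :=
  tmChart n z (Φ q.1 (mkT x (v + q.2 • w)))

/-- Its variation field `(J, J')` in the chart over `z`. -/
def varT (Φ : ℝ → TM n M → TM n M) (x : M) (v w : EE n) (z : M) (s : ℝ) : EE n × EE n :=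
  fderiv ℝ (famT Φ x v w z) (s, 0) (0, 1)

/-- `|J(s)|²` computed in the chart at `z`. -/
def nrmT (g : RM n M) (Φ : ℝ → TM n M → TM n M) (x : M) (v w : EE n) (z : M) (s : ℝ) : ℝ :=
  chartG g z (famT Φ x v w z (s, 0)).1 (varT Φ x v w z s).1 (varT Φ x v w z s).1

/-- `h.smooth x z (mkT x v) s` composed with `(s, λ) ↦ (s, (chartAt x x, v + λ • w))` (`tmChart_mkT`,
`tmChart_symm_center`). -/
theorem IsGeoFlow.famT_smooth (h : IsGeoFlow g Φ) (x : M) (v w : EE n) {z : M} {s : ℝ}
    (hz : (Φ s (mkT x v)).proj ∈ (chartAt (EE n) z).source) : ContDiffAt ℝ 2 (famT Φ x v w z) (s, 0) := by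
  have h1 := h.smooth x z (mkT x v) s (mem_chart_source _ x) hz
  rw [tmChart_mkT] at h1
  have h2 : ContDiff ℝ 2 fun q : ℝ × ℝ =>
      ((q.1, (chartAt (EE n) x x, v + q.2 • w)) : ℝ × (EE n × EE n)) :=
    contDiff_fst.prodMk (contDiff_const.prodMk (contDiff_const.add (contDiff_snd.smul contDiff_const)))
  have h3 := ContDiffAt.comp (s, (0 : ℝ)) (by simpa using h1) h2.contDiffAt
  convert h3 using 1
  funext q
  simp only [famT, Function.comp_apply, tmChart_symm_center]

/-- The base point stays in the source of the chart for `(s', λ)` near `(s, 0)` (`h.cont`, `continuous_mkT`). -/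
theorem IsGeoFlow.famT_eventually (h : IsGeoFlow g Φ) (x : M) (v w : EE n) {z : M} {s : ℝ}
    (hz : (Φ s (mkT x v)).proj ∈ (chartAt (EE n) z).source) :
    ∀ᶠ q : ℝ × ℝ in 𝓝 (s, 0), (Φ q.1 (mkT x (v + q.2 • w))).proj ∈ (chartAt (EE n) z).source := by
  have h1 : Continuous fun q : ℝ × ℝ => (Φ q.1 (mkT x (v + q.2 • w))).proj :=
    continuous_projT.comp (h.cont.comp (continuous_fst.prodMk
      ((continuous_mkT x).comp (continuous_const.add (continuous_snd.smul continuous_const)))))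
  exact h1.continuousAt.eventually_mem ((chartAt (EE n) z).open_source.mem_nhds (by simpa using hz))

theorem chra_fst (Φ : ℝ → TM n M → TM n M) (x : M) (v w : EE n) (z : M) (q : ℝ × ℝ) :
    (famT Φ x v w z q).1 = chartAt (EE n) z (Φ q.1 (mkT x (v + q.2 • w))).proj :=
  tmChart_fst _ _

theorem chra_fst_zero (Φ : ℝ → TM n M → TM n M) (x : M) (v w : EE n) (z : M) (s : ℝ) :
    (famT Φ x v w z (s, 0)).1 = chartAt (EE n) z (Φ s (mkT x v)).proj := by
  rw [chra_fst, zero_smul, add_zero]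

/-- `variational_eq` and `fderiv_spray`. -/
theorem IsGeoFlow.varT_ode (h : IsGeoFlow g Φ) (x : M) (v w : EE n) {z : M} {s : ℝ}
    (hz : (Φ s (mkT x v)).proj ∈ (chartAt (EE n) z).source) :
    HasDerivAt (fun r => (famT Φ x v w z (r, 0)).1) (famT Φ x v w z (s, 0)).2 s ∧
    HasDerivAt (fun r => (famT Φ x v w z (r, 0)).2)
      (-chartΓ g z (famT Φ x v w z (s, 0)).1 (famT Φ x v w z (s, 0)).2 (famT Φ x v w z (s, 0)).2) s ∧
    HasDerivAt (fun r => (varT Φ x v w z r).1) (varT Φ x v w z s).2 s ∧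
    HasDerivAt (fun r => (varT Φ x v w z r).2)
      (-(fderiv ℝ (chartΓ g z) (famT Φ x v w z (s, 0)).1 (varT Φ x v w z s).1 (famT Φ x v w z (s, 0)).2
          (famT Φ x v w z (s, 0)).2) -
        chartΓ g z (famT Φ x v w z (s, 0)).1 (varT Φ x v w z s).2 (famT Φ x v w z (s, 0)).2 -
        chartΓ g z (famT Φ x v w z (s, 0)).1 (famT Φ x v w z (s, 0)).2 (varT Φ x v w z s).2) s := by
  have hode : ∀ᶠ q : ℝ × ℝ in 𝓝 (s, 0), HasDerivAt (fun r => famT Φ x v w z (r, q.2))
      (spray (chartΓ g z) (famT Φ x v w z q)) q.1 :=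
    (h.famT_eventually x v w hz).mono fun q hq => (h.sol _ q.1).2 z hq
  have h0 := hode.self_of_nhds
  have hmem : (famT Φ x v w z (s, 0)).1 ∈ (chartAt (EE n) z).target := by
    rw [chra_fst_zero]
    exact (chartAt (EE n) z).map_source hz
  have hL := isLC_chart g z
  have hΓ : DifferentiableAt ℝ (chartΓ g z) (famT Φ x v w z (s, 0)).1 :=
    (hL.Γ_smooth.contDiffAt (hL.isOpen.mem_nhds hmem)).differentiableAt (by simp)
  obtain ⟨hd, he⟩ := fderiv_spray (w := (famT Φ x v w z (s, 0)).2) hΓ (varT Φ x v w z s).1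
    (varT Φ x v w z s).2
  have h1 := variational_eq (h.famT_smooth x v w hz) hd hode
  have h2 : HasDerivAt (fun r => varT Φ x v w z r) _ s := h1.congr_deriv he
  exact ⟨(hasFDerivAt_fst.comp_hasDerivAt s h0 :), (hasFDerivAt_snd.comp_hasDerivAt s h0 :),
    (hasFDerivAt_fst.comp_hasDerivAt s h2 :), (hasFDerivAt_snd.comp_hasDerivAt s h2 :)⟩

/-- `|J|²` does not depend on the chart: near `(s, 0)`, `(famT z' q).1 = tr z z' (famT z q).1`, so
`(varT z' s).1 = fderiv (tr z z') _ (varT z s).1`; `chartG_trans`. -/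
theorem IsGeoFlow.nrmT_indep (h : IsGeoFlow g Φ) (x : M) (v w : EE n) {z z' : M} {s : ℝ}
    (hz : (Φ s (mkT x v)).proj ∈ (chartAt (EE n) z).source)
    (hz' : (Φ s (mkT x v)).proj ∈ (chartAt (EE n) z').source) :
    nrmT g Φ x v w z s = nrmT g Φ x v w z' s := by
  have hd := (h.famT_smooth x v w hz).differentiableAt (by simp)
  have hd' := (h.famT_smooth x v w hz').differentiableAt (by simp)
  have hev : (fun q => (famT Φ x v w z' q).1) =ᶠ[𝓝 (s, 0)]
      tr n z z' ∘ fun q => (famT Φ x v w z q).1 :=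
    (h.famT_eventually x v w hz).mono fun q hq => by
      simp only [Function.comp_apply, chra_fst, tr_apply hq]
  have ht : DifferentiableAt ℝ (tr n z z') (famT Φ x v w z (s, 0)).1 := by
    rw [chra_fst_zero]
    exact (tr_smooth hz hz').differentiableAt (by simp)
  have h1 := (ht.hasFDerivAt.comp (s, (0 : ℝ)) hd.hasFDerivAt.fst).congr_of_eventuallyEq hev
  have h2 := congrArg (fun L : ℝ × ℝ →L[ℝ] EE n => L (0, 1)) (hd'.hasFDerivAt.fst.unique h1)
  have h3 : (varT Φ x v w z' s).1 =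
      fderiv ℝ (tr n z z') (famT Φ x v w z (s, 0)).1 (varT Φ x v w z s).1 := h2
  unfold nrmT
  rw [h3, chra_fst_zero, chra_fst_zero]
  exact chartG_trans g hz hz' _ _

/-- `famT x (0, λ) = (chartAt x x, v + λ • w)`. -/
theorem IsGeoFlow.varT_zero (h : IsGeoFlow g Φ) (x : M) (v w : EE n) : varT Φ x v w x 0 = (0, w) := by
  have hz : (Φ 0 (mkT x v)).proj ∈ (chartAt (EE n) x).source := by
    rw [h.zero]
    exact mem_chart_source _ x
  have hd := (h.famT_smooth x v w hz).differentiableAt (by simp)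
  have h1 : HasDerivAt (fun l : ℝ => (((0 : ℝ), l) : ℝ × ℝ)) (0, 1) 0 :=
    (hasDerivAt_const _ _).prodMk (hasDerivAt_id _)
  have h2 := hd.hasFDerivAt.comp_hasDerivAt (0 : ℝ) h1
  have h3 : HasDerivAt (fun l : ℝ => ((chartAt (EE n) x x, v + l • w) : EE n × EE n)) (0, w) 0 :=
    (hasDerivAt_const _ _).prodMk (by simpa using ((hasDerivAt_id (0 : ℝ)).smul_const w).const_add v)
  refine h2.unique (h3.congr_of_eventuallyEq (.of_forall fun l => ?_))
  simp only [Function.comp_apply, famT, h.zero, tmChart_mkT]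

end Crest.Agent.R244

end
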