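import Crest.Agent.R244.CHChart

/-!
# rid 244, part CH, file `CHTMA`

The charts of the tangent bundle and the energy.

Prefix helper lemmas with `chta_`.
-/

set_option autoImplicit false
set_option linter.unusedSectionVars false

open scoped ContDiff Manifold Topology
open Bundle Set Filter
open Crest.GeometryTopology.CoordMetric Crest.GeometryTopology.ChartCurvature Crest.GeometryTopology.Geodesic

noncomputable section

namespace Crest.Agent.R244

variable {n : ℕ} {M : Type} [TopologicalSpace M] [ChartedSpace (EE n) M] [IsManifold 𝓘(ℝ, EE n) ∞ M]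

theorem mkT_proj (x : M) (v : EE n) : (mkT x v).proj = x := rfl

theorem vecT_mkT (x : M) (v : EE n) : vecT (mkT x v) = v := rfl

theorem mkT_vecT (ξ : TM n M) : mkT ξ.proj (vecT ξ) = ξ := rfl

theorem energy_mkT (g : RM n M) (x : M) (v : EE n) : energy g (mkT x v) = qT g x v v := rfl

theorem continuous_projT : Continuous fun ξ : TM n M => ξ.proj :=
  FiberBundle.continuous_proj (EE n) (TangentSpace 𝓘(ℝ, EE n))

theorem mem_tmChart_source {z : M} {ξ : TM n M} :
    ξ ∈ (tmChart n z).source ↔ ξ.proj ∈ (chartAt (EE n) z).source := by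
  simp only [tmChart, OpenPartialHomeomorph.trans_source, OpenPartialHomeomorph.prod_source, mem_inter_iff,
    mem_preimage, mem_prod, OpenPartialHomeomorph.refl_source, mem_univ, and_true]
  exact ⟨fun h => h.1, fun h => ⟨h, h⟩⟩

theorem tmChart_target (z : M) : (tmChart n z).target = (chartAt (EE n) z).target ×ˢ univ := by
  ext ⟨y, w⟩
  simp only [tmChart, OpenPartialHomeomorph.trans_target, OpenPartialHomeomorph.prod_target, mem_inter_iff,
    mem_preimage, mem_prod, OpenPartialHomeomorph.refl_target, mem_univ, and_true]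
  exact ⟨fun h => h.1, fun h => ⟨h, (chartAt (EE n) z).map_target h, trivial⟩⟩

theorem tmChart_fst (z : M) (ξ : TM n M) : (tmChart n z ξ).1 = chartAt (EE n) z ξ.proj := by
  rfl

/-- `TangentBundle.trivializationAt_apply`, `mfld_simps`, `fderivWithin_univ`. -/
theorem tmChart_snd (z : M) (ξ : TM n M) :
    (tmChart n z ξ).2 = fderiv ℝ (tr n ξ.proj z) (chartAt (EE n) ξ.proj ξ.proj) (vecT ξ) := by
  have h : (tmChart n z ξ).2 = (trivializationAt (EE n) (TangentSpace 𝓘(ℝ, EE n)) z ξ).2 := rfl
  rw [h, TangentBundle.trivializationAt_apply]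
  simp only [mfld_simps, fderivWithin_univ]
  rfl

theorem tmChart_mkT (x : M) (v : EE n) : tmChart n x (mkT x v) = (chartAt (EE n) x x, v) := by
  refine Prod.ext rfl ?_
  rw [tmChart_snd]
  exact fderiv_tr_self (mem_chart_source _ x) v

theorem tmChart_symm_center (x : M) (v : EE n) : (tmChart n x).symm (chartAt (EE n) x x, v) = mkT x v := by
  rw [← tmChart_mkT]
  exact (tmChart n x).left_inv (mem_tmChart_source.2 (mem_chart_source _ x))

theorem tmChart_symm_proj {z : M} {y : EE n} (hy : y ∈ (chartAt (EE n) z).target) (w : EE n) :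
    ((tmChart n z).symm (y, w)).proj = (chartAt (EE n) z).symm y := by
  have ht : (y, w) ∈ (tmChart n z).target := by
    rw [tmChart_target]
    exact ⟨hy, trivial⟩
  have h1 := mem_tmChart_source.1 ((tmChart n z).map_target ht)
  have h2 := tmChart_fst z ((tmChart n z).symm (y, w))
  rw [(tmChart n z).right_inv ht] at h2
  rw [← (chartAt (EE n) z).left_inv h1, ← h2]

theorem chta_symm {x m : M} (hx : m ∈ (chartAt (EE n) x).source) (w : EE n) :
    (tmChart n x).symm (chartAt (EE n) x m, w) = mkT m (fderiv ℝ (tr n x m) (chartAt (EE n) x m) w) := by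
  have h : tmChart n x (mkT m (fderiv ℝ (tr n x m) (chartAt (EE n) x m) w)) = (chartAt (EE n) x m, w) := by
    refine Prod.ext rfl ?_
    rw [tmChart_snd]
    exact (fderiv_tr_comp hx (mem_chart_source _ m) hx w).trans (fderiv_tr_self hx w)
  rw [← h]
  exact (tmChart n x).left_inv (mem_tmChart_source.2 hx)

/-- The transition maps of the tangent bundle. -/
theorem tmChart_trans {x z m : M} (hx : m ∈ (chartAt (EE n) x).source) (hz : m ∈ (chartAt (EE n) z).source)
    (w : EE n) :
    tmChart n z ((tmChart n x).symm (chartAt (EE n) x m, w)) =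
      (tr n x z (chartAt (EE n) x m), fderiv ℝ (tr n x z) (chartAt (EE n) x m) w) := by
  rw [chta_symm hx]
  refine Prod.ext ?_ ?_
  · rw [tmChart_fst, tr_apply hx]
    rfl
  · rw [tmChart_snd]
    exact fderiv_tr_comp hx (mem_chart_source _ m) hz w

theorem continuous_mkT (x : M) : Continuous (mkT x : EE n → TM n M) := by
  have h : (mkT x : EE n → TM n M) = fun v => (tmChart n x).symm (chartAt (EE n) x x, v) :=
    funext fun v => (tmChart_symm_center x v).symm
  rw [h]
  refine (tmChart n x).continuousOn_symm.comp_continuous (by fun_prop) fun v => ?_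
  rw [tmChart_target]
  exact ⟨mem_chart_target _ x, trivial⟩

/-- Fibrewise scaling in charts. -/
theorem tmChart_smul (z : M) (ξ : TM n M) (a : ℝ) :
    tmChart n z (mkT ξ.proj (a • vecT ξ)) = ((tmChart n z ξ).1, a • (tmChart n z ξ).2) := by
  refine Prod.ext rfl ?_
  rw [tmChart_snd, tmChart_snd]
  exact map_smul _ a _

/-- Fibrewise scaling is continuous (read it in the chart at the base point). -/
theorem continuous_smulT (a : ℝ) : Continuous fun ξ : TM n M => mkT ξ.proj (a • vecT ξ) := by
  refine continuous_iff_continuousAt.2 fun ξ₀ => ?_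
  set z := ξ₀.proj
  have hs : ξ₀ ∈ (tmChart n z).source := mem_tmChart_source.2 (mem_chart_source _ z)
  have h : (fun ξ : TM n M => mkT ξ.proj (a • vecT ξ)) =ᶠ[𝓝 ξ₀]
      fun ξ => (tmChart n z).symm ((tmChart n z ξ).1, a • (tmChart n z ξ).2) := by
    filter_upwards [(tmChart n z).open_source.mem_nhds hs] with ξ hξ
    rw [← tmChart_smul]
    have h1 : (mkT ξ.proj (a • vecT ξ)).proj ∈ (chartAt (EE n) z).source := (mem_tmChart_source (ξ := ξ)).1 hξ
    exact ((tmChart n z).left_inv (mem_tmChart_source.2 h1)).symm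
  refine ContinuousAt.congr ?_ h.symm
  have hc : ContinuousAt (tmChart n z) ξ₀ := (tmChart n z).continuousAt hs
  refine ContinuousAt.comp (f := fun ξ => ((tmChart n z ξ).1, a • (tmChart n z ξ).2))
    ((tmChart n z).continuousAt_symm ?_) (hc.fst.prodMk (hc.snd.const_smul a))
  rw [tmChart_target]
  exact ⟨mem_chart_target _ z, trivial⟩

end Crest.Agent.R244

end
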