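import Crest.Agent.R244.CHDefs

/-!
# rid 244, part CH, file `CHTopA`

Two topological lemmas on local homeomorphisms: path lifting from an a priori Lipschitz bound, and even covering from
path lifting.

Prefix helper lemmas with `chtpa_`.
-/

set_option autoImplicit false

open scoped ContDiff Manifold Topology
open Bundle Set Filter
open Crest.GeometryTopology.CoordMetric Crest.GeometryTopology.ChartCurvature Crest.GeometryTopology.Geodesic

noncomputable section

namespace Crest.Agent.R244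

/-- `β` is a lift of `γ` on `[0,T]` starting at `e`. -/
def chtpa_Lift {E M : Type} [TopologicalSpace E] (p : E → M) (γ : ℝ → M) (e : E) (T : ℝ) (β : ℝ → E) : Prop :=
  ContinuousOn β (Icc 0 T) ∧ β 0 = e ∧ ∀ s ∈ Icc (0 : ℝ) T, p (β s) = γ s

theorem chtpa_mono {E M : Type} [TopologicalSpace E] {p : E → M} {γ : ℝ → M} {e : E} {T T' : ℝ} {β : ℝ → E}
    (h : chtpa_Lift p γ e T β) (hT : T' ≤ T) : chtpa_Lift p γ e T' β :=
  ⟨h.1.mono (Icc_subset_Icc_right hT), h.2.1, fun s hs => h.2.2 s (Icc_subset_Icc_right hT hs)⟩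

theorem chtpa_step {E M : Type} [TopologicalSpace E] [TopologicalSpace M] {p : E → M} {γ : ℝ → M}
    (hγ : ContinuousOn γ (Icc 0 1)) {e : E} {T₁ T₂ : ℝ} {β : ℝ → E} (h : chtpa_Lift p γ e T₁ β)
    (h0 : 0 ≤ T₁) (h12 : T₁ ≤ T₂) (h2 : T₂ ≤ 1) (φ : OpenPartialHomeomorph E M) (hφ : p = φ)
    (hb : β T₁ ∈ φ.source) (ht : ∀ s ∈ Icc T₁ T₂, γ s ∈ φ.target) : ∃ β', chtpa_Lift p γ e T₂ β' := by
  classical
  have hT : φ.symm (γ T₁) = β T₁ := by
    rw [← h.2.2 T₁ ⟨h0, le_rfl⟩, hφ, φ.left_inv hb]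
  have hc : ContinuousOn (fun s => φ.symm (γ s)) (Icc T₁ T₂) :=
    φ.continuousOn_symm.comp (hγ.mono (Icc_subset_Icc h0 h2)) ht
  refine ⟨fun s => if s ≤ T₁ then β s else φ.symm (γ s), ?_, ?_, ?_⟩
  · rw [← Icc_union_Icc_eq_Icc h0 h12]
    refine ContinuousOn.union_of_isClosed ?_ ?_ isClosed_Icc isClosed_Icc
    · exact h.1.congr fun s hs => if_pos hs.2
    · refine hc.congr fun s hs => ?_
      by_cases hs' : s ≤ T₁
      · obtain rfl : s = T₁ := le_antisymm hs' hs.1
        simp [hT]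
      · simp [hs']
  · simp [h0, h.2.1]
  · intro s hs
    by_cases hs' : s ≤ T₁
    · simp only [if_pos hs']
      exact h.2.2 s ⟨hs.1, hs'⟩
    · simp only [if_neg hs']
      rw [hφ, φ.right_inv (ht s ⟨(not_le.1 hs').le, hs.2⟩)]

theorem chtpa_uniq {E M : Type} [TopologicalSpace E] [T2Space E] [TopologicalSpace M] {p : E → M}
    (hp : IsLocalHomeomorph p) {γ : ℝ → M} {e : E} {T : ℝ} {β β' : ℝ → E} (h0 : 0 ≤ T)
    (h : chtpa_Lift p γ e T β) (h' : chtpa_Lift p γ e T β') : β T = β' T :=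
  (T2Space.isSeparatedMap p).eqOn_of_comp_eqOn hp.isLocallyInjective isPreconnected_Icc h.1 h'.1
    (fun s hs => (h.2.2 s hs).trans (h'.2.2 s hs).symm) (left_mem_Icc.2 h0) (h.2.1.trans h'.2.1.symm)
    (right_mem_Icc.2 h0)

/-- Path lifting from an a priori bound.  Let `S` be the set of `T ∈ [0,1]` such that a continuous lift starting at `e`
exists on `[0,T]`; lifts on `[0,T]` are unique (`IsSeparatedMap.eqOn_of_comp_eqOn`, `T2Space.isSeparatedMap`,
`IsLocalHomeomorph.isLocallyInjective`).  Let `T = sSup S`.  The lifts glue to a lift `β` on `[0,T)`, Lipschitz by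
`hL`, so `β s` has a limit `b` as `s ↑ T` (completeness; for `T = 0` take `b = e`), `p b = γ T` (`M` Hausdorff).  A local
inverse of `p` at `b` composed with `γ` agrees with `β` shortly before `T` (injectivity of `p` on the source) and extends
the lift up to `T` and, if `T < 1`, beyond.  (Alternative: use `IsClosed.Icc_subset_of_forall_exists_gt` /
`IsClosed.mem_of_ge_of_forall_exists_gt`.) -/
theorem exists_lift_of_lipschitz {E M : Type} [MetricSpace E] [CompleteSpace E] [TopologicalSpace M] [T2Space M]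
    {p : E → M} (hp : IsLocalHomeomorph p) {γ : ℝ → M} (hγ : ContinuousOn γ (Icc 0 1)) {L : ℝ}
    (hL : ∀ (a b : ℝ) (β : ℝ → E), 0 ≤ a → a ≤ b → b ≤ 1 → ContinuousOn β (Icc a b) →
      (∀ s ∈ Icc a b, p (β s) = γ s) → dist (β a) (β b) ≤ L * (b - a))
    {e : E} (he : p e = γ 0) :
    ∃ β : ℝ → E, ContinuousOn β (Icc 0 1) ∧ β 0 = e ∧ ∀ s ∈ Icc (0 : ℝ) 1, p (β s) = γ s := by
  let S : Set ℝ := {T | ∃ β, chtpa_Lift p γ e T β}
  have h0 : (0 : ℝ) ∈ S := by
    refine ⟨fun _ => e, continuousOn_const, rfl, fun s hs => ?_⟩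
    obtain rfl : s = 0 := le_antisymm hs.2 hs.1
    exact he
  -- a neighbourhood on which `γ` stays in an open set
  have hnear : ∀ T ∈ Icc (0 : ℝ) 1, ∀ W : Set M, IsOpen W → γ T ∈ W →
      ∃ δ > 0, ∀ s ∈ Icc (0 : ℝ) 1, |s - T| < δ → γ s ∈ W := by
    intro T hT W hW hTW
    have := (hγ T hT).preimage_mem_nhdsWithin (hW.mem_nhds hTW)
    rw [Metric.mem_nhdsWithin_iff] at this
    obtain ⟨δ, hδ, h⟩ := this
    exact ⟨δ, hδ, fun s hs hsT => h ⟨by simpa [Real.dist_eq] using hsT, hs⟩⟩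
  have hcl : IsClosed (S ∩ Icc 0 1) := by
    refine IsSeqClosed.isClosed fun u T hu huT => ?_
    have hT : T ∈ Icc (0 : ℝ) 1 := isClosed_Icc.mem_of_tendsto huT (Eventually.of_forall fun k => (hu k).2)
    refine ⟨?_, hT⟩
    choose B hB using fun k => (hu k).1
    by_cases hk : ∃ k, T ≤ u k
    · obtain ⟨k, hk⟩ := hk
      exact ⟨B k, chtpa_mono (hB k) hk⟩
    push Not at hk
    have hd : ∀ j k, u j ≤ u k → dist (B j (u j)) (B k (u k)) ≤ |L| * dist (u j) (u k) := by
      intro j k hjk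
      rw [chtpa_uniq hp (hu j).2.1 (hB j) (chtpa_mono (hB k) hjk)]
      refine (hL _ _ (B k) (hu j).2.1 hjk (hu k).2.2 ((hB k).1.mono (Icc_subset_Icc_left (hu j).2.1))
        fun s hs => (hB k).2.2 s (Icc_subset_Icc_left (hu j).2.1 hs)).trans ?_
      rw [Real.dist_eq, abs_sub_comm, abs_of_nonneg (sub_nonneg.2 hjk)]
      exact mul_le_mul_of_nonneg_right (le_abs_self L) (sub_nonneg.2 hjk)
    have hd' : ∀ j k, dist (B j (u j)) (B k (u k)) ≤ |L| * dist (u j) (u k) := by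
      intro j k
      rcases le_total (u j) (u k) with h | h
      · exact hd j k h
      · rw [dist_comm, dist_comm (u j)]
        exact hd k j h
    have hcau : CauchySeq fun k => B k (u k) := by
      have hu' := huT.cauchySeq
      rw [Metric.cauchySeq_iff] at hu' ⊢
      intro ε hε
      obtain ⟨N, hN⟩ := hu' (ε / (|L| + 1)) (by positivity)
      refine ⟨N, fun j hj k hk => (hd' j k).trans_lt ?_⟩
      have h1 := hN j hj k hk
      rw [lt_div_iff₀ (by positivity)] at h1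
      nlinarith [dist_nonneg (x := u j) (y := u k), abs_nonneg L]
    obtain ⟨b, hb⟩ := cauchySeq_tendsto_of_complete hcau
    have hpb : p b = γ T := by
      have h1 : Tendsto (fun k => p (B k (u k))) atTop (𝓝 (p b)) := (hp.continuous.tendsto b).comp hb
      have h2 : Tendsto (fun k => γ (u k)) atTop (𝓝 (γ T)) :=
        (hγ T hT).tendsto.comp (tendsto_nhdsWithin_iff.2 ⟨huT, Eventually.of_forall fun k => (hu k).2⟩)
      refine tendsto_nhds_unique h1 (h2.congr fun k => ?_)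
      exact ((hB k).2.2 _ (right_mem_Icc.2 (hu k).2.1)).symm
    obtain ⟨φ, hbφ, hφ⟩ := hp b
    obtain ⟨δ, hδ, hW⟩ := hnear T hT φ.target φ.open_target (by rw [← hpb, hφ]; exact φ.map_source hbφ)
    have e1 : ∀ᶠ k in atTop, B k (u k) ∈ φ.source := hb (φ.open_source.mem_nhds hbφ)
    have e2 : ∀ᶠ k in atTop, dist (u k) T < δ := huT (Metric.ball_mem_nhds T hδ)
    obtain ⟨k, hk1, hk2⟩ := (e1.and e2).exists
    refine chtpa_step hγ (hB k) (hu k).2.1 (hk k).le hT.2 φ hφ hk1 fun s hs => ?_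
    refine hW s ⟨(hu k).2.1.trans hs.1, hs.2.trans hT.2⟩ ?_
    rw [Real.dist_eq, abs_lt] at hk2
    rw [abs_lt]
    constructor <;> linarith [hs.1, hs.2]
  have h1 : (1 : ℝ) ∈ S := by
    refine hcl.mem_of_ge_of_forall_exists_gt h0 zero_le_one ?_
    rintro T ⟨⟨β, hβ⟩, hT⟩
    obtain ⟨φ, hbφ, hφ⟩ := hp (β T)
    obtain ⟨δ, hδ, hW⟩ := hnear T ⟨hT.1, hT.2.le⟩ φ.target φ.open_target
      (by rw [← hβ.2.2 T (right_mem_Icc.2 hT.1), hφ]; exact φ.map_source hbφ)
    have hlt : T < min 1 (T + δ / 2) := lt_min hT.2 (by linarith)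
    refine ⟨min 1 (T + δ / 2), ?_, hlt, min_le_left _ _⟩
    refine chtpa_step hγ hβ hT.1 hlt.le (min_le_left _ _) φ hφ hbφ fun s hs => ?_
    refine hW s ⟨hT.1.trans hs.1, hs.2.trans (min_le_left _ _)⟩ ?_
    have := hs.2.trans (min_le_right _ _)
    rw [abs_lt]
    constructor <;> linarith [hs.1]
  exact h1

end Crest.Agent.R244

end
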