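import Crest.Agent.R244.Defs

/-!
# R244 / Calc0 : algebra and smoothness of `ip`, `Gam`; Koszul formula; metric compatibility

Proof hints.  `G x` is symmetric (`(h.posDef x hx).isHermitian`/`.1`), `ip G x u v = u ⬝ᵥ (G x *ᵥ v)`.
Smoothness of the inverse matrix: `(G x)⁻¹ i j = (G x).det⁻¹ * (G x).adjugate i j`
(`Matrix.inv_def`, `Ring.inverse_eq_inv'`), determinants are polynomials in the entries
(`Matrix.det_apply`, `adjugate_apply`); compare `R202/Jet.lean` (`contDiff_christoffel`, same proof for
`U = univ`).  `pderiv i f` is `ContDiffOn` on the open `U` by `ContDiffOn.fderiv_of_isOpen`.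
`dG G x u v w = ∑ i j, (∑ k, pderiv k (G · i j) x * u k) * v i * w j` (`dG_eq`); `ip_gam` then is
`G * G⁻¹ = 1`.
-/

set_option autoImplicit false

noncomputable section

open scoped ContDiff Manifold Topology
open Set Crest.GeometryTopology.CoordMetric Crest.GeometryTopology.ChartCurvature
open Crest.GeometryTopology.Geodesic

namespace Crest.Agent.R244

variable {n : ℕ} {G : MetricField n} {U : Set (E n)}

theorem calc0_symm (h : IsRiemannianOn G U) {x : E n} (hx : x ∈ U) (i j : Fin n) :
    G x i j = G x j i := by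
  have := (h.posDef x hx).isHermitian.apply j i
  simpa using this

theorem calc0_det {A : E n → Matrix (Fin n) (Fin n) ℝ}
    (h : ∀ i j, ContDiffOn ℝ ∞ (fun x => A x i j) U) : ContDiffOn ℝ ∞ (fun x => (A x).det) U := by
  simp only [Matrix.det_apply']
  exact ContDiffOn.sum fun σ _ => contDiffOn_const.mul (contDiffOn_prod fun i _ => h _ _)

theorem calc0_inv (h : IsRiemannianOn G U) (k l : Fin n) :
    ContDiffOn ℝ ∞ (fun x => inverseField G x k l) U := by
  have e : (fun x => inverseField G x k l) =
      fun x => ((G x).det)⁻¹ * ((G x).updateRow l (Pi.single k 1)).det := by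
    funext x
    unfold inverseField
    rw [Matrix.inv_def, Ring.inverse_eq_inv', Matrix.smul_apply, Matrix.adjugate_apply, smul_eq_mul]
  rw [e]
  refine ((calc0_det h.contDiffOn).inv fun x hx => (h.posDef x hx).det_pos.ne').mul
    (calc0_det fun i j => ?_)
  simp only [Matrix.updateRow_apply]
  split_ifs
  · exact contDiffOn_const
  · exact h.contDiffOn i j

theorem calc0_pderiv {f : E n → ℝ} (hU : IsOpen U) (hf : ContDiffOn ℝ ∞ f U)
    (i : Fin n) : ContDiffOn ℝ ∞ (fun x => pderiv i f x) U := by
  unfold pderiv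
  exact (hf.fderiv_of_isOpen hU (by simp)).clm_apply contDiffOn_const

theorem calc0_bil (f : Fin n → Fin n → E n → ℝ) (hf : ∀ i j, ContDiffOn ℝ ∞ (f i j) U) :
    ContDiffOn ℝ ∞ (fun p : E n × E n × E n => ∑ i, ∑ j, f i j p.1 * p.2.1 i * p.2.2 j)
      (U ×ˢ univ) := by
  refine ContDiffOn.sum fun i _ => ContDiffOn.sum fun j _ => ?_
  have h1 : ContDiffOn ℝ ∞ (fun p : E n × E n × E n => f i j p.1) (U ×ˢ univ) :=
    (hf i j).comp contDiffOn_fst fun p hp => hp.1
  have h2 : ContDiff ℝ ∞ (fun p : E n × E n × E n => p.2.1 i) :=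
    (EuclideanSpace.proj i : E n →L[ℝ] ℝ).contDiff.comp (contDiff_fst.comp contDiff_snd)
  have h3 : ContDiff ℝ ∞ (fun p : E n × E n × E n => p.2.2 j) :=
    (EuclideanSpace.proj j : E n →L[ℝ] ℝ).contDiff.comp (contDiff_snd.comp contDiff_snd)
  exact (h1.mul h2.contDiffOn).mul h3.contDiffOn

/-- the derivative of the metric: `(∂_u G)(v, w)` -/
def dG (G : MetricField n) (x u v w : E n) : ℝ := fderiv ℝ (fun y => ip G y v w) x u

theorem ip_add_left (G : MetricField n) (x u u' v : E n) :
    ip G x (u + u') v = ip G x u v + ip G x u' v := by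
  simp [ip, mul_add, add_mul, Finset.sum_add_distrib]

theorem ip_add_right (G : MetricField n) (x u v v' : E n) :
    ip G x u (v + v') = ip G x u v + ip G x u v' := by
  simp [ip, mul_add, Finset.sum_add_distrib]

theorem ip_smul_left (G : MetricField n) (x : E n) (a : ℝ) (u v : E n) :
    ip G x (a • u) v = a * ip G x u v := by
  unfold ip
  simp only [Finset.mul_sum]
  refine Finset.sum_congr rfl fun i _ => Finset.sum_congr rfl fun j _ => ?_
  simp only [PiLp.smul_apply, smul_eq_mul]
  ring

theorem ip_smul_right (G : MetricField n) (x : E n) (a : ℝ) (u v : E n) :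
    ip G x u (a • v) = a * ip G x u v := by
  unfold ip
  simp only [Finset.mul_sum]
  refine Finset.sum_congr rfl fun i _ => Finset.sum_congr rfl fun j _ => ?_
  simp only [PiLp.smul_apply, smul_eq_mul]
  ring

theorem ip_zero_left (G : MetricField n) (x v : E n) : ip G x 0 v = 0 := by
  simp [ip]

theorem ip_zero_right (G : MetricField n) (x u : E n) : ip G x u 0 = 0 := by
  simp [ip]

theorem ip_symm (h : IsRiemannianOn G U) {x : E n} (hx : x ∈ U) (u v : E n) :
    ip G x u v = ip G x v u := by
  unfold ip
  rw [Finset.sum_comm]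
  refine Finset.sum_congr rfl fun i _ => Finset.sum_congr rfl fun j _ => ?_
  rw [calc0_symm h hx j i]
  ring

theorem ip_pos (h : IsRiemannianOn G U) {x : E n} (hx : x ∈ U) {u : E n} (hu : u ≠ 0) :
    0 < ip G x u u := by
  have hv' : (u.ofLp : Fin n → ℝ) ≠ 0 := by
    intro h0
    apply hu
    ext i
    exact congrFun h0 i
  have := (h.posDef x hx).dotProduct_mulVec_pos hv'
  simp only [star_trivial, dotProduct, Matrix.mulVec, Finset.mul_sum] at this
  refine lt_of_lt_of_eq this ?_
  exact Finset.sum_congr rfl fun i _ => Finset.sum_congr rfl fun j _ => by ring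

theorem ip_nonneg (h : IsRiemannianOn G U) {x : E n} (hx : x ∈ U) (u : E n) :
    0 ≤ ip G x u u := by
  by_cases hu : u = 0
  · rw [hu, ip_zero_left]
  · exact (ip_pos h hx hu).le

theorem ip_ext (h : IsRiemannianOn G U) {x : E n} (hx : x ∈ U) {u u' : E n}
    (hu : ∀ v, ip G x u v = ip G x u' v) : u = u' := by
  by_contra hne
  have h1 : u + (-1 : ℝ) • u' ≠ 0 := by
    intro h0
    apply hne
    rw [neg_one_smul, ← sub_eq_add_neg] at h0
    exact sub_eq_zero.mp h0
  have h2 := ip_pos h hx h1
  rw [ip_add_left, ip_smul_left, hu] at h2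
  linarith

theorem gam_add_left (G : MetricField n) (x u u' v : E n) :
    Gam G x (u + u') v = Gam G x u v + Gam G x u' v := by
  ext k
  simp [Gam, mul_add, add_mul, Finset.sum_add_distrib]

theorem gam_add_right (G : MetricField n) (x u v v' : E n) :
    Gam G x u (v + v') = Gam G x u v + Gam G x u v' := by
  ext k
  simp [Gam, mul_add, Finset.sum_add_distrib]

theorem gam_smul_left (G : MetricField n) (x : E n) (a : ℝ) (u v : E n) :
    Gam G x (a • u) v = a • Gam G x u v := by
  ext k
  simp only [Gam, PiLp.smul_apply, smul_eq_mul, Finset.mul_sum]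
  exact Finset.sum_congr rfl fun i _ => Finset.sum_congr rfl fun j _ => by ring

theorem gam_smul_right (G : MetricField n) (x : E n) (a : ℝ) (u v : E n) :
    Gam G x u (a • v) = a • Gam G x u v := by
  ext k
  simp only [Gam, PiLp.smul_apply, smul_eq_mul, Finset.mul_sum]
  exact Finset.sum_congr rfl fun i _ => Finset.sum_congr rfl fun j _ => by ring

theorem gam_zero_left (G : MetricField n) (x v : E n) : Gam G x 0 v = 0 := by
  ext k
  simp [Gam]

theorem gam_zero_right (G : MetricField n) (x u : E n) : Gam G x u 0 = 0 := by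
  ext k
  simp [Gam]

theorem christoffel_symm (h : IsRiemannianOn G U) {x : E n} (hx : x ∈ U) (k i j : Fin n) :
    christoffel G x k i j = christoffel G x k j i := by
  have hp : ∀ l, pderiv l (fun y => G y i j) x = pderiv l (fun y => G y j i) x := by
    intro l
    unfold pderiv
    have : (fun y => G y i j) =ᶠ[𝓝 x] fun y => G y j i := by
      filter_upwards [h.isOpen.mem_nhds hx] with y hy using calc0_symm h hy i j
    rw [this.fderiv_eq]
  unfold christoffel
  congr 1
  refine Finset.sum_congr rfl fun l _ => ?_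
  rw [hp l]
  ring

theorem gam_symm (h : IsRiemannianOn G U) {x : E n} (hx : x ∈ U) (u v : E n) :
    Gam G x u v = Gam G x v u := by
  ext k
  simp only [Gam]
  rw [Finset.sum_comm]
  refine Finset.sum_congr rfl fun i _ => Finset.sum_congr rfl fun j _ => ?_
  rw [christoffel_symm h hx k j i]
  ring

theorem christoffel_smooth (h : IsRiemannianOn G U) (k i j : Fin n) :
    ContDiffOn ℝ ∞ (fun x => christoffel G x k i j) U := by
  unfold christoffel
  refine contDiffOn_const.mul (ContDiffOn.sum fun l _ => ?_)
  refine (calc0_inv h k l).mul ?_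
  exact ((calc0_pderiv h.isOpen (h.contDiffOn j l) i).add
    (calc0_pderiv h.isOpen (h.contDiffOn i l) j)).sub (calc0_pderiv h.isOpen (h.contDiffOn i j) l)

theorem ip_smooth (h : IsRiemannianOn G U) :
    ContDiffOn ℝ ∞ (fun p : E n × E n × E n => ip G p.1 p.2.1 p.2.2) (U ×ˢ univ) := by
  exact calc0_bil (fun i j x => G x i j) h.contDiffOn

theorem gam_smooth (h : IsRiemannianOn G U) :
    ContDiffOn ℝ ∞ (fun p : E n × E n × E n => Gam G p.1 p.2.1 p.2.2) (U ×ˢ univ) := by
  unfold Gam
  rw [contDiffOn_euclidean]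
  intro k
  exact calc0_bil (fun i j x => christoffel G x k i j) (christoffel_smooth h k)

end Crest.Agent.R244
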