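import Crest.Agent.R244.Calc1

/-!
# R244 / Calc2 : Jacobi equation = linearised geodesic equation; uniqueness for both equations

`jacobi_iff_lin`: with `Γ = Gam G`, `DΓ(a)(u,v) = fderiv (fun y => Γ y u v) (c s) a`:
`D j = j' + Γ(c', j)` (`covDeriv_eq`, as functions), `(D j)' = j'' + DΓ(c')(c',j) + Γ(c'',j) + Γ(c',j')`
(`hasDerivAt_gam`), `D D j = (D j)' + Γ(c', j' + Γ(c', j))`, and the curvature term is
`DΓ(j)(c',c') - DΓ(c')(j,c') + Γ(j, Γ(c',c')) - Γ(c', Γ(j,c'))` (`riem_eq`).  With `gam_symm` (also
under `fderiv`: `U` is open) the sum is `Lin`-expression `+ Γ(j, c'' + Γ(c',c'))`.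

Uniqueness: write the second order equation as a first order system for `(j, j')` resp. `(c, c')` in
`E n × E n`.  Local uniqueness (`ODE_solution_unique_of_eventually`, the vector field is `C¹` hence
locally Lipschitz: `ContDiffAt.exists_lipschitzOnWith`; for the linear equation add the parameter `s`:
`v s (j, k) = (k, - A s j - B s k)` with `A, B` continuous operator valued, so bounded near `s`), then the
set of parameters near which the two solutions agree is open and closed in the interval
(`IsPreconnected`, `isPreconnected_Ioo`).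
-/

set_option autoImplicit false

noncomputable section

open scoped ContDiff Manifold Topology
open Set Crest.GeometryTopology.CoordMetric Crest.GeometryTopology.ChartCurvature
open Crest.GeometryTopology.Geodesic

namespace Crest.Agent.R244

variable {n : ℕ} {G : MetricField n} {U : Set (E n)}

theorem c2_fderiv_apply (f : E n → ℝ) (x w : E n) :
    fderiv ℝ f x w = ∑ a, w a * pderiv a f x := by
  have hw : w = ∑ a, w a • EuclideanSpace.single a (1 : ℝ) := by
    ext k
    simp [Finset.sum_apply, Pi.single_apply]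
  conv_lhs => rw [hw]
  simp [map_sum, pderiv]

theorem c2_diff_chr (h : IsRiemannianOn G U) {x : E n} (hx : x ∈ U) (k i j : Fin n) :
    DifferentiableAt ℝ (fun y => christoffel G y k i j) x :=
  ((christoffel_smooth h k i j).contDiffAt (h.isOpen.mem_nhds hx)).differentiableAt (by simp)

theorem c2_diff_gam (h : IsRiemannianOn G U) {x : E n} (hx : x ∈ U) (u v : E n) :
    DifferentiableAt ℝ (fun y => Gam G y u v) x := by
  refine differentiableAt_euclidean.2 fun k => ?_
  simp only [Gam]
  exact DifferentiableAt.fun_sum fun i _ => DifferentiableAt.fun_sum fun j _ =>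
    ((c2_diff_chr h hx k i j).mul_const _).mul_const _

theorem c2_fderiv_gam (h : IsRiemannianOn G U) {x : E n} (hx : x ∈ U) (u v w : E n) (l : Fin n) :
    fderiv ℝ (fun y => Gam G y u v) x w l =
      ∑ i, ∑ j, (∑ a, w a * pderiv a (fun y => christoffel G y l i j) x) * u i * v j := by
  have h1 : HasFDerivAt (fun y => Gam G y u v l)
      ((EuclideanSpace.proj l : E n →L[ℝ] ℝ).comp (fderiv ℝ (fun y => Gam G y u v) x)) x :=
    (EuclideanSpace.proj l : E n →L[ℝ] ℝ).hasFDerivAt.comp x (c2_diff_gam h hx u v).hasFDerivAt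
  have h2 : HasFDerivAt (fun y => Gam G y u v l)
      (∑ i, ∑ j, v j • (u i • fderiv ℝ (fun y => christoffel G y l i j) x)) x := by
    simp only [Gam]
    exact HasFDerivAt.fun_sum fun i _ => HasFDerivAt.fun_sum fun j _ =>
      ((c2_diff_chr h hx l i j).hasFDerivAt.mul_const _).mul_const _
  have h3 := congrArg (fun L : E n →L[ℝ] ℝ => L w) (h1.unique h2)
  simp only [ContinuousLinearMap.comp_apply, ContinuousLinearMap.sum_apply,
    ContinuousLinearMap.smul_apply, smul_eq_mul, c2_fderiv_apply] at h3
  refine Eq.trans h3 ?_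
  refine Finset.sum_congr rfl fun i _ => Finset.sum_congr rfl fun j _ => ?_
  ring

theorem c2_sum3 (f : Fin n → Fin n → Fin n → ℝ) :
    ∑ k, ∑ i, ∑ j, f k i j = ∑ i, ∑ j, ∑ k, f k i j := by
  rw [Finset.sum_comm]
  exact Finset.sum_congr rfl fun i _ => Finset.sum_comm

/-- the curvature term of the Jacobi equation, `R(u,v)v` -/
theorem riem_eq (h : IsRiemannianOn G U) {x : E n} (hx : x ∈ U) (u v : E n) (l : Fin n) :
    ∑ k, ∑ i, ∑ j, riemann G x l k i j * v k * u i * v j =
      (fderiv ℝ (fun y => Gam G y v v) x u - fderiv ℝ (fun y => Gam G y u v) x v +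
        Gam G x u (Gam G x v v) - Gam G x v (Gam G x u v)) l := by
  set C := christoffel G x with hC
  set P : Fin n → Fin n → Fin n → ℝ := fun a i j => pderiv a (fun y => christoffel G y l i j) x with hP
  have e1 : fderiv ℝ (fun y => Gam G y v v) x u l = ∑ k, ∑ i, ∑ j, P i j k * v k * u i * v j := by
    rw [c2_fderiv_gam h hx, c2_sum3 (fun k i j => P i j k * v k * u i * v j),
      c2_sum3 (fun i j k => P i j k * v k * u i * v j)]
    refine Finset.sum_congr rfl fun j _ => Finset.sum_congr rfl fun k _ => ?_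
    simp only [Finset.sum_mul]
    exact Finset.sum_congr rfl fun i _ => by simp only [hP]; ring
  have e2 : fderiv ℝ (fun y => Gam G y u v) x v l = ∑ k, ∑ i, ∑ j, P j i k * v k * u i * v j := by
    rw [c2_fderiv_gam h hx, c2_sum3 (fun k i j => P j i k * v k * u i * v j)]
    refine Finset.sum_congr rfl fun i _ => ?_
    rw [Finset.sum_comm (f := fun j k => P j i k * v k * u i * v j)]
    refine Finset.sum_congr rfl fun k _ => ?_
    simp only [Finset.sum_mul]
    exact Finset.sum_congr rfl fun j _ => by simp only [hP]; ring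
  have e3 : Gam G x u (Gam G x v v) l =
      ∑ k, ∑ i, ∑ j, (∑ a, C l i a * C a j k) * v k * u i * v j := by
    rw [c2_sum3 (fun k i j => (∑ a, C l i a * C a j k) * v k * u i * v j)]
    simp only [Gam, ← hC]
    refine Finset.sum_congr rfl fun i _ => ?_
    simp only [Finset.sum_mul, Finset.mul_sum]
    rw [c2_sum3]
    refine Finset.sum_congr rfl fun j _ => Finset.sum_congr rfl fun k _ =>
      Finset.sum_congr rfl fun a _ => by ring
  have e4 : Gam G x v (Gam G x u v) l =
      ∑ k, ∑ i, ∑ j, (∑ a, C l j a * C a i k) * v k * u i * v j := by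
    rw [c2_sum3 (fun k i j => (∑ a, C l j a * C a i k) * v k * u i * v j),
      Finset.sum_comm (f := fun i j => ∑ k, (∑ a, C l j a * C a i k) * v k * u i * v j)]
    simp only [Gam, ← hC]
    refine Finset.sum_congr rfl fun j _ => ?_
    simp only [Finset.sum_mul, Finset.mul_sum]
    rw [c2_sum3]
    refine Finset.sum_congr rfl fun i _ => Finset.sum_congr rfl fun k _ =>
      Finset.sum_congr rfl fun a _ => by ring
  rw [PiLp.sub_apply, PiLp.add_apply, PiLp.sub_apply, e1, e2, e3, e4]
  simp only [← Finset.sum_sub_distrib, ← Finset.sum_add_distrib]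
  refine Finset.sum_congr rfl fun k _ => Finset.sum_congr rfl fun i _ =>
    Finset.sum_congr rfl fun j _ => ?_
  simp only [riemann, Finset.sum_sub_distrib, hP, ← hC]
  ring

theorem jacobi_iff_lin (h : IsRiemannianOn G U) {c j : ℝ → E n} {s : ℝ} (hs : c s ∈ U)
    (hc : ContDiffAt ℝ 2 c s) (hj : ContDiffAt ℝ 2 j s) (hg : GeodesicEqAt G c s) :
    JacobiEqAt G c j s ↔ Lin G c j s := by
  have hd1 : ∀ {f : ℝ → E n}, ContDiffAt ℝ 2 f s → HasDerivAt f (deriv f s) s := fun hf =>
    (hf.differentiableAt (by norm_num)).hasDerivAt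
  have hd2 : ∀ {f : ℝ → E n}, ContDiffAt ℝ 2 f s → HasDerivAt (deriv f) (deriv (deriv f) s) s := by
    intro f hf
    have : ContDiffAt ℝ 1 (deriv f) s := hf.derivWithin (by norm_num)
    exact (this.differentiableAt (by norm_num)).hasDerivAt
  have hcov : covDeriv G c j = fun t => deriv j t + Gam G (c t) (deriv c t) (j t) :=
    funext fun t => covDeriv_eq G c j t
  have hder := ((hd2 hj).add (hasDerivAt_gam h hs (hd1 hc) (hd2 hc) (hd1 hj))).deriv
  have hgeo := (geo_iff G c s).1 hg
  have hsym : (fun y => Gam G y (deriv c s) (j s)) =ᶠ[𝓝 (c s)] fun y => Gam G y (j s) (deriv c s) := by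
    filter_upwards [h.isOpen.mem_nhds hs] with y hy using gam_symm h hy _ _
  have hDD : covDeriv G c (covDeriv G c j) s = deriv (deriv j) s +
      (fderiv ℝ (fun y => Gam G y (j s) (deriv c s)) (c s) (deriv c s) +
        Gam G (c s) (deriv (deriv c) s) (j s) + Gam G (c s) (deriv c s) (deriv j s)) +
      (Gam G (c s) (deriv c s) (deriv j s) +
        Gam G (c s) (deriv c s) (Gam G (c s) (j s) (deriv c s))) := by
    rw [covDeriv_eq G c (covDeriv G c j) s, covDeriv_eq G c j s, gam_add_right,
      gam_symm h hs (deriv c s) (j s), ← hsym.fderiv_eq, ← hder, hcov]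
    rfl
  have hz : Gam G (c s) (deriv (deriv c) s) (j s) +
      Gam G (c s) (j s) (Gam G (c s) (deriv c s) (deriv c s)) = 0 := by
    rw [gam_symm h hs (deriv (deriv c) s) (j s), ← gam_add_right, hgeo, gam_zero_right]
  have key : covDeriv G c (covDeriv G c j) s +
      (fderiv ℝ (fun y => Gam G y (deriv c s) (deriv c s)) (c s) (j s) -
        fderiv ℝ (fun y => Gam G y (j s) (deriv c s)) (c s) (deriv c s) +
        Gam G (c s) (j s) (Gam G (c s) (deriv c s) (deriv c s)) -
        Gam G (c s) (deriv c s) (Gam G (c s) (j s) (deriv c s))) =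
      deriv (deriv j) s + fderiv ℝ (fun x => Gam G x (deriv c s) (deriv c s)) (c s) (j s) +
        (2 : ℝ) • Gam G (c s) (deriv c s) (deriv j s) := by
    rw [hDD, two_smul, eq_neg_of_add_eq_zero_left hz]
    abel
  unfold JacobiEqAt Lin
  rw [← key]
  simp only [riem_eq h hs]
  constructor
  · intro H
    ext l
    rw [PiLp.add_apply]
    exact H l
  · intro H l
    rw [← PiLp.add_apply, H]
    rfl

end Crest.Agent.R244
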