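import Crest.Agent.R244.Calc1

/-!
# R244 / Calc3 : invariance under local isometries

`gam_pull`: pair both sides with `dφ w` for `G'` at `φ x`.  Left: `ip G x (Γ(u,v)) w` (`pull`) `=` Koszul
for `G`.  Near `x`, `ip G y v w = ip G' (φ y) (dφ_y v) (dφ_y w)`, hence (chain rule, `ip_smooth`)
`dG G x u v w = dG G' (φ x) (dφ u) (dφ v) (dφ w) + ip' (d²φ(u,v)) (dφ w) + ip' (dφ v) (d²φ(u,w))`; the
second derivative is symmetric (`ContDiffAt.isSymmSndFDerivAt`), so the Koszul combination is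
`ip' (d²φ(u,v) + Γ'(dφ u, dφ v)) (dφ w)`.  `dφ_x` is injective (`ip_pos`) hence surjective; `ip_ext`.

`lin_pull`: let `S (x,u) = (u, -Γ(x)(u,u))`, `T (x,u) = (φ x, dφ_x u)` on `U × E n`.  `gam_pull` says
`DT(X) (S X) = S' (T X)` for all `X ∈ U × E n`; differentiate this identity at `X = (c s, c' s)` in the
direction `Y = (j s, j' s)`.  With `X t = (c t, c' t)`, `Y t = (j t, j' t)`:
`((φ∘c) t, (φ∘c)' t) = T (X t)` and `(j̃ t, j̃' t) = DT(X t) (Y t)` for `t` near `s` (symmetry of `d²φ`),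
so `(j̃, j̃')'(s) = D²T(X)(X', Y) + DT(X) Y'` with `X' = S X` (geodesic equation at `s`) and
`Y' = DS(X) Y` (`Lin` at `s`); by the symmetry of `D²T` this is `D[DT S](X) Y = DS'(T X) (DT(X) Y)`,
whose second component is `Lin G' …`.  (Any other route is fine.)
-/

set_option autoImplicit false

noncomputable section

open scoped ContDiff Manifold Topology
open Set Crest.GeometryTopology.CoordMetric Crest.GeometryTopology.ChartCurvature
open Crest.GeometryTopology.Geodesic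

namespace Crest.Agent.R244

variable {n : ℕ} {G G' : MetricField n} {φ : E n → E n} {U V : Set (E n)}

theorem c3_contDiffAt (h : LocIso G G' φ U V) {x : E n} (hx : x ∈ U) : ContDiffAt ℝ ∞ φ x :=
  h.smooth.contDiffAt (h.riem.isOpen.mem_nhds hx)

theorem c3_diffAt (h : LocIso G G' φ U V) {x : E n} (hx : x ∈ U) : DifferentiableAt ℝ φ x :=
  (c3_contDiffAt h hx).differentiableAt (by simp)

theorem c3_diffAt2 (h : LocIso G G' φ U V) {x : E n} (hx : x ∈ U) :
    DifferentiableAt ℝ (fderiv ℝ φ) x :=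
  ((c3_contDiffAt h hx).fderiv_right (m := 1)
    (WithTop.coe_le_coe.2 (le_top : ((1 : ℕ∞) + 1) ≤ ⊤))).differentiableAt one_ne_zero

theorem c3_fderiv_apply (h : LocIso G G' φ U V) {x : E n} (hx : x ∈ U) (u v : E n) :
    fderiv ℝ (fun y => fderiv ℝ φ y v) x u = fderiv ℝ (fderiv ℝ φ) x u v := by
  rw [fderiv_clm_apply (c3_diffAt2 h hx) (differentiableAt_const v)]
  simp

theorem c3_symm (h : LocIso G G' φ U V) {x : E n} (hx : x ∈ U) (u v : E n) :
    fderiv ℝ (fun y => fderiv ℝ φ y v) x u = fderiv ℝ (fun y => fderiv ℝ φ y u) x v := by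
  rw [c3_fderiv_apply h hx, c3_fderiv_apply h hx]
  exact (c3_contDiffAt h hx).isSymmSndFDerivAt
    (by rw [minSmoothness_of_isRCLikeNormedField]; exact WithTop.coe_le_coe.2 (le_top : (2 : ℕ∞) ≤ ⊤)) u v

theorem c3_dG_pull (h : LocIso G G' φ U V) {x : E n} (hx : x ∈ U) (u v w : E n) :
    dG G x u v w = dG G' (φ x) (fderiv ℝ φ x u) (fderiv ℝ φ x v) (fderiv ℝ φ x w) +
      ip G' (φ x) (fderiv ℝ (fun y => fderiv ℝ φ y v) x u) (fderiv ℝ φ x w) +
      ip G' (φ x) (fderiv ℝ φ x v) (fderiv ℝ (fun y => fderiv ℝ φ y w) x u) := by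
  have hl : HasDerivAt (fun t : ℝ => x + t • u) u 0 := by
    simpa using ((hasDerivAt_id (0 : ℝ)).smul_const u).const_add x
  have h0 : x + (0 : ℝ) • u = x := by simp
  have hx' : x + (0 : ℝ) • u ∈ U := by rwa [h0]
  have h1 := hasDerivAt_ip' h.riem (c := fun t : ℝ => x + t • u) hx' hl (hasDerivAt_const 0 v)
    (hasDerivAt_const 0 w)
  have h2 : HasDerivAt (fun t : ℝ => φ (x + t • u)) (fderiv ℝ φ (x + (0 : ℝ) • u) u) 0 :=
    HasFDerivAt.comp_hasDerivAt (l := φ) (f := fun t : ℝ => x + t • u) 0 (c3_diffAt h hx').hasFDerivAt hl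
  have h3 : ∀ z, HasDerivAt (fun t : ℝ => fderiv ℝ φ (x + t • u) z)
      (fderiv ℝ (fun y => fderiv ℝ φ y z) (x + (0 : ℝ) • u) u) 0 := fun z =>
    HasFDerivAt.comp_hasDerivAt (l := fun y => fderiv ℝ φ y z) (f := fun t : ℝ => x + t • u) 0
      ((c3_diffAt2 h hx').clm_apply (differentiableAt_const z)).hasFDerivAt hl
  have h4 := hasDerivAt_ip' h.riem' (c := fun t : ℝ => φ (x + t • u)) (h.maps hx') h2 (h3 v) (h3 w)
  have h5 : (fun t : ℝ => ip G (x + t • u) v w) =ᶠ[𝓝 0] fun t : ℝ =>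
      ip G' (φ (x + t • u)) (fderiv ℝ φ (x + t • u) v) (fderiv ℝ φ (x + t • u) w) := by
    filter_upwards [hl.continuousAt.eventually (h.riem.isOpen.mem_nhds hx')] with t ht
    exact h.pull _ ht v w
  have h6 := h1.unique (h4.congr_of_eventuallyEq h5)
  simpa only [h0, ip_zero_left, ip_zero_right, add_zero] using h6

theorem LocIso.fderiv_injective (h : LocIso G G' φ U V) {x : E n} (hx : x ∈ U) :
    Function.Injective (fderiv ℝ φ x) := by
  rw [injective_iff_map_eq_zero]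
  intro u hu
  by_contra h0
  have h1 := ip_pos h.riem hx h0
  rw [h.pull x hx, hu, ip_zero_left] at h1
  exact lt_irrefl _ h1

theorem LocIso.fderiv_surjective (h : LocIso G G' φ U V) {x : E n} (hx : x ∈ U) :
    Function.Surjective (fderiv ℝ φ x) := by
  exact LinearMap.surjective_of_injective (f := (fderiv ℝ φ x : E n →ₗ[ℝ] E n)) (h.fderiv_injective hx)

theorem gam_pull (h : LocIso G G' φ U V) {x : E n} (hx : x ∈ U) (u v : E n) :
    fderiv ℝ φ x (Gam G x u v) =
      fderiv ℝ (fun y => fderiv ℝ φ y v) x u +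
        Gam G' (φ x) (fderiv ℝ φ x u) (fderiv ℝ φ x v) := by
  refine ip_ext h.riem' (h.maps hx) fun w' => ?_
  obtain ⟨w, rfl⟩ := h.fderiv_surjective hx w'
  rw [← h.pull x hx, ip_gam h.riem hx, ip_add_left, ip_gam h.riem' (h.maps hx), c3_dG_pull h hx,
    c3_dG_pull h hx, c3_dG_pull h hx, c3_symm h hx v u, c3_symm h hx w u, c3_symm h hx w v,
    ip_symm h.riem' (h.maps hx) (fderiv ℝ φ x v), ip_symm h.riem' (h.maps hx) (fderiv ℝ φ x u)]
  ring

theorem cov_pull (h : LocIso G G' φ U V) {c W : ℝ → E n} {s : ℝ} (hs : c s ∈ U)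
    (hc : DifferentiableAt ℝ c s) (hW : DifferentiableAt ℝ W s) :
    covDeriv G' (fun t => φ (c t)) (fun t => fderiv ℝ φ (c t) (W t)) s =
      fderiv ℝ φ (c s) (covDeriv G c W s) := by
  have h1 : HasDerivAt (fun t => φ (c t)) (fderiv ℝ φ (c s) (deriv c s)) s :=
    (c3_diffAt h hs).hasFDerivAt.comp_hasDerivAt s hc.hasDerivAt
  have h2 : HasDerivAt (fun t => fderiv ℝ φ (c t)) (fderiv ℝ (fderiv ℝ φ) (c s) (deriv c s)) s :=
    (c3_diffAt2 h hs).hasFDerivAt.comp_hasDerivAt s hc.hasDerivAt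
  have h3 := h2.clm_apply hW.hasDerivAt
  rw [covDeriv_eq, covDeriv_eq, h1.deriv, h3.deriv, map_add, gam_pull h hs, c3_fderiv_apply h hs]
  abel

theorem geo_pull (h : LocIso G G' φ U V) {c : ℝ → E n} {s : ℝ} (hs : c s ∈ U)
    (hc : ContDiffAt ℝ 2 c s) (hg : GeodesicEqAt G c s) :
    GeodesicEqAt G' (fun t => φ (c t)) s := by
  rw [geo_iff, ← covDeriv_eq] at hg
  have hc1 : DifferentiableAt ℝ c s := hc.differentiableAt (by norm_num)
  have hc2 : DifferentiableAt ℝ (deriv c) s := by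
    have : ContDiffAt ℝ 1 (deriv c) s := by
      have h1 := (hc.fderiv_right (m := 1) (by norm_num)).clm_apply (contDiffAt_const (c := (1 : ℝ)))
      exact h1
    exact this.differentiableAt one_ne_zero
  have h1 := cov_pull h hs hc1 hc2
  rw [hg, map_zero, covDeriv_eq] at h1
  have h2 : deriv (fun t => φ (c t)) =ᶠ[𝓝 s] fun t => fderiv ℝ φ (c t) (deriv c t) := by
    filter_upwards [hc.eventually (by norm_num),
      hc1.continuousAt.eventually (h.riem.isOpen.mem_nhds hs)] with t ht ht'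
    exact ((c3_diffAt h ht').hasFDerivAt.comp_hasDerivAt t
      (ht.differentiableAt (by norm_num)).hasDerivAt).deriv
  rw [geo_iff, h2.deriv_eq]
  rwa [← h2.eq_of_nhds] at h1

end Crest.Agent.R244
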