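import Crest.Agent.R244.Calc0

/-!
# R244 / Chart0 : the metric in a chart; chart changes are local isometries; representations of curves

Hints.  `(chartAt x).symm` is `C^∞` on the target (`contMDiffOn_chart_symm`), so
`y ↦ (⟨(chartAt x).symm y, mfderiv (chartAt x).symm y e⟩ : TangentBundle)` is a smooth section along it
(`ContMDiffOn.contMDiffOn_tangentMapWithin`, or `ContMDiffAt.mfderiv_const`/`inCoordinates`; note that in
the trivialization of the tangent bundle at `x` this section is the constant `e`:
`TangentBundle.continuousLinearMapAt_trivializationAt`, `TangentBundle.symmL_trivializationAt`,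
`mfderiv_extChartAt_comp_mfderivWithin_extChartAt_symm`); smoothness of the inner product:
`letI : RiemannianBundle _ := ⟨g.toRiemannianMetric⟩`, `ContMDiffWithinAt.inner_bundle`
(instance `IsContMDiffRiemannianBundle` from `g`), or `g.contMDiff` with `ContMDiffAt.clm_bundle_apply₂`.
Positivity: `g.pos`, `g.symm`, and `mfderiv (chartAt x).symm y` is injective
(`(mdifferentiable_chart x).symm.mfderiv_injective`, `OpenPartialHomeomorph.MDifferentiable.*`).
-/

set_option autoImplicit false

noncomputable section

open scoped ContDiff Manifold Topology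
open Set Crest.GeometryTopology.CoordMetric Crest.GeometryTopology.ChartCurvature
open Crest.GeometryTopology.Geodesic

namespace Crest.Agent.R244

variable {n : ℕ} {M : Type*} [TopologicalSpace M] [ChartedSpace (E n) M]
  [IsManifold 𝓘(ℝ, E n) ∞ M]

/-- the derivative of the preferred chart at `x`, at the point `m` -/
def dch (x m : M) : E n →L[ℝ] E n := mfderiv 𝓘(ℝ, E n) 𝓘(ℝ, E n) (chartAt (E n) x) m

/-- the curve `γ` in the preferred chart at `x` -/
def cRep (γ : ℝ → M) (x : M) : ℝ → E n := fun s => chartAt (E n) x (γ s)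

/-- the field `J` along `γ` in the preferred chart at `x` -/
def jRep (γ : ℝ → M) (J : ℝ → E n) (x : M) : ℝ → E n := fun s => dch x (γ s) (J s)

/-- the chart change from the preferred chart at `x` to the one at `x'` -/
def chg (x x' : M) : E n → E n := fun y => chartAt (E n) x' ((chartAt (E n) x).symm y)

/-- its domain -/
def chgDom (n : ℕ) [ChartedSpace (E n) M] (x x' : M) : Set (E n) :=
  (chartAt (E n) x).target ∩ (chartAt (E n) x).symm ⁻¹' (chartAt (E n) x').source

/-- the derivative of the inverse chart -/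
def ch0_dinv (x : M) (y : E n) : E n →L[ℝ] E n := mfderiv 𝓘(ℝ, E n) 𝓘(ℝ, E n) (chartAt (E n) x).symm y

theorem ch0_expand (u : E n) : u = ∑ i, u i • (EuclideanSpace.single i (1 : ℝ) : E n) := by
  conv_lhs => rw [← (EuclideanSpace.basisFun (Fin n) ℝ).sum_repr u]
  simp

theorem ch0_ip (g : Met n M) (x : M) (y u v : E n) :
    ip (metricInChart g x) y u v =
      g.inner ((chartAt (E n) x).symm y) (ch0_dinv x y u) (ch0_dinv x y v) := by
  let q : E n →L[ℝ] E n →L[ℝ] ℝ := g.inner ((chartAt (E n) x).symm y)
  have hG : ∀ i j, metricInChart g x y i j =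
      q (ch0_dinv x y (EuclideanSpace.single i 1)) (ch0_dinv x y (EuclideanSpace.single j 1)) :=
    fun i j => rfl
  change _ = q _ _
  conv_rhs => rw [ch0_expand u, ch0_expand v]
  simp only [ip, map_sum, map_smul, sum_apply, smul_apply, smul_eq_mul, hG]
  rw [Finset.sum_comm]
  refine Finset.sum_congr rfl fun j _ => ?_
  rw [Finset.mul_sum]
  exact Finset.sum_congr rfl fun i _ => by ring

theorem ch0_section (x : M) (e : E n) :
    ContMDiffOn 𝓘(ℝ, E n) (𝓘(ℝ, E n).prod 𝓘(ℝ, E n)) ∞
      (fun y => Bundle.TotalSpace.mk' (E n) (E := fun m : M => TangentSpace 𝓘(ℝ, E n) m)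
        ((chartAt (E n) x).symm y) (ch0_dinv x y e)) (chartAt (E n) x).target := by
  have hb : ContMDiffOn 𝓘(ℝ, E n) 𝓘(ℝ, E n) ∞ (chartAt (E n) x).symm (chartAt (E n) x).target :=
    contMDiffOn_chart_symm
  have h1 := hb.contMDiffOn_tangentMapWithin (m := ∞) (by simp) (chartAt (E n) x).open_target.uniqueMDiffOn
  have h2 : ContMDiff 𝓘(ℝ, E n) 𝓘(ℝ, E n).tangent ∞
      (fun y : E n => (⟨y, e⟩ : TangentBundle 𝓘(ℝ, E n) (E n))) :=
    contMDiff_vectorSpace_iff_contDiff.2 contDiff_const
  refine (h1.comp h2.contMDiffOn fun y hy => hy).congr fun y hy => ?_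
  simp only [Function.comp_apply, tangentMapWithin, ch0_dinv]
  rw [mfderivWithin_of_isOpen (chartAt (E n) x).open_target hy]
  rfl

theorem metricInChart_riem (g : Met n M) (x : M) :
    IsRiemannianOn (metricInChart g x) (chartAt (E n) x).target := by
  refine ⟨(chartAt (E n) x).open_target, fun i j => ?_, fun y hy => ?_⟩
  · have hb : ContMDiffOn 𝓘(ℝ, E n) 𝓘(ℝ, E n) ∞ (chartAt (E n) x).symm (chartAt (E n) x).target :=
      contMDiffOn_chart_symm
    have h : ContMDiffOn 𝓘(ℝ, E n) (𝓘(ℝ, E n).prod 𝓘(ℝ)) ∞
        (fun y => Bundle.TotalSpace.mk' ℝ (E := Bundle.Trivial M ℝ) ((chartAt (E n) x).symm y)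
          (g.inner ((chartAt (E n) x).symm y) (ch0_dinv x y (EuclideanSpace.single i 1))
            (ch0_dinv x y (EuclideanSpace.single j 1)))) (chartAt (E n) x).target := by
      apply ContMDiffOn.clm_bundle_apply₂ (F₁ := E n) (F₂ := E n)
      · exact g.contMDiff.comp_contMDiffOn hb
      · exact ch0_section x _
      · exact ch0_section x _
    rw [← contMDiffOn_iff_contDiffOn]
    intro y hy
    have h1 := h y hy
    simp only [Bundle.contMDiffWithinAt_totalSpace] at h1
    exact h1.2
  · refine Matrix.PosDef.of_dotProduct_mulVec_pos ?_ fun v hv => ?_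
    · ext i j
      exact g.symm _ _ _
    · have h1 := ch0_ip g x y (WithLp.toLp 2 v) (WithLp.toLp 2 v)
      have h2 : ch0_dinv x y (WithLp.toLp 2 v) ≠ 0 := fun h0 => hv <| by
        have hinj := (mdifferentiable_chart (I := 𝓘(ℝ, E n)) x).symm.mfderiv_injective (x := y) hy
        have : (WithLp.toLp 2 v : E n) = 0 := hinj (h0.trans (map_zero _).symm)
        exact congrArg WithLp.ofLp this
      have h3 := g.pos ((chartAt (E n) x).symm y) _ h2
      rw [← h1] at h3
      refine h3.trans_eq ?_
      simp only [ip, dotProduct, Matrix.mulVec, star_trivial, Finset.mul_sum]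
      exact Finset.sum_congr rfl fun i _ => Finset.sum_congr rfl fun j _ => by ring

theorem inner_eq_ip (g : Met n M) {x m : M} (hm : m ∈ (chartAt (E n) x).source) (u v : E n) :
    g.inner m u v = ip (metricInChart g x) (chartAt (E n) x m) (dch x m u) (dch x m v) := by
  rw [ch0_ip]
  have h := (mdifferentiable_chart (I := 𝓘(ℝ, E n)) x).symm_comp_deriv hm
  have h1 : ∀ w : E n, ch0_dinv x (chartAt (E n) x m) (dch x m w) = w := fun w =>
    congrArg (fun L : E n →L[ℝ] E n => L w) h
  rw [h1, h1]
  have key : ∀ m' : M, m' = m → g.inner m u v = g.inner m' u v := by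
    rintro _ rfl
    rfl
  exact key _ ((chartAt (E n) x).left_inv hm)

theorem dch_injective {x m : M} (hm : m ∈ (chartAt (E n) x).source) :
    Function.Injective (dch (n := n) x m) := by
  exact (mdifferentiable_chart (I := 𝓘(ℝ, E n)) x).mfderiv_injective hm

theorem dch_surjective {x m : M} (hm : m ∈ (chartAt (E n) x).source) :
    Function.Surjective (dch (n := n) x m) := by
  exact (mdifferentiable_chart (I := 𝓘(ℝ, E n)) x).mfderiv_surjective hm

theorem dch_self (x : M) (u : E n) : dch x x u = u := by
  have h := mfderiv_extChartAt_self (I := 𝓘(ℝ, E n)) (x := x)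
  exact congrArg (fun L : E n →L[ℝ] E n => L u) h

end Crest.Agent.R244
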