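import Crest.Prelude.Def_Geodesic

/-!
# R244 / Defs : definitions for row 244 (S0377), owner helper79

`M` = two flat 3-tori with a tube removed, glued along a neck `(-2,5) × T²` with metric
`dr² + α(r)² (dξ - σ(r) dζ)² + β(r)² dζ²`.
* `Calc*`  : coordinate calculus (Christoffel map `Gam`, linearised geodesic equation `Lin`, invariance
  under local isometries `LocIso`), and the passage manifold → charts (`Chart`).
* `M*` (helper8): the model manifold (`Iface.model`).  `CH*` (helper36): Cartan–Hadamard.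
  `T*` (helper98): no metric of non-positive curvature.  `A*` (helper79): no conjugate points.
-/

set_option autoImplicit false

noncomputable section

open scoped ContDiff Manifold Topology
open Set Crest.GeometryTopology.CoordMetric Crest.GeometryTopology.ChartCurvature
open Crest.GeometryTopology.Geodesic

namespace Crest.Agent.R244

/-- the model space -/
abbrev E (n : ℕ) : Type := EuclideanSpace ℝ (Fin n)

variable {n : ℕ}

/-- the inner product of the metric field at `x` -/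
def ip (G : MetricField n) (x u v : E n) : ℝ := ∑ i, ∑ j, G x i j * u i * v j

/-- the Christoffel map `Γ(x)(u,v)` -/
def Gam (G : MetricField n) (x u v : E n) : E n :=
  WithLp.toLp 2 fun k => ∑ i, ∑ j, christoffel G x k i j * u i * v j

/-- the linearised geodesic equation along `c` for the field `j` at the parameter `s` -/
def Lin (G : MetricField n) (c j : ℝ → E n) (s : ℝ) : Prop :=
  deriv (deriv j) s + fderiv ℝ (fun x => Gam G x (deriv c s) (deriv c s)) (c s) (j s) +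
    (2 : ℝ) • Gam G (c s) (deriv c s) (deriv j s) = 0

/-- `φ` is a smooth local isometry from `(U, G)` to `(V, G')` -/
structure LocIso (G G' : MetricField n) (φ : E n → E n) (U V : Set (E n)) : Prop where
  riem : IsRiemannianOn G U
  riem' : IsRiemannianOn G' V
  maps : MapsTo φ U V
  smooth : ContDiffOn ℝ ∞ φ U
  pull : ∀ x ∈ U, ∀ u v, ip G x u v = ip G' (φ x) (fderiv ℝ φ x u) (fderiv ℝ φ x v)

/-- smooth Riemannian metrics on `M` -/
abbrev Met (n : ℕ) (M : Type*) [TopologicalSpace M] [ChartedSpace (E n) M]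
    [IsManifold 𝓘(ℝ, E n) ∞ M] : Type _ :=
  Bundle.ContMDiffRiemannianMetric 𝓘(ℝ, E n) ∞ (E n) (fun x : M => TangentSpace 𝓘(ℝ, E n) x)

/-! ## The neck -/

/-- the neck metric `dr² + α² (dξ - σ dζ)² + β² dζ²` in the coordinates `(r, ξ, ζ)` -/
def GN (α β σ : ℝ → ℝ) : MetricField 3 := fun x =>
  !![1, 0, 0;
     0, α (x 0) ^ 2, -(α (x 0) ^ 2 * σ (x 0));
     0, -(α (x 0) ^ 2 * σ (x 0)), α (x 0) ^ 2 * σ (x 0) ^ 2 + β (x 0) ^ 2]

/-- What the construction of the manifold uses about the warping functions. -/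
structure Warp (α β σ : ℝ → ℝ) (cL cR : ℝ) : Prop where
  sα : ContDiff ℝ ∞ α
  sβ : ContDiff ℝ ∞ β
  sσ : ContDiff ℝ ∞ σ
  αpos : ∀ r, 0 < α r
  βpos : ∀ r, 0 < β r
  αL : ∀ r ≤ 0, α r = α 0
  σL : ∀ r ≤ 0, σ r = 0
  βL : ∀ r ≤ -1, β r = 2 * Real.pi * (cL - r)
  βR : ∀ r, 3 ≤ r → β r = β 3
  σR : ∀ r, 3 ≤ r → σ r = 1
  αR : ∀ r, 4 ≤ r → α r = 2 * Real.pi * (r + cR)
  hcL : 5 < cL
  hcR : 2 < cR

/-- `e(x) = exp (2πi x)` -/
def ee (x : ℝ) : ℂ := Complex.exp (2 * Real.pi * x * Complex.I)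

/-- What part `T` uses about the topology of the model.  `Φ (r, ξ, ζ)` is the neck, continued radially
into the two flat pieces up to the boundary of the fundamental squares (reached for `r = tL`, `tR`);
the polar angles are `2π ζ` on the left and `2π (ξ - ζ)` on the right, the fibre coordinates are `ξ`
and `ζ`. -/
structure TopData (M : Type) [TopologicalSpace M] where
  Φ : ℝ × ℝ × ℝ → M
  cont : Continuous Φ
  per1 : ∀ r ξ ζ, Φ (r, ξ + 1, ζ) = Φ (r, ξ, ζ)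
  per2 : ∀ r ξ ζ, Φ (r, ξ, ζ + 1) = Φ (r, ξ, ζ)
  tL : ℝ
  tR : ℝ
  L1 : ∀ ξ θ, |θ| ≤ 1 / 8 → Φ (tL, ξ, θ) = Φ (tL, ξ, 1 / 2 - θ)
  L2 : ∀ ξ θ, 1 / 8 ≤ θ → θ ≤ 3 / 8 → Φ (tL, ξ, θ) = Φ (tL, ξ, -θ)
  R1 : ∀ ζ θ, |θ| ≤ 1 / 8 → Φ (tR, ζ + θ, ζ) = Φ (tR, ζ + (1 / 2 - θ), ζ)
  R2 : ∀ ζ θ, 1 / 8 ≤ θ → θ ≤ 3 / 8 → Φ (tR, ζ + θ, ζ) = Φ (tR, ζ + -θ, ζ)
  κ : M → ℝ
  A1 : M → ℂ
  A2 : M → ℂ
  B1 : M → ℂ
  B2 : M → ℂ
  cκ : Continuous κ
  cA1 : Continuous A1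
  cA2 : Continuous A2
  cB1 : Continuous B1
  cB2 : Continuous B2
  shape : ∀ x, ∃ ξ ζ x1 x2 : ℝ, -1 ≤ κ x ∧ κ x ≤ 4 ∧ A1 x = (4 - κ x : ℝ) * ee ξ ∧
    A2 x = (κ x + 1 : ℝ) * ee ζ ∧ B1 x = (κ x + 1 : ℝ) * ee x1 ∧ B2 x = (κ x + 1 : ℝ) * ee x2 ∧
    (κ x = 4 → ¬ (ee x1 = 1 ∧ ee x2 = 1)) ∧
    (κ x < 4 → κ x = -1 ∨ ∃ ρ : ℝ, 0 < ρ ∧ ρ < 1 / 2 ∧
      x1 = ρ * Real.cos (2 * Real.pi * (ξ - ζ)) ∧ x2 = ρ * Real.sin (2 * Real.pi * (ξ - ζ)))
  loopκ : ∀ ξ ζ, κ (Φ (tL, ξ, ζ)) = -1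
  loopA : ∀ ξ ζ, A1 (Φ (tL, ξ, ζ)) = 5 * ee ξ

/-- What part `A` uses about the model: the preferred charts at points of the open set `Nk` are neck
coordinates, the other preferred charts are flat. -/
structure GeoData (α β σ : ℝ → ℝ) {M : Type} [TopologicalSpace M] [ChartedSpace (E 3) M]
    [IsManifold 𝓘(ℝ, E 3) ∞ M] (g : Met 3 M) where
  Nk : Set M
  κ : M → ℝ
  cκ : Continuous κ
  src : ∀ x ∈ Nk, (chartAt (E 3) x).source ⊆ Nk
  met : ∀ x ∈ Nk, ∀ y ∈ (chartAt (E 3) x).target, metricInChart g x y = GN α β σ y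
  trans : ∀ x ∈ Nk, ∀ x' ∈ Nk, ∀ z ∈ (chartAt (E 3) x).source ∩ (chartAt (E 3) x').source,
    ∃ l : E 3, l 0 = 0 ∧ ∀ᶠ m in 𝓝 z, chartAt (E 3) x' m = chartAt (E 3) x m + l
  κN : ∀ x ∈ Nk, κ x = max (-1) (min 4 (chartAt (E 3) x x 0))
  κF : ∀ x, x ∉ Nk → κ x = -1 ∨ κ x = 4
  flat : ∀ x, x ∉ Nk → ∃ G0 : Matrix (Fin 3) (Fin 3) ℝ,
    ∀ y ∈ (chartAt (E 3) x).target, metricInChart g x y = G0

end Crest.Agent.R244
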