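import Crest.Agent.R244.Iface

/-!
# R244 / MDefs : definitions for part `M` (the model manifold), sub-lead helper8

Generic part: `Glue` = open pieces `Ω i ⊆ ℝⁿ` with metrics `G i` and "normal form" maps `nf i` into a
Hausdorff space `Z`, such that whenever `nf i x = nf j y` there is a local orientation preserving
isometry `τ` with `nf j ∘ τ = nf i` near `x` (`Tr`).  `Glued` = the manifold obtained from it
(`MGlue.lean`, `MMetric.lean`).

Concrete part: the three pieces `N` (neck), `L`, `R` (flat tori minus tubes).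
-/

set_option autoImplicit false

noncomputable section

open scoped ContDiff Manifold Topology
open Set Crest.GeometryTopology.CoordMetric Crest.GeometryTopology.ChartCurvature
open Crest.GeometryTopology.Geodesic

namespace Crest.Agent.R244

/-! ## Generic gluing -/

/-- a local orientation preserving isometry `τ` from `(x, G)` to `(y, G')` with `f' ∘ τ = f` -/
def Tr {n : ℕ} {Z : Type} (G G' : MetricField n) (f f' : E n → Z) (x y : E n) : Prop :=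
  ∃ τ : E n → E n, τ x = y ∧ ContDiffAt ℝ ∞ τ x ∧ (∀ᶠ z in 𝓝 x, f' (τ z) = f z) ∧
    0 < LinearMap.det (fderiv ℝ τ x : E n →ₗ[ℝ] E n) ∧
    ∀ u v, ip G x u v = ip G' y (fderiv ℝ τ x u) (fderiv ℝ τ x v)

/-- gluing data -/
structure Glue (n : ℕ) (ι Z : Type) [TopologicalSpace Z] where
  Ω : ι → Set (E n)
  nf : ι → E n → Z
  G : ι → MetricField n
  riem : ∀ i, IsRiemannianOn (G i) (Ω i)
  cont : ∀ i, ContinuousOn (nf i) (Ω i)
  inj : ∀ i, ∀ x ∈ Ω i, ∃ U ∈ 𝓝 x, InjOn (nf i) U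
  tr : ∀ i j, ∀ x ∈ Ω i, ∀ y ∈ Ω j, nf i x = nf j y → Tr (G i) (G j) (nf i) (nf j) x y

/-- the glued manifold; the preferred charts at points of `q i0 (Ω i0)` are of type `i0` -/
structure Glued {n : ℕ} {ι Z : Type} [TopologicalSpace Z] (D : Glue n ι Z) (i0 : ι) (M : Type)
    [TopologicalSpace M] [ChartedSpace (E n) M] [IsManifold 𝓘(ℝ, E n) ∞ M] where
  val : M → Z
  q : ι → E n → M
  idx : M → ι
  g : Met n M
  cval : Continuous val
  ival : Function.Injective val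
  val_q : ∀ i, ∀ x ∈ D.Ω i, val (q i x) = D.nf i x
  cq : ∀ i, ContinuousOn (q i) (D.Ω i)
  tgt : ∀ m, (chartAt (E n) m).target ⊆ D.Ω (idx m)
  symm : ∀ m, ∀ y ∈ (chartAt (E n) m).target, (chartAt (E n) m).symm y = q (idx m) y
  pref : ∀ x ∈ D.Ω i0, idx (q i0 x) = i0
  met : ∀ m, ∀ y ∈ (chartAt (E n) m).target, metricInChart g m y = D.G (idx m) y
  ori : IsOrientable n M

/-! ## The three pieces -/

/-- the target of the normal forms -/
abbrev ZZ : Type := ℝ × (ℂ × ℂ × ℂ) × (ℂ × ℂ × ℂ)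

def clamp (r : ℝ) : ℝ := max (-1) (min 4 r)

def cs (θ : ℝ) : ℝ := Real.cos (2 * Real.pi * θ)

def sn (θ : ℝ) : ℝ := Real.sin (2 * Real.pi * θ)

def DL (cL : ℝ) : ℝ := 2 * (cL + 3)

def DR (cR : ℝ) : ℝ := 2 * (cR + 6)

def ρL (cL r : ℝ) : ℝ := (cL - r) / DL cL

def ρR (cR r : ℝ) : ℝ := (r + cR) / DR cR

/-- distance to the nearest integer -/
def nr (t : ℝ) : ℝ := ‖(t : UnitAddCircle)‖

/-- lattice vectors -/
def Lat (l : E 3) : Prop := ∀ i, ∃ k : ℤ, l i = k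

/-- normal form with given polar radii `a` (left) and `b` (right) -/
def nfg (a b r ξ ζ : ℝ) : ZZ :=
  (clamp r,
    (((4 - clamp r : ℝ) : ℂ) * ee ξ, ((4 - clamp r : ℝ) : ℂ) * ee (a * cs ζ),
      ((4 - clamp r : ℝ) : ℂ) * ee (a * sn ζ)),
    (((clamp r + 1 : ℝ) : ℂ) * ee ζ, ((clamp r + 1 : ℝ) : ℂ) * ee (b * cs (ξ - ζ)),
      ((clamp r + 1 : ℝ) : ℂ) * ee (b * sn (ξ - ζ))))

def nfN (cL cR : ℝ) (x : E 3) : ZZ := nfg (ρL cL (x 0)) (ρR cR (x 0)) (x 0) (x 1) (x 2)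

def nfL (y : E 3) : ZZ := (-1, (5 * ee (y 0), 5 * ee (y 1), 5 * ee (y 2)), (0, 0, 0))

def nfR (y : E 3) : ZZ := (4, (0, 0, 0), (5 * ee (y 0), 5 * ee (y 1), 5 * ee (y 2)))

def ΩN : Set (E 3) := {x | -2 < x 0 ∧ x 0 < 5}

/-- `ℝ³` minus the closed tubes of radius `ρ` around the lines `ℝ × ℤ²` -/
def ΩF (ρ : ℝ) : Set (E 3) := {y | ρ ^ 2 < nr (y 1) ^ 2 + nr (y 2) ^ 2}

/-- the flat metrics -/
def GF (a D : ℝ) : MetricField 3 := fun _ => !![a ^ 2, 0, 0; 0, D ^ 2, 0; 0, 0, D ^ 2]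

/-- cylindrical coordinates -/
def pol (φ ρ θ : ℝ) : E 3 := !₂[φ, ρ * cs θ, ρ * sn θ]

def TL (cL : ℝ) (x : E 3) : E 3 := pol (x 1) (ρL cL (x 0)) (x 2)

def TR (cR : ℝ) (x : E 3) : E 3 := pol (x 2) (ρR cR (x 0)) (x 1 - x 2)

/-- the radius of the boundary of the square `[-1/2,1/2]²` in the direction `2π θ` -/
def sqr (θ : ℝ) : ℝ := 1 / (2 * max |cs θ| |sn θ|)

/-- the normal form of `Φ` -/
def Φt (cL cR : ℝ) (p : ℝ × ℝ × ℝ) : ZZ :=
  nfg (min (ρL cL p.1) (sqr p.2.2)) (min (ρR cR p.1) (sqr (p.2.1 - p.2.2))) p.1 p.2.1 p.2.2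

/-- the compact box mapped onto `M` by `Φ` -/
def box (cL cR : ℝ) : Set (ℝ × ℝ × ℝ) := Icc (-cL - 6) (cR + 12) ×ˢ Icc 0 1 ×ˢ Icc 0 1

end Crest.Agent.R244
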