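import Crest.Agent.R244.MDefs

/-!
# R244 / MEe : elementary facts on `ee`, `cs`, `sn`, `nr`, `sqr`, `ρL`, `ρR`, `clamp`
-/

set_option autoImplicit false

noncomputable section

open scoped ContDiff Manifold Topology
open Set Crest.GeometryTopology.CoordMetric Crest.GeometryTopology.ChartCurvature
open Crest.GeometryTopology.Geodesic

namespace Crest.Agent.R244

theorem continuous_ee : Continuous ee := by
  unfold ee
  fun_prop

theorem ee_ne_zero (x : ℝ) : ee x ≠ 0 := by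
  exact Complex.exp_ne_zero _

theorem ee_add_int (x : ℝ) (k : ℤ) : ee (x + k) = ee x := by
  unfold ee
  rw [Complex.exp_eq_exp_iff_exists_int]
  exact ⟨k, by push_cast; ring⟩

/-- `Complex.exp_eq_exp_iff_exists_int`. -/
theorem ee_eq_iff (x y : ℝ) : ee x = ee y ↔ ∃ k : ℤ, y = x + k := by
  refine ⟨fun h => ?_, fun ⟨k, hk⟩ => by rw [hk, ee_add_int]⟩
  obtain ⟨k, hk⟩ := Complex.exp_eq_exp_iff_exists_int.1 h.symm
  refine ⟨k, ?_⟩
  have h1 := congrArg Complex.im hk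
  simp at h1
  have h2 : 2 * Real.pi * y = 2 * Real.pi * (x + k) := by linarith
  exact mul_left_cancel₀ (by positivity) h2

theorem eq_of_ee_eq {x y : ℝ} (hx : |x| < 1 / 2) (hy : |y| < 1 / 2) (h : ee x = ee y) : x = y := by
  obtain ⟨k, hk⟩ := (ee_eq_iff x y).1 h
  rw [abs_lt] at hx hy
  have h1 : (k : ℝ) < 1 := by linarith
  have h2 : (-1 : ℝ) < k := by linarith
  have h3 : k < 1 := by exact_mod_cast h1
  have h4 : -1 < k := by exact_mod_cast h2
  obtain rfl : k = 0 := by omega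
  simpa using hk.symm

theorem continuous_cs : Continuous cs := by
  unfold cs
  fun_prop

theorem continuous_sn : Continuous sn := by
  unfold sn
  fun_prop

theorem cs_add_int (θ : ℝ) (k : ℤ) : cs (θ + k) = cs θ := by
  unfold cs
  rw [← Real.cos_add_int_mul_two_pi (2 * Real.pi * θ) k]
  congr 1
  ring

theorem sn_add_int (θ : ℝ) (k : ℤ) : sn (θ + k) = sn θ := by
  unfold sn
  rw [← Real.sin_add_int_mul_two_pi (2 * Real.pi * θ) k]
  congr 1
  ring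

theorem cs_sq_add_sn_sq (θ : ℝ) : cs θ ^ 2 + sn θ ^ 2 = 1 := by
  exact Real.cos_sq_add_sin_sq _

theorem abs_cs_le (θ : ℝ) : |cs θ| ≤ 1 := by
  exact Real.abs_cos_le_one _

theorem abs_sn_le (θ : ℝ) : |sn θ| ≤ 1 := by
  exact Real.abs_sin_le_one _

theorem mee_ee (θ : ℝ) : ee θ = cs θ + sn θ * Complex.I := by
  unfold ee cs sn
  rw [Complex.ofReal_cos, Complex.ofReal_sin, ← Complex.exp_mul_I]
  push_cast
  rfl

/-- uniqueness of polar coordinates (`ee θ = cs θ + sn θ * I`). -/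
theorem polar_unique {a b θ θ' : ℝ} (ha : 0 < a) (hb : 0 < b) (h1 : a * cs θ = b * cs θ')
    (h2 : a * sn θ = b * sn θ') : a = b ∧ ∃ k : ℤ, θ' = θ + k := by
  have e1 := cs_sq_add_sn_sq θ
  have e2 := cs_sq_add_sn_sq θ'
  have h3 : a ^ 2 = b ^ 2 := by
    calc a ^ 2 = (a * cs θ) ^ 2 + (a * sn θ) ^ 2 := by rw [mul_pow, mul_pow, ← mul_add, e1, mul_one]
      _ = b ^ 2 := by rw [h1, h2, mul_pow, mul_pow, ← mul_add, e2, mul_one]
  obtain rfl : a = b := (pow_left_inj₀ ha.le hb.le two_ne_zero).1 h3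
  refine ⟨rfl, (ee_eq_iff _ _).1 ?_⟩
  rw [mee_ee, mee_ee, mul_left_cancel₀ ha.ne' h1, mul_left_cancel₀ ha.ne' h2]

/-- existence of polar coordinates (`Complex.arg`, then `Int.fract`). -/
theorem polar_exists (a b : ℝ) : ∃ ρ θ : ℝ, 0 ≤ ρ ∧ ρ ^ 2 = a ^ 2 + b ^ 2 ∧ θ ∈ Icc (0 : ℝ) 1 ∧
    a = ρ * cs θ ∧ b = ρ * sn θ := by
  set z : ℂ := ⟨a, b⟩ with hz
  have hpi : 2 * Real.pi * (z.arg / (2 * Real.pi)) = z.arg := by field_simp
  have hf : Int.fract (z.arg / (2 * Real.pi)) =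
      z.arg / (2 * Real.pi) + ((-⌊z.arg / (2 * Real.pi)⌋ : ℤ) : ℝ) := by
    rw [Int.fract]; push_cast; ring
  refine ⟨‖z‖, Int.fract (z.arg / (2 * Real.pi)), norm_nonneg _, ?_,
    ⟨Int.fract_nonneg _, (Int.fract_lt_one _).le⟩, ?_, ?_⟩
  · rw [Complex.sq_norm, hz, Complex.normSq_mk]; ring
  · rw [hf, cs_add_int, cs, hpi, Complex.norm_mul_cos_arg]
  · rw [hf, sn_add_int, sn, hpi, Complex.norm_mul_sin_arg]

theorem continuous_nr : Continuous nr := by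
  exact (AddCircle.continuous_mk' (1 : ℝ)).norm

theorem nr_add_int (t : ℝ) (k : ℤ) : nr (t + k) = nr t := by
  unfold nr
  have : ((k : ℝ) : UnitAddCircle) = 0 := by
    rw [AddCircle.coe_eq_zero_iff]
    exact ⟨k, by simp⟩
  rw [AddCircle.coe_add, this, add_zero]

/-- `AddCircle.norm_coe_eq_abs_iff`. -/
theorem nr_eq_abs {t : ℝ} (ht : |t| ≤ 1 / 2) : nr t = |t| := by
  exact (AddCircle.norm_coe_eq_abs_iff (1 : ℝ) one_ne_zero).2 (by simpa using ht)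

/-- `k = round t`, `abs_sub_round`. -/
theorem exists_int_abs_le (t : ℝ) : ∃ k : ℤ, |t - k| ≤ 1 / 2 := by
  exact ⟨round t, abs_sub_round t⟩

theorem mee_max (θ : ℝ) : 1 / 2 ≤ max |cs θ| |sn θ| ∧ max |cs θ| |sn θ| ≤ 1 := by
  refine ⟨?_, max_le (abs_cs_le θ) (abs_sn_le θ)⟩
  by_contra h
  rw [not_le, max_lt_iff] at h
  have e := cs_sq_add_sn_sq θ
  rw [← sq_abs, ← sq_abs (sn θ)] at e
  nlinarith [abs_nonneg (cs θ), abs_nonneg (sn θ)]

theorem continuous_sqr : Continuous sqr := by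
  exact continuous_const.div (continuous_const.mul (continuous_cs.abs.max continuous_sn.abs))
    fun θ => by have := (mee_max θ).1; positivity

theorem half_le_sqr (θ : ℝ) : 1 / 2 ≤ sqr θ := by
  obtain ⟨h1, h2⟩ := mee_max θ
  exact one_div_le_one_div_of_le (by linarith) (by linarith)

theorem sqr_le_one (θ : ℝ) : sqr θ ≤ 1 := by
  obtain ⟨h1, h2⟩ := mee_max θ
  exact (div_le_one (by linarith)).2 (by linarith)

theorem sqr_add_int (θ : ℝ) (k : ℤ) : sqr (θ + k) = sqr θ := by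
  rw [sqr, sqr, cs_add_int, sn_add_int]

theorem le_sqr_iff {ρ : ℝ} (hρ : 0 ≤ ρ) (θ : ℝ) :
    ρ ≤ sqr θ ↔ |ρ * cs θ| ≤ 1 / 2 ∧ |ρ * sn θ| ≤ 1 / 2 := by
  obtain ⟨h1, -⟩ := mee_max θ
  rw [sqr, le_div_iff₀ (by linarith), abs_mul, abs_mul, abs_of_nonneg hρ, ← max_le_iff,
    ← mul_max_of_nonneg _ _ hρ]
  constructor <;> intro h <;> linarith

/-- on the right side of the square; the point with angle `1/2 - θ` is on the left side -/
theorem sqr_side1 {θ : ℝ} (h : |θ| ≤ 1 / 8) :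
    sqr θ * cs θ = sqr (1 / 2 - θ) * cs (1 / 2 - θ) + 1 ∧
      sqr θ * sn θ = sqr (1 / 2 - θ) * sn (1 / 2 - θ) := by
  have hpi := Real.pi_pos
  rw [abs_le] at h
  have c1 : cs (1 / 2 - θ) = -cs θ := by
    rw [cs, cs, ← Real.cos_pi_sub]; congr 1; ring
  have s1 : sn (1 / 2 - θ) = sn θ := by
    rw [sn, sn, ← Real.sin_pi_sub]; congr 1; ring
  have h0 : 0 ≤ cs θ := Real.cos_nonneg_of_neg_pi_div_two_le_of_le (by nlinarith) (by nlinarith)
  have h2 : 0 ≤ Real.cos (2 * (2 * Real.pi * θ)) :=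
    Real.cos_nonneg_of_neg_pi_div_two_le_of_le (by nlinarith) (by nlinarith)
  rw [Real.cos_two_mul'] at h2
  have h3 : |sn θ| ≤ |cs θ| := sq_le_sq.1 (by unfold sn cs; linarith)
  have h4 := (mee_max θ).1
  rw [max_eq_left h3, abs_of_nonneg h0] at h4
  have h5 : sqr (1 / 2 - θ) = sqr θ := by rw [sqr, sqr, c1, s1, abs_neg]
  have h6 : sqr θ * cs θ = 1 / 2 := by
    rw [sqr, max_eq_left h3, abs_of_nonneg h0]
    have : cs θ ≠ 0 := by intro h; linarith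
    field_simp
  rw [h5, c1, s1]
  exact ⟨by linarith, rfl⟩

/-- on the top side of the square; the point with angle `-θ` is on the bottom side -/
theorem sqr_side2 {θ : ℝ} (h1 : 1 / 8 ≤ θ) (h2 : θ ≤ 3 / 8) :
    sqr θ * cs θ = sqr (-θ) * cs (-θ) ∧ sqr θ * sn θ = sqr (-θ) * sn (-θ) + 1 := by
  have hpi := Real.pi_pos
  have c1 : cs (-θ) = cs θ := by rw [cs, cs, mul_neg, Real.cos_neg]
  have s1 : sn (-θ) = -sn θ := by rw [sn, sn, mul_neg, Real.sin_neg]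
  have h0 : 0 ≤ sn θ := Real.sin_nonneg_of_nonneg_of_le_pi (by nlinarith) (by nlinarith)
  have h2 : Real.cos (2 * (2 * Real.pi * θ)) ≤ 0 :=
    Real.cos_nonpos_of_pi_div_two_le_of_le (by nlinarith) (by nlinarith)
  rw [Real.cos_two_mul'] at h2
  have h3 : |cs θ| ≤ |sn θ| := sq_le_sq.1 (by unfold sn cs; linarith)
  have h4 := (mee_max θ).1
  rw [max_eq_right h3, abs_of_nonneg h0] at h4
  have h5 : sqr (-θ) = sqr θ := by rw [sqr, sqr, c1, s1, abs_neg]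
  have h6 : sqr θ * sn θ = 1 / 2 := by
    rw [sqr, max_eq_right h3, abs_of_nonneg h0]
    have : sn θ ≠ 0 := by intro h; linarith
    field_simp
  rw [h5, c1, s1]
  exact ⟨rfl, by linarith⟩

theorem continuous_clamp : Continuous clamp := by
  unfold clamp
  fun_prop

theorem clamp_mem (r : ℝ) : -1 ≤ clamp r ∧ clamp r ≤ 4 := by
  exact ⟨le_max_left _ _, max_le (by norm_num) (min_le_left _ _)⟩

theorem clamp_eq_left {r : ℝ} : clamp r = -1 ↔ r ≤ -1 := by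
  rw [clamp, max_eq_left_iff, min_le_iff]
  exact ⟨fun h => h.resolve_left (by norm_num), Or.inr⟩

theorem clamp_eq_right {r : ℝ} : clamp r = 4 ↔ 4 ≤ r := by
  unfold clamp
  simp only [max_def, min_def]
  split_ifs <;> constructor <;> intro h <;> linarith

theorem ρL_mem {cL r : ℝ} (hc : 5 < cL) (h1 : -2 < r) (h2 : r < 5) :
    0 < ρL cL r ∧ ρL cL r < 1 / 2 := by
  unfold ρL DL
  exact ⟨div_pos (by linarith) (by linarith), by rw [div_lt_iff₀ (by linarith)]; linarith⟩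

theorem ρR_mem {cR r : ℝ} (hc : 2 < cR) (h1 : -2 < r) (h2 : r < 5) :
    0 < ρR cR r ∧ ρR cR r < 1 / 2 := by
  unfold ρR DR
  exact ⟨div_pos (by linarith) (by linarith), by rw [div_lt_iff₀ (by linarith)]; linarith⟩

theorem ρL_lt_iff {cL : ℝ} (hc : 5 < cL) (r s : ℝ) : ρL cL r < ρL cL s ↔ s < r := by
  unfold ρL DL
  rw [div_lt_div_iff_of_pos_right (by linarith)]
  exact sub_lt_sub_iff_left _

theorem ρR_lt_iff {cR : ℝ} (hc : 2 < cR) (r s : ℝ) : ρR cR r < ρR cR s ↔ r < s := by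
  unfold ρR DR
  rw [div_lt_div_iff_of_pos_right (by linarith)]
  exact add_lt_add_iff_right _

/-- a point of the square `[-1/2,1/2]²` in polar coordinates is in `ΩF ρ0` iff `ρ0 < ρ` -/
theorem pol_mem_ΩF {ρ0 ρ φ θ : ℝ} (h0 : 0 ≤ ρ0) (hρ : 0 ≤ ρ) (h : ρ ≤ sqr θ) :
    pol φ ρ θ ∈ ΩF ρ0 ↔ ρ0 < ρ := by
  obtain ⟨h1, h2⟩ := (le_sqr_iff hρ θ).1 h
  change ρ0 ^ 2 < nr (ρ * cs θ) ^ 2 + nr (ρ * sn θ) ^ 2 ↔ _
  rw [nr_eq_abs h1, nr_eq_abs h2, sq_abs, sq_abs, mul_pow, mul_pow, ← mul_add, cs_sq_add_sn_sq, mul_one]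
  exact pow_lt_pow_iff_left₀ h0 hρ two_ne_zero

theorem add_mem_ΩF {ρ0 : ℝ} {y l : E 3} (hl : Lat l) : y + l ∈ ΩF ρ0 ↔ y ∈ ΩF ρ0 := by
  obtain ⟨k1, h1⟩ := hl 1
  obtain ⟨k2, h2⟩ := hl 2
  simp only [ΩF, mem_ofPred_eq, PiLp.add_apply, h1, h2, nr_add_int]

theorem isOpen_ΩN : IsOpen ΩN := by
  have h : Continuous fun x : E 3 => x 0 := by fun_prop
  exact (isOpen_lt continuous_const h).inter (isOpen_lt h continuous_const)

theorem isOpen_ΩF (ρ : ℝ) : IsOpen (ΩF ρ) := by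
  have := continuous_nr
  exact isOpen_lt continuous_const (by fun_prop)

/-- a lattice vector of norm `< 1` vanishes -/
theorem Lat.eq_zero {l : E 3} (hl : Lat l) (h : ‖l‖ < 1) : l = 0 := by
  ext i
  obtain ⟨k, hk⟩ := hl i
  have h1 := (PiLp.norm_apply_le l i).trans_lt h
  rw [hk, Real.norm_eq_abs] at h1
  have h2 : |k| < 1 := by exact_mod_cast h1
  rw [hk, Int.abs_lt_one_iff.1 h2]
  simp

end Crest.Agent.R244
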