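import Crest.Agent.R244.MMetric

/-!
# R244 / MGlue : the generic gluing construction
-/

set_option autoImplicit false

noncomputable section

open scoped ContDiff Manifold Topology
open Set Crest.GeometryTopology.CoordMetric Crest.GeometryTopology.ChartCurvature
open Crest.GeometryTopology.Geodesic

namespace Crest.Agent.R244

namespace Glue

variable {n : ℕ} {ι Z : Type} [TopologicalSpace Z] (D : Glue n ι Z)

/-- the points of the glued manifold -/
@[ext] structure Pt where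
  val : Z
  ex : ∃ i, ∃ x ∈ D.Ω i, D.nf i x = val

open Classical in
/-- the parametrisations -/
def q [Nonempty D.Pt] (i : ι) (x : E n) : D.Pt :=
  if h : x ∈ D.Ω i then ⟨D.nf i x, i, x, h, rfl⟩ else Classical.arbitrary _

variable [Nonempty D.Pt]

theorem val_q {i : ι} {x : E n} (hx : x ∈ D.Ω i) : (D.q i x).val = D.nf i x := by
  simp [q, hx]

theorem q_eq_iff {i j : ι} {x y : E n} (hx : x ∈ D.Ω i) (hy : y ∈ D.Ω j) :
    D.q i x = D.q j y ↔ D.nf i x = D.nf j y := by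
  rw [Pt.ext_iff, D.val_q hx, D.val_q hy]

theorem exists_q (m : D.Pt) : ∃ i, ∃ x ∈ D.Ω i, D.q i x = m := by
  obtain ⟨i, x, hx, h⟩ := m.ex
  exact ⟨i, x, hx, Pt.ext (by rw [D.val_q hx, h])⟩

instance top : TopologicalSpace D.Pt where
  IsOpen S := ∀ i, IsOpen (D.Ω i ∩ D.q i ⁻¹' S)
  isOpen_univ i := by simpa using (D.riem i).isOpen
  isOpen_inter S T hS hT i := by
    have := (hS i).inter (hT i)
    rwa [← inter_inter_distrib_left, ← preimage_inter] at this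
  isOpen_sUnion s hs i := by
    rw [preimage_sUnion, inter_iUnion₂]
    exact isOpen_biUnion fun t ht => hs t ht i

theorem isOpen_iff {S : Set D.Pt} : IsOpen S ↔ ∀ i, IsOpen (D.Ω i ∩ D.q i ⁻¹' S) := Iff.rfl

theorem cq (i : ι) : ContinuousOn (D.q i) (D.Ω i) :=
  (continuousOn_open_iff (D.riem i).isOpen).2 fun _ ht => ht i

theorem cval : Continuous (Pt.val : D.Pt → Z) := by
  refine ⟨fun t ht => D.isOpen_iff.2 fun i => ?_⟩
  have := (continuousOn_open_iff (D.riem i).isOpen).1 (D.cont i) t ht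
  convert this using 1
  ext x
  constructor
  · rintro ⟨hx, h⟩
    refine ⟨hx, ?_⟩
    rw [mem_preimage, ← D.val_q hx]; exact h
  · rintro ⟨hx, h⟩
    refine ⟨hx, ?_⟩
    rw [mem_preimage, mem_preimage, D.val_q hx]; exact h

theorem trq {i j : ι} {x y : E n} (hx : x ∈ D.Ω i) (hy : y ∈ D.Ω j) (h : D.q i x = D.q j y) :
    Tr (D.G i) (D.G j) (D.q i) (D.q j) x y := by
  obtain ⟨τ, h1, h2, h3, h4, h5⟩ := D.tr i j x hx y hy ((D.q_eq_iff hx hy).1 h)
  refine ⟨τ, h1, h2, ?_, h4, h5⟩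
  have e1 : ∀ᶠ z in 𝓝 x, z ∈ D.Ω i := (D.riem i).isOpen.mem_nhds hx
  have e2 : ∀ᶠ z in 𝓝 x, τ z ∈ D.Ω j :=
    h2.continuousAt.eventually_mem ((D.riem j).isOpen.mem_nhds (by rwa [h1]))
  filter_upwards [e1, e2, h3] with z hz1 hz2 hz3 using (D.q_eq_iff hz2 hz1).2 hz3

theorem isOpen_image {i : ι} {U : Set (E n)} (hU : IsOpen U) (hUΩ : U ⊆ D.Ω i) :
    IsOpen (D.q i '' U) := by
  refine D.isOpen_iff.2 fun j => isOpen_iff_mem_nhds.2 ?_
  rintro y ⟨hy, x, hx, hxy⟩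
  obtain ⟨τ, h1, h2, h3, -, -⟩ := D.trq hy (hUΩ hx) hxy.symm
  have e1 : ∀ᶠ z in 𝓝 y, z ∈ D.Ω j := (D.riem j).isOpen.mem_nhds hy
  have e2 : ∀ᶠ z in 𝓝 y, τ z ∈ U :=
    h2.continuousAt.eventually_mem (hU.mem_nhds (by rwa [h1]))
  filter_upwards [e1, e2, h3] with z hz1 hz2 hz3 using ⟨hz1, τ z, hz2, hz3⟩

theorem exists_chart {i : ι} {x : E n} (hx : x ∈ D.Ω i) :
    ∃ e : OpenPartialHomeomorph D.Pt (E n), D.q i x ∈ e.source ∧ e.target ⊆ D.Ω i ∧
      ∀ y ∈ e.target, e.symm y = D.q i y := by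
  obtain ⟨U0, hU0, hinj⟩ := D.inj i x hx
  obtain ⟨U, hUs, hU, hxU⟩ := mem_nhds_iff.1
    (Filter.inter_mem hU0 ((D.riem i).isOpen.mem_nhds hx))
  have hUΩ : U ⊆ D.Ω i := fun z hz => (hUs hz).2
  have hq : InjOn (D.q i) U := fun a ha b hb h =>
    hinj (hUs ha).1 (hUs hb).1 ((D.q_eq_iff (hUΩ ha) (hUΩ hb)).1 h)
  let e0 : PartialEquiv (E n) D.Pt := hq.toPartialEquiv (D.q i) U
  have ho : IsOpenMap (e0.source.domRestrict e0) := by
    intro V hV
    have h1 : IsOpen ((Subtype.val : U → E n) '' V) := hU.isOpenMap_subtype_val V hV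
    have h2 := D.isOpen_image h1 (i := i) (by rintro _ ⟨z, -, rfl⟩; exact hUΩ z.2)
    rw [image_image] at h2
    exact h2
  let e1 : OpenPartialHomeomorph (E n) D.Pt :=
    OpenPartialHomeomorph.ofContinuousOpenRestrict e0 ((D.cq i).mono hUΩ) ho hU
  exact ⟨e1.symm, e1.map_source hxU, hUΩ, fun _ _ => rfl⟩

theorem chart_tr {i j : ι} {e e' : OpenPartialHomeomorph D.Pt (E n)} (ht : e.target ⊆ D.Ω i)
    (hs : ∀ y ∈ e.target, e.symm y = D.q i y) (ht' : e'.target ⊆ D.Ω j)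
    (hs' : ∀ y ∈ e'.target, e'.symm y = D.q j y) {z : D.Pt} (hz : z ∈ e.source)
    (hz' : z ∈ e'.source) :
    ContDiffAt ℝ ∞ (e' ∘ e.symm) (e z) ∧
      0 < LinearMap.det (fderiv ℝ (e' ∘ e.symm) (e z) : E n →ₗ[ℝ] E n) ∧
      ∀ u v, ip (D.G i) (e z) u v = ip (D.G j) (e' z) (fderiv ℝ (e' ∘ e.symm) (e z) u)
        (fderiv ℝ (e' ∘ e.symm) (e z) v) := by
  have hx := e.map_source hz
  have hy := e'.map_source hz'
  have h : D.q i (e z) = D.q j (e' z) := by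
    rw [← hs _ hx, ← hs' _ hy, e.left_inv hz, e'.left_inv hz']
  obtain ⟨τ, h1, h2, h3, h4, h5⟩ := D.trq (ht hx) (ht' hy) h
  have e1 : ∀ᶠ w in 𝓝 (e z), w ∈ e.target := e.open_target.mem_nhds hx
  have e2 : ∀ᶠ w in 𝓝 (e z), τ w ∈ e'.target :=
    h2.continuousAt.eventually_mem (e'.open_target.mem_nhds (by rwa [h1]))
  have hev : (e' ∘ e.symm) =ᶠ[𝓝 (e z)] τ := by
    filter_upwards [e1, e2, h3] with w hw1 hw2 hw3
    rw [Function.comp_apply, hs _ hw1, ← hw3, ← hs' _ hw2, e'.right_inv hw2]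
  rw [hev.fderiv_eq]
  exact ⟨h2.congr_of_eventuallyEq hev, h4, h5⟩

theorem exists_chart_pref (i0 : ι) (m : D.Pt) :
    ∃ (i : ι) (e : OpenPartialHomeomorph D.Pt (E n)), m ∈ e.source ∧ e.target ⊆ D.Ω i ∧
      (∀ y ∈ e.target, e.symm y = D.q i y) ∧ ((∃ x ∈ D.Ω i0, D.q i0 x = m) → i = i0) := by
  by_cases h : ∃ x ∈ D.Ω i0, D.q i0 x = m
  · obtain ⟨x, hx, rfl⟩ := h
    obtain ⟨e, h1, h2, h3⟩ := D.exists_chart hx
    exact ⟨i0, e, h1, h2, h3, fun _ => rfl⟩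
  · obtain ⟨i, x, hx, rfl⟩ := D.exists_q m
    obtain ⟨e, h1, h2, h3⟩ := D.exists_chart hx
    exact ⟨i, e, h1, h2, h3, fun h' => absurd h' h⟩

end Glue

theorem Glue.exists_glued {n : ℕ} {ι Z : Type} [TopologicalSpace Z] (D : Glue n ι Z) (i0 : ι)
    (hne : (D.Ω i0).Nonempty) :
    ∃ (M : Type) (_ : TopologicalSpace M) (_ : ChartedSpace (E n) M)
      (_ : IsManifold 𝓘(ℝ, E n) ∞ M), Nonempty (Glued D i0 M) := by
  obtain ⟨x0, hx0⟩ := hne
  have : Nonempty D.Pt := ⟨⟨D.nf i0 x0, i0, x0, hx0, rfl⟩⟩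
  choose idx ch hsrc htgt hsymm hpref using D.exists_chart_pref i0
  let cs : ChartedSpace (E n) D.Pt :=
    { atlas := range ch
      chartAt := ch
      mem_chart_source := hsrc
      chart_mem_atlas := fun m => mem_range_self m }
  have hM : IsManifold 𝓘(ℝ, E n) ∞ D.Pt := by
    apply isManifold_of_contDiffOn
    rintro _ _ ⟨m, rfl⟩ ⟨m', rfl⟩ y hy
    simp only [mfld_simps] at hy ⊢
    have := (D.chart_tr (htgt m) (hsymm m) (htgt m') (hsymm m') ((ch m).map_target hy.1) hy.2).1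
    rw [(ch m).right_inv hy.1] at this
    exact this.contDiffWithinAt
  obtain ⟨g, hg⟩ := exists_met_of_charts (M := D.Pt) (fun m => D.G (idx m))
    (fun m => ⟨(ch m).open_target, fun i j => ((D.riem (idx m)).contDiffOn i j).mono (htgt m),
      fun x hx => (D.riem (idx m)).posDef x (htgt m hx)⟩)
    (fun m m' z hz hz' => (D.chart_tr (htgt m) (hsymm m) (htgt m') (hsymm m') hz hz').2.2)
  refine ⟨D.Pt, inferInstance, cs, hM, ⟨
    { val := Pt.val
      q := D.q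
      idx := idx
      g := g
      cval := D.cval
      ival := fun a b h => Pt.ext h
      val_q := fun i x hx => D.val_q hx
      cq := D.cq
      tgt := htgt
      symm := hsymm
      pref := fun x hx => hpref _ ⟨x, hx, rfl⟩
      met := hg
      ori := ⟨range ch, IsManifold.subset_maximalAtlas, fun m => ⟨ch m, mem_range_self m, hsrc m⟩, ?_⟩ }⟩⟩
  rintro _ ⟨m, rfl⟩ _ ⟨m', rfl⟩ z hz
  exact (D.chart_tr (htgt m) (hsymm m) (htgt m') (hsymm m') hz.1 hz.2).2.1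

end Crest.Agent.R244
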