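import Crest.Agent.R244.MNf

/-!
# R244 / MPhi : the normal form `Φt` of the parametrisation `Φ`
-/

set_option autoImplicit false

noncomputable section

open scoped ContDiff Manifold Topology
open Set Crest.GeometryTopology.CoordMetric Crest.GeometryTopology.ChartCurvature
open Crest.GeometryTopology.Geodesic

namespace Crest.Agent.R244

variable {cL cR : ℝ}

/-- on the neck `ρL, ρR < 1/2 ≤ sqr` -/
theorem Φt_N (hL : 5 < cL) (hR : 2 < cR) {r : ℝ} (h1 : -2 < r) (h2 : r < 5) (ξ ζ : ℝ) :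
    Φt cL cR (r, ξ, ζ) = nfN cL cR !₂[r, ξ, ζ] := by
  have e1 : min (ρL cL r) (sqr ζ) = ρL cL r :=
    min_eq_left ((ρL_mem hL h1 h2).2.le.trans (half_le_sqr _))
  have e2 : min (ρR cR r) (sqr (ξ - ζ)) = ρR cR r :=
    min_eq_left ((ρR_mem hR h1 h2).2.le.trans (half_le_sqr _))
  simp only [Φt, nfN, e1, e2]
  rfl

theorem Φt_L (hL : 5 < cL) {r : ℝ} (h : r < -1) (ξ ζ : ℝ) :
    pol ξ (min (ρL cL r) (sqr ζ)) ζ ∈ ΩF (ρL cL (-1)) ∧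
      Φt cL cR (r, ξ, ζ) = nfL (pol ξ (min (ρL cL r) (sqr ζ)) ζ) := by
  have h0 := ρL_mem hL (r := -1) (by norm_num) (by norm_num)
  have h1 : ρL cL (-1) < min (ρL cL r) (sqr ζ) :=
    lt_min ((ρL_lt_iff hL _ _).2 h) (h0.2.trans_le (half_le_sqr _))
  exact ⟨(pol_mem_ΩF h0.1.le (h0.1.trans h1).le (min_le_right _ _)).2 h1, nfg_left h.le _ _ _ _⟩

theorem Φt_R (hR : 2 < cR) {r : ℝ} (h : 4 < r) (ξ ζ : ℝ) :
    pol ζ (min (ρR cR r) (sqr (ξ - ζ))) (ξ - ζ) ∈ ΩF (ρR cR 4) ∧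
      Φt cL cR (r, ξ, ζ) = nfR (pol ζ (min (ρR cR r) (sqr (ξ - ζ))) (ξ - ζ)) := by
  have h0 := ρR_mem hR (r := 4) (by norm_num) (by norm_num)
  have h1 : ρR cR 4 < min (ρR cR r) (sqr (ξ - ζ)) :=
    lt_min ((ρR_lt_iff hR _ _).2 h) (h0.2.trans_le (half_le_sqr _))
  exact ⟨(pol_mem_ΩF h0.1.le (h0.1.trans h1).le (min_le_right _ _)).2 h1, nfg_right h.le _ _ _ _⟩

theorem mph_cont_mk {X : Type} [TopologicalSpace X] {a b c : X → ℝ} (ha : Continuous a) (hb : Continuous b)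
    (hc : Continuous c) : Continuous fun p => (!₂[a p, b p, c p] : E 3) := by
  refine (PiLp.continuous_toLp 2 _).comp (continuous_pi fun i => ?_)
  fin_cases i
  · exact ha
  · exact hb
  · exact hc

theorem mph_cont_pol {X : Type} [TopologicalSpace X] {a b c : X → ℝ} (ha : Continuous a) (hb : Continuous b)
    (hc : Continuous c) : Continuous fun p => pol (a p) (b p) (c p) :=
  mph_cont_mk ha (hb.mul (continuous_cs.comp hc)) (hb.mul (continuous_sn.comp hc))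

theorem continuous_polL (cL : ℝ) :
    Continuous fun p : ℝ × ℝ × ℝ => pol p.2.1 (min (ρL cL p.1) (sqr p.2.2)) p.2.2 := by
  have h := continuous_sqr
  refine mph_cont_pol (by fun_prop) ?_ (by fun_prop)
  unfold ρL
  fun_prop

theorem continuous_polR (cR : ℝ) : Continuous fun p : ℝ × ℝ × ℝ =>
    pol p.2.2 (min (ρR cR p.1) (sqr (p.2.1 - p.2.2))) (p.2.1 - p.2.2) := by
  have h := continuous_sqr
  refine mph_cont_pol (by fun_prop) ?_ (by fun_prop)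
  unfold ρR
  fun_prop

theorem continuous_mkN : Continuous fun p : ℝ × ℝ × ℝ => (!₂[p.1, p.2.1, p.2.2] : E 3) := by
  exact mph_cont_mk (by fun_prop) (by fun_prop) (by fun_prop)

theorem Φt_add_int (r ξ ζ : ℝ) (k m : ℤ) : Φt cL cR (r, ξ + k, ζ + m) = Φt cL cR (r, ξ, ζ) := by
  have e : ξ + k - (ζ + m) = ξ - ζ + ((k - m : ℤ) : ℝ) := by
    push_cast
    ring
  simp only [Φt]
  rw [e, sqr_add_int, sqr_add_int, nfg_add_int]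

theorem mph_ee_one (x : ℝ) : ee (x + 1) = ee x := by simpa using ee_add_int x 1

theorem mph_L (hL : 5 < cL) (ξ θ : ℝ) : Φt cL cR (-cL - 6, ξ, θ) =
    (-1, (5 * ee ξ, 5 * ee (sqr θ * cs θ), 5 * ee (sqr θ * sn θ)), (0, 0, 0)) := by
  have e : ρL cL (-cL - 6) = 1 := by
    rw [ρL, DL, div_eq_one_iff_eq (by linarith)]
    ring
  rw [(Φt_L hL (by linarith) ξ θ).2, e, min_eq_right (sqr_le_one _)]
  rfl

theorem mph_R (hR : 2 < cR) (ζ θ : ℝ) : Φt cL cR (cR + 12, ζ + θ, ζ) =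
    (4, (0, 0, 0), (5 * ee ζ, 5 * ee (sqr θ * cs θ), 5 * ee (sqr θ * sn θ))) := by
  have e : ρR cR (cR + 12) = 1 := by
    rw [ρR, DR, div_eq_one_iff_eq (by linarith)]
    ring
  rw [(Φt_R hR (by linarith) _ ζ).2, e, min_eq_right (sqr_le_one _), add_sub_cancel_left]
  rfl

/-- `ρL (-cL - 6) = 1 ≥ sqr`; `Φt_L`, `sqr_side1`, `ee_add_int` -/
theorem Φt_L1 (hL : 5 < cL) (ξ θ : ℝ) (h : |θ| ≤ 1 / 8) :
    Φt cL cR (-cL - 6, ξ, θ) = Φt cL cR (-cL - 6, ξ, 1 / 2 - θ) := by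
  rw [mph_L hL, mph_L hL, (sqr_side1 h).1, (sqr_side1 h).2, mph_ee_one]

theorem Φt_L2 (hL : 5 < cL) (ξ θ : ℝ) (h1 : 1 / 8 ≤ θ) (h2 : θ ≤ 3 / 8) :
    Φt cL cR (-cL - 6, ξ, θ) = Φt cL cR (-cL - 6, ξ, -θ) := by
  rw [mph_L hL, mph_L hL, (sqr_side2 h1 h2).1, (sqr_side2 h1 h2).2, mph_ee_one]

theorem Φt_R1 (hR : 2 < cR) (ζ θ : ℝ) (h : |θ| ≤ 1 / 8) :
    Φt cL cR (cR + 12, ζ + θ, ζ) = Φt cL cR (cR + 12, ζ + (1 / 2 - θ), ζ) := by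
  rw [mph_R hR, mph_R hR, (sqr_side1 h).1, (sqr_side1 h).2, mph_ee_one]

theorem Φt_R2 (hR : 2 < cR) (ζ θ : ℝ) (h1 : 1 / 8 ≤ θ) (h2 : θ ≤ 3 / 8) :
    Φt cL cR (cR + 12, ζ + θ, ζ) = Φt cL cR (cR + 12, ζ + -θ, ζ) := by
  rw [mph_R hR, mph_R hR, (sqr_side2 h1 h2).1, (sqr_side2 h1 h2).2, mph_ee_one]

theorem Φt_loop (hL : 5 < cL) (ξ ζ : ℝ) :
    (Φt cL cR (-cL - 6, ξ, ζ)).1 = -1 ∧ (Φt cL cR (-cL - 6, ξ, ζ)).2.1.1 = 5 * ee ξ := by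
  rw [mph_L hL]
  exact ⟨rfl, rfl⟩

/-- reduce `ξ, ζ` mod 1 (`Int.fract`, `Φt_add_int`) -/
theorem exists_box {r : ℝ} (h1 : -cL - 6 ≤ r) (h2 : r ≤ cR + 12) (ξ ζ : ℝ) :
    ∃ p ∈ box cL cR, Φt cL cR p = Φt cL cR (r, ξ, ζ) := by
  refine ⟨(r, Int.fract ξ, Int.fract ζ), ⟨⟨h1, h2⟩, ⟨Int.fract_nonneg _, (Int.fract_lt_one _).le⟩,
    Int.fract_nonneg _, (Int.fract_lt_one _).le⟩, ?_⟩
  rw [← Φt_add_int r _ _ ⌊ξ⌋ ⌊ζ⌋, Int.fract_add_floor, Int.fract_add_floor]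

theorem surj_N (hL : 5 < cL) (hR : 2 < cR) {x : E 3} (hx : x ∈ ΩN) :
    ∃ p ∈ box cL cR, Φt cL cR p = nfN cL cR x := by
  obtain ⟨p, hp, e⟩ := exists_box (cL := cL) (cR := cR) (r := x 0) (by linarith [hx.1]) (by linarith [hx.2])
    (x 1) (x 2)
  exact ⟨p, hp, e.trans (Φt_N hL hR hx.1 hx.2 _ _)⟩

theorem mph_polar {ρ0 : ℝ} (h0 : 0 ≤ ρ0) {y : E 3} (hy : y ∈ ΩF ρ0) :
    ∃ (ρ θ : ℝ) (l : E 3), ρ0 < ρ ∧ ρ ≤ sqr θ ∧ Lat l ∧ y = pol (y 0) ρ θ + l := by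
  obtain ⟨k1, h1⟩ := exists_int_abs_le (y 1)
  obtain ⟨k2, h2⟩ := exists_int_abs_le (y 2)
  obtain ⟨ρ, θ, h3, -, -, h4, h5⟩ := polar_exists (y 1 - k1) (y 2 - k2)
  have h6 : ρ ≤ sqr θ := (le_sqr_iff h3 θ).2 ⟨h4 ▸ h1, h5 ▸ h2⟩
  have h7 : Lat !₂[0, (k1 : ℝ), (k2 : ℝ)] := by
    intro i
    fin_cases i
    · exact ⟨0, by simp⟩
    · exact ⟨k1, rfl⟩
    · exact ⟨k2, rfl⟩
  have h8 : y = pol (y 0) ρ θ + !₂[0, (k1 : ℝ), (k2 : ℝ)] := by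
    rw [pol, ← h4, ← h5]
    ext i
    fin_cases i <;> simp
  refine ⟨ρ, θ, _, ?_, h6, h7, h8⟩
  rw [h8, add_mem_ΩF h7] at hy
  exact (pol_mem_ΩF h0 h3 h6).1 hy

/-- reduce `y 1, y 2` to `[-1/2,1/2]` (`exists_int_abs_le`), polar coordinates `(ρ, ζ)`
(`ρ ≤ sqr ζ ≤ 1` by `le_sqr_iff`, `ρL (-1) < ρ` by `pol_mem_ΩF`), `r = cL - DL ρ < -1`, `Φt_L`. -/
theorem surj_L (hL : 5 < cL) (hR : 2 < cR) {y : E 3} (hy : y ∈ ΩF (ρL cL (-1))) :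
    ∃ p ∈ box cL cR, Φt cL cR p = nfL y := by
  have h0 := ρL_mem hL (r := -1) (by norm_num) (by norm_num)
  obtain ⟨ρ, θ, l, h1, h2, h3, h4⟩ := mph_polar h0.1.le hy
  have hD : 0 < DL cL := by unfold DL; linarith
  have e : ρL cL (cL - DL cL * ρ) = ρ := by
    rw [ρL, sub_sub_cancel, mul_div_cancel_left₀ _ hD.ne']
  have h5 : cL - DL cL * ρ < -1 := (ρL_lt_iff hL _ _).1 (by rwa [e])
  have h6 : DL cL * ρ ≤ DL cL := mul_le_of_le_one_right hD.le (h2.trans (sqr_le_one _))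
  obtain ⟨p, hp, e'⟩ := exists_box (cL := cL) (cR := cR) (r := cL - DL cL * ρ)
    (by unfold DL at h6 ⊢; linarith) (by linarith) (y 0) θ
  refine ⟨p, hp, ?_⟩
  rw [e', (Φt_L hL h5 _ _).2, e, min_eq_left h2, ← nfL_add h3, ← h4]

theorem surj_R (hL : 5 < cL) (hR : 2 < cR) {y : E 3} (hy : y ∈ ΩF (ρR cR 4)) :
    ∃ p ∈ box cL cR, Φt cL cR p = nfR y := by
  have h0 := ρR_mem hR (r := 4) (by norm_num) (by norm_num)
  obtain ⟨ρ, θ, l, h1, h2, h3, h4⟩ := mph_polar h0.1.le hy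
  have hD : 0 < DR cR := by unfold DR; linarith
  have e : ρR cR (DR cR * ρ - cR) = ρ := by
    rw [ρR, sub_add_cancel, mul_div_cancel_left₀ _ hD.ne']
  have h5 : 4 < DR cR * ρ - cR := (ρR_lt_iff hR _ _).1 (by rwa [e])
  have h6 : DR cR * ρ ≤ DR cR := mul_le_of_le_one_right hD.le (h2.trans (sqr_le_one _))
  obtain ⟨p, hp, e'⟩ := exists_box (cL := cL) (cR := cR) (r := DR cR * ρ - cR)
    (by linarith) (by unfold DR at h6 ⊢; linarith) (y 0 + θ) (y 0)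
  refine ⟨p, hp, ?_⟩
  rw [e', (Φt_R hR h5 _ _).2, e, add_sub_cancel_left, min_eq_left h2, ← nfR_add h3, ← h4]

end Crest.Agent.R244
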