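import Crest.Agent.R244.MEe

/-!
# R244 / MTr : the metrics of the pieces and the transition maps
-/

set_option autoImplicit false

noncomputable section

open scoped ContDiff Manifold Topology
open Set Crest.GeometryTopology.CoordMetric Crest.GeometryTopology.ChartCurvature
open Crest.GeometryTopology.Geodesic

namespace Crest.Agent.R244

variable {α β σ : ℝ → ℝ} {cL cR : ℝ}

theorem mtr_coord {n : ℕ} (i : Fin n) : ContDiff ℝ ∞ fun x : E n => x i :=
  (EuclideanSpace.proj i : E n →L[ℝ] ℝ).contDiff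

theorem mtr_hcoord {n : ℕ} (i : Fin n) (x : E n) :
    HasFDerivAt (fun y : E n => y i) (EuclideanSpace.proj i : E n →L[ℝ] ℝ) x :=
  (EuclideanSpace.proj i : E n →L[ℝ] ℝ).hasFDerivAt

theorem mtr_three {a b c : ℝ} (h : ¬ (a = 0 ∧ b = 0 ∧ c = 0)) : 0 < a ^ 2 + b ^ 2 + c ^ 2 := by
  by_contra h0
  apply h
  refine ⟨?_, ?_, ?_⟩ <;> nlinarith [sq_nonneg a, sq_nonneg b, sq_nonneg c]

theorem mtr_ne {v : Fin 3 → ℝ} (hv : v ≠ 0) : ¬ (v 0 = 0 ∧ v 1 = 0 ∧ v 2 = 0) := by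
  rintro ⟨h0, h1, h2⟩
  apply hv
  funext i
  fin_cases i
  · exact h0
  · exact h1
  · exact h2

theorem mtr_contDiff_pol {φ ρ θ : E 3 → ℝ} (hφ : ContDiff ℝ ∞ φ) (hρ : ContDiff ℝ ∞ ρ)
    (hθ : ContDiff ℝ ∞ θ) : ContDiff ℝ ∞ fun y => pol (φ y) (ρ y) (θ y) := by
  refine contDiff_euclidean.2 fun i => ?_
  fin_cases i
  · exact hφ
  · exact hρ.mul (contDiff_const.mul hθ).cos
  · exact hρ.mul (contDiff_const.mul hθ).sin

theorem mtr_comp {f : E 3 → E 3} {x : E 3} (hf : DifferentiableAt ℝ f x) (u : E 3) (i : Fin 3) :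
    fderiv ℝ f x u i = fderiv ℝ (fun y => f y i) x u := by
  have h := ((mtr_hcoord i (f x)).comp x hf.hasFDerivAt).fderiv
  exact (DFunLike.congr_fun h u).symm

theorem mtr_fderiv_pol {φ ρ θ : E 3 → ℝ} {φ' ρ' θ' : E 3 →L[ℝ] ℝ} {x : E 3} (hφ : HasFDerivAt φ φ' x)
    (hρ : HasFDerivAt ρ ρ' x) (hθ : HasFDerivAt θ θ' x) (u : E 3) :
    fderiv ℝ (fun y => pol (φ y) (ρ y) (θ y)) x u =
      !₂[φ' u, ρ' u * cs (θ x) - ρ x * (2 * Real.pi * θ' u) * sn (θ x),
        ρ' u * sn (θ x) + ρ x * (2 * Real.pi * θ' u) * cs (θ x)] := by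
  have h1 := hρ.fun_mul (hθ.const_mul (2 * Real.pi)).cos
  have h2 := hρ.fun_mul (hθ.const_mul (2 * Real.pi)).sin
  have hd : DifferentiableAt ℝ (fun y => pol (φ y) (ρ y) (θ y)) x := by
    refine differentiableAt_euclidean.2 fun i => ?_
    fin_cases i
    · exact hφ.differentiableAt
    · exact h1.differentiableAt
    · exact h2.differentiableAt
  ext i
  rw [mtr_comp hd]
  fin_cases i
  · exact DFunLike.congr_fun hφ.fderiv u
  · refine (DFunLike.congr_fun h1.fderiv u).trans ?_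
    simp [cs, sn]
    ring
  · refine (DFunLike.congr_fun h2.fderiv u).trans ?_
    simp [cs, sn]
    ring

theorem mtr_det (A : E 3 →L[ℝ] E 3) : LinearMap.det (A : E 3 →ₗ[ℝ] E 3) =
    Matrix.det (Matrix.of fun i j : Fin 3 => A (EuclideanSpace.single j 1) i) := by
  rw [← LinearMap.det_toMatrix (EuclideanSpace.basisFun (Fin 3) ℝ).toBasis]
  refine congrArg Matrix.det ?_
  ext i j
  simp [LinearMap.toMatrix_apply]

/-- `vᵀ GN v = v₀² + α² (v₁ - σ v₂)² + β² v₂²`. -/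
theorem riem_GN (W : Warp α β σ cL cR) {U : Set (E 3)} (hU : IsOpen U) :
    IsRiemannianOn (GN α β σ) U := by
  have ha : ContDiff ℝ ∞ fun x : E 3 => α (x 0) := W.sα.comp (mtr_coord 0)
  have hb : ContDiff ℝ ∞ fun x : E 3 => β (x 0) := W.sβ.comp (mtr_coord 0)
  have hs : ContDiff ℝ ∞ fun x : E 3 => σ (x 0) := W.sσ.comp (mtr_coord 0)
  refine ⟨hU, fun i j => ContDiff.contDiffOn ?_, fun x _ => Matrix.PosDef.of_dotProduct_mulVec_pos ?_ ?_⟩
  · fin_cases i <;> fin_cases j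
    · exact contDiff_const (c := (1 : ℝ))
    · exact contDiff_const (c := (0 : ℝ))
    · exact contDiff_const (c := (0 : ℝ))
    · exact contDiff_const (c := (0 : ℝ))
    · exact ha.pow 2
    · exact ((ha.pow 2).mul hs).neg
    · exact contDiff_const (c := (0 : ℝ))
    · exact ((ha.pow 2).mul hs).neg
    · exact ((ha.pow 2).mul (hs.pow 2)).add (hb.pow 2)
  · ext i j
    fin_cases i <;> fin_cases j <;> simp [GN]
  · intro v hv
    have h1 := (W.αpos (x 0)).ne'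
    have h2 := (W.βpos (x 0)).ne'
    have h3 : 0 < v 0 ^ 2 + (α (x 0) * (v 1 - σ (x 0) * v 2)) ^ 2 + (β (x 0) * v 2) ^ 2 := by
      refine mtr_three fun h => mtr_ne hv ?_
      obtain ⟨a, b, c⟩ := h
      have c' : v 2 = 0 := (mul_eq_zero.1 c).resolve_left h2
      have b' := (mul_eq_zero.1 b).resolve_left h1
      rw [c'] at b'
      exact ⟨a, by linarith, c'⟩
    refine h3.trans_eq ?_
    simp [GN, dotProduct, Matrix.mulVec, Fin.sum_univ_three]
    ring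

theorem riem_GF {a D : ℝ} (ha : a ≠ 0) (hD : D ≠ 0) {U : Set (E 3)} (hU : IsOpen U) :
    IsRiemannianOn (GF a D) U := by
  refine ⟨hU, fun i j => contDiffOn_const, fun x _ => Matrix.PosDef.of_dotProduct_mulVec_pos ?_ ?_⟩
  · ext i j
    fin_cases i <;> fin_cases j <;> simp [GF]
  · intro v hv
    have h3 : 0 < (a * v 0) ^ 2 + (D * v 1) ^ 2 + (D * v 2) ^ 2 := by
      refine mtr_three fun h => mtr_ne hv ?_
      obtain ⟨a, b, c⟩ := h
      exact ⟨(mul_eq_zero.1 a).resolve_left ha, (mul_eq_zero.1 b).resolve_left hD,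
        (mul_eq_zero.1 c).resolve_left hD⟩
    refine h3.trans_eq ?_
    simp [GF, dotProduct, Matrix.mulVec, Fin.sum_univ_three]
    ring

/-- translations -/
theorem tr_add {n : ℕ} {Z : Type} {G G' : MetricField n} {f f' : E n → Z} {x l : E n}
    (hG : G' (x + l) = G x) (hf : ∀ᶠ z in 𝓝 x, f' (z + l) = f z) : Tr G G' f f' x (x + l) := by
  have h : fderiv ℝ (fun z : E n => z + l) x = ContinuousLinearMap.id ℝ (E n) := by
    rw [fderiv_add_const, fderiv_fun_id]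
  refine ⟨fun z => z + l, rfl, contDiffAt_id.add contDiffAt_const, hf, ?_, fun u v => ?_⟩
  · rw [h]
    simp
  · rw [h]
    simp only [ip, hG, ContinuousLinearMap.id_apply]

theorem contDiff_TL (cL : ℝ) : ContDiff ℝ ∞ (TL cL) := by
  exact mtr_contDiff_pol (mtr_coord 1) ((contDiff_const.sub (mtr_coord 0)).div_const _) (mtr_coord 2)

theorem contDiff_TR (cR : ℝ) : ContDiff ℝ ∞ (TR cR) := by
  exact mtr_contDiff_pol (mtr_coord 2) (((mtr_coord 0).add contDiff_const).div_const _)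
    ((mtr_coord 1).sub (mtr_coord 2))

theorem fderiv_TL (cL : ℝ) (x u : E 3) : fderiv ℝ (TL cL) x u =
    !₂[u 1, -(u 0 / DL cL) * cs (x 2) - ρL cL (x 0) * (2 * Real.pi * u 2) * sn (x 2),
      -(u 0 / DL cL) * sn (x 2) + ρL cL (x 0) * (2 * Real.pi * u 2) * cs (x 2)] := by
  have hρ : HasFDerivAt (fun y : E 3 => ρL cL (y 0))
      ((DL cL)⁻¹ • -(EuclideanSpace.proj 0 : E 3 →L[ℝ] ℝ)) x := by
    simpa only [ρL, div_eq_inv_mul] using ((mtr_hcoord 0 x).const_sub cL).const_mul (DL cL)⁻¹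
  refine (mtr_fderiv_pol (mtr_hcoord 1 x) hρ (mtr_hcoord 2 x) u).trans ?_
  simp [div_eq_inv_mul]

theorem fderiv_TR (cR : ℝ) (x u : E 3) : fderiv ℝ (TR cR) x u =
    !₂[u 2, u 0 / DR cR * cs (x 1 - x 2) -
        ρR cR (x 0) * (2 * Real.pi * (u 1 - u 2)) * sn (x 1 - x 2),
      u 0 / DR cR * sn (x 1 - x 2) +
        ρR cR (x 0) * (2 * Real.pi * (u 1 - u 2)) * cs (x 1 - x 2)] := by
  have hρ : HasFDerivAt (fun y : E 3 => ρR cR (y 0))
      ((DR cR)⁻¹ • (EuclideanSpace.proj 0 : E 3 →L[ℝ] ℝ)) x := by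
    simpa only [ρR, div_eq_inv_mul] using ((mtr_hcoord 0 x).add_const cR).const_mul (DR cR)⁻¹
  refine (mtr_fderiv_pol (mtr_hcoord 2 x) hρ ((mtr_hcoord 1 x).fun_sub (mtr_hcoord 2 x)) u).trans ?_
  simp [div_eq_inv_mul]

/-- the determinant is `2π ρL / DL` (`LinearMap.det_toMatrix` for the standard basis,
`Matrix.det_fin_three`) -/
theorem det_TL (hL : 5 < cL) {x : E 3} (hx : x ∈ ΩN) :
    0 < LinearMap.det (fderiv ℝ (TL cL) x : E 3 →ₗ[ℝ] E 3) := by
  have h1 := (ρL_mem hL hx.1 hx.2).1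
  have h2 : 0 < DL cL := by
    unfold DL
    linarith
  have h3 : 0 < 2 * Real.pi * ρL cL (x 0) / DL cL := by positivity
  refine h3.trans_eq ?_
  rw [mtr_det, Matrix.det_fin_three]
  simp only [Matrix.of_apply, fderiv_TL]
  simp
  linear_combination (-(2 * Real.pi * ρL cL (x 0) / DL cL)) * cs_sq_add_sn_sq (x 2)

/-- the determinant is `2π ρR / DR` -/
theorem det_TR (hR : 2 < cR) {x : E 3} (hx : x ∈ ΩN) :
    0 < LinearMap.det (fderiv ℝ (TR cR) x : E 3 →ₗ[ℝ] E 3) := by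
  have h1 := (ρR_mem hR hx.1 hx.2).1
  have h2 : 0 < DR cR := by
    unfold DR
    linarith
  have h3 : 0 < 2 * Real.pi * ρR cR (x 0) / DR cR := by positivity
  refine h3.trans_eq ?_
  rw [mtr_det, Matrix.det_fin_three]
  simp only [Matrix.of_apply, fderiv_TR]
  simp
  linear_combination (-(2 * Real.pi * ρR cR (x 0) / DR cR)) * cs_sq_add_sn_sq (x 1 - x 2)

/-- for `r ≤ -1`: `α = α 0`, `σ = 0`, `β = 2π (cL - r) = 2π DL ρL` -/
theorem iso_TL (W : Warp α β σ cL cR) {x : E 3} (hx : x 0 ≤ -1) (y u v : E 3) :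
    ip (GN α β σ) x u v =
      ip (GF (α 0) (DL cL)) y (fderiv ℝ (TL cL) x u) (fderiv ℝ (TL cL) x v) := by
  have h2 : DL cL ≠ 0 := by
    have := W.hcL
    unfold DL
    linarith
  have h1 : β (x 0) = 2 * Real.pi * (DL cL * ρL cL (x 0)) := by
    rw [W.βL _ hx, ρL, mul_div_cancel₀ _ h2]
  rw [fderiv_TL, fderiv_TL]
  simp only [ip, GN, GF, Fin.sum_univ_three, W.αL _ (by linarith : x 0 ≤ 0), W.σL _ (by linarith : x 0 ≤ 0), h1]
  simp
  have h3 := cs_sq_add_sn_sq (x 2)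
  field_simp
  linear_combination (-(u 0 * v 0 + (2 * Real.pi * DL cL * ρL cL (x 0)) ^ 2 * u 2 * v 2)) * h3

/-- for `4 ≤ r`: `β = β 3`, `σ = 1`, `α = 2π (r + cR) = 2π DR ρR` -/
theorem iso_TR (W : Warp α β σ cL cR) {x : E 3} (hx : 4 ≤ x 0) (y u v : E 3) :
    ip (GN α β σ) x u v =
      ip (GF (β 3) (DR cR)) y (fderiv ℝ (TR cR) x u) (fderiv ℝ (TR cR) x v) := by
  have h2 : DR cR ≠ 0 := by
    have := W.hcR
    unfold DR
    linarith
  have h1 : α (x 0) = 2 * Real.pi * (DR cR * ρR cR (x 0)) := by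
    rw [W.αR _ hx, ρR, mul_div_cancel₀ _ h2]
  rw [fderiv_TR, fderiv_TR]
  simp only [ip, GN, GF, Fin.sum_univ_three, W.βR _ (by linarith : 3 ≤ x 0), W.σR _ (by linarith : 3 ≤ x 0), h1]
  simp
  have h3 := cs_sq_add_sn_sq (x 1 - x 2)
  field_simp
  linear_combination
    (-(u 0 * v 0 + (2 * Real.pi * DR cR * ρR cR (x 0)) ^ 2 * (u 1 - u 2) * (v 1 - v 2))) * h3

/-- `τ z = TL z + l` -/
theorem tr_TL (W : Warp α β σ cL cR) {Z : Type} {f f' : E 3 → Z} {x l : E 3} (hx : x ∈ ΩN)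
    (hx1 : x 0 ≤ -1) (hf : ∀ᶠ z in 𝓝 x, f' (TL cL z + l) = f z) :
    Tr (GN α β σ) (GF (α 0) (DL cL)) f f' x (TL cL x + l) := by
  refine ⟨fun z => TL cL z + l, rfl, (contDiff_TL cL).contDiffAt.add contDiffAt_const, hf, ?_, fun u v => ?_⟩
  · rw [fderiv_add_const]
    exact det_TL W.hcL hx
  · rw [fderiv_add_const]
    exact iso_TL W hx1 _ u v

theorem tr_TR (W : Warp α β σ cL cR) {Z : Type} {f f' : E 3 → Z} {x l : E 3} (hx : x ∈ ΩN)
    (hx1 : 4 ≤ x 0) (hf : ∀ᶠ z in 𝓝 x, f' (TR cR z + l) = f z) :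
    Tr (GN α β σ) (GF (β 3) (DR cR)) f f' x (TR cR x + l) := by
  refine ⟨fun z => TR cR z + l, rfl, (contDiff_TR cR).contDiffAt.add contDiffAt_const, hf, ?_, fun u v => ?_⟩
  · rw [fderiv_add_const]
    exact det_TR W.hcR hx
  · rw [fderiv_add_const]
    exact iso_TR W hx1 _ u v

/-- inverse function theorem: `ContDiffAt.localInverse`, `ContDiffAt.to_localInverse`,
`HasStrictFDerivAt.eventually_right_inverse`, `HasStrictFDerivAt.to_localInverse`; the derivative is a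
linear equivalence since its determinant is non-zero (`LinearMap.equivOfDetNeZero`,
`ContinuousLinearMap.toContinuousLinearEquivOfDetNeZero`). -/
theorem Tr.symm {n : ℕ} {Z : Type} {G G' : MetricField n} {f f' : E n → Z} {x y : E n}
    (h : Tr G G' f f' x y) : Tr G' G f' f y x := by
  obtain ⟨τ, rfl, h1, h2, h3, h4⟩ := h
  have hd : (fderiv ℝ τ x).det ≠ 0 := h3.ne'
  set A := (fderiv ℝ τ x).toContinuousLinearEquivOfDetNeZero hd with hA
  have hAe : (A : E n →L[ℝ] E n) = fderiv ℝ τ x :=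
    ContinuousLinearMap.coe_toContinuousLinearEquivOfDetNeZero _ hd
  have hn : (∞ : ℕ∞ω) ≠ 0 := by simp
  have hf : HasFDerivAt τ (A : E n →L[ℝ] E n) x := hAe ▸ (h1.differentiableAt hn).hasFDerivAt
  have hs := h1.hasStrictFDerivAt' hf hn
  have hi : fderiv ℝ (h1.localInverse hf hn) (τ x) = (A.symm : E n →L[ℝ] E n) :=
    hs.to_localInverse.hasFDerivAt.fderiv
  refine ⟨h1.localInverse hf hn, h1.localInverse_apply_image hf hn, h1.to_localInverse hf hn, ?_, ?_,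
    fun u v => ?_⟩
  · filter_upwards [hs.eventually_right_inverse, hs.localInverse_tendsto.eventually h2] with z a b
    rw [a] at b
    exact b.symm
  · rw [hi]
    have e := A.det_coe_symm
    rw [hAe] at e
    exact (inv_pos.2 h3).trans_eq e.symm
  · rw [hi, h4, ← hAe]
    simp

end Crest.Agent.R244
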