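import Crest.Agent.R244.MGlue
import Crest.Agent.R244.MTr
import Crest.Agent.R244.MPhi

/-!
# R244 / MMain : the model manifold
-/

set_option autoImplicit false

noncomputable section

open scoped ContDiff Manifold Topology
open Set Crest.GeometryTopology.CoordMetric Crest.GeometryTopology.ChartCurvature
open Crest.GeometryTopology.Geodesic

namespace Crest.Agent.R244

/-- the three pieces -/
inductive Pc
  | N | L | R

variable {α β σ : ℝ → ℝ} {cL cR : ℝ}

theorem tr_NL (W : Warp α β σ cL cR) {x y : E 3} (hx : x ∈ ΩN) (hy : y ∈ ΩF (ρL cL (-1)))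
    (h : nfN cL cR x = nfL y) :
    Tr (GN α β σ) (GF (α 0) (DL cL)) (nfN cL cR) nfL x y := by
  obtain ⟨h1, l, hl, rfl⟩ := nfNL_eq W.hcL hx hy h
  refine tr_TL W hx h1.le ?_
  have hc : Continuous fun z : E 3 => z 0 := by fun_prop
  filter_upwards [hc.continuousAt.eventually_lt continuousAt_const h1] with z hz
  rw [nfL_add hl, nfN, nfg_left hz.le]; rfl

theorem tr_NR (W : Warp α β σ cL cR) {x y : E 3} (hx : x ∈ ΩN) (hy : y ∈ ΩF (ρR cR 4))
    (h : nfN cL cR x = nfR y) :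
    Tr (GN α β σ) (GF (β 3) (DR cR)) (nfN cL cR) nfR x y := by
  obtain ⟨h1, l, hl, rfl⟩ := nfNR_eq W.hcR hx hy h
  refine tr_TR W hx h1.le ?_
  have hc : Continuous fun z : E 3 => z 0 := by fun_prop
  filter_upwards [continuousAt_const.eventually_lt hc.continuousAt h1] with z hz
  rw [nfR_add hl, nfN, nfg_right hz.le]; rfl

/-- the gluing data of the model -/
def mglue (W : Warp α β σ cL cR) : Glue 3 Pc ZZ where
  Ω := fun | .N => ΩN | .L => ΩF (ρL cL (-1)) | .R => ΩF (ρR cR 4)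
  nf := fun | .N => nfN cL cR | .L => nfL | .R => nfR
  G := fun | .N => GN α β σ | .L => GF (α 0) (DL cL) | .R => GF (β 3) (DR cR)
  riem := fun
    | .N => riem_GN W isOpen_ΩN
    | .L => riem_GF (W.αpos 0).ne' (by have := W.hcL; unfold DL; positivity) (isOpen_ΩF _)
    | .R => riem_GF (W.βpos 3).ne' (by have := W.hcR; unfold DR; positivity) (isOpen_ΩF _)
  cont := fun
    | .N => (continuous_nfN cL cR).continuousOn
    | .L => continuous_nfL.continuousOn
    | .R => continuous_nfR.continuousOn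
  inj := fun
    | .N => locInj_of_lat isOpen_ΩN fun x hx x' hx' h => by
        obtain ⟨l, hl, -, h'⟩ := nfN_eq W.hcL W.hcR hx hx' h
        exact ⟨l, hl, h'⟩
    | .L => locInj_of_lat (isOpen_ΩF _) fun _ _ _ _ h => nfL_eq h
    | .R => locInj_of_lat (isOpen_ΩF _) fun _ _ _ _ h => nfR_eq h
  tr := fun
    | .N, .N => fun x hx y hy h => by
        obtain ⟨l, hl, h0, rfl⟩ := nfN_eq W.hcL W.hcR hx hy h
        refine tr_add ?_ (Filter.Eventually.of_forall fun z => nfN_add hl h0 z)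
        simp [GN, h0]
    | .N, .L => fun x hx y hy h => tr_NL W hx hy h
    | .N, .R => fun x hx y hy h => tr_NR W hx hy h
    | .L, .N => fun x hx y hy h => (tr_NL W hy hx h.symm).symm
    | .L, .L => fun x hx y hy h => by
        obtain ⟨l, hl, rfl⟩ := nfL_eq h
        exact tr_add rfl (Filter.Eventually.of_forall fun z => nfL_add hl z)
    | .L, .R => fun x hx y hy h => absurd h (nfL_ne_nfR x y)
    | .R, .N => fun x hx y hy h => (tr_NR W hy hx h.symm).symm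
    | .R, .L => fun x hx y hy h => absurd h.symm (nfL_ne_nfR y x)
    | .R, .R => fun x hx y hy h => by
        obtain ⟨l, hl, rfl⟩ := nfR_eq h
        exact tr_add rfl (Filter.Eventually.of_forall fun z => nfR_add hl z)

section

variable {W : Warp α β σ cL cR} {M : Type} [TopologicalSpace M] [ChartedSpace (E 3) M]
  [IsManifold 𝓘(ℝ, E 3) ∞ M] (A : Glued (mglue W) Pc.N M)

theorem Glued.q_chart {n : ℕ} {ι Z : Type} [TopologicalSpace Z] {D : Glue n ι Z} {i0 : ι}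
    {M : Type} [TopologicalSpace M] [ChartedSpace (E n) M] [IsManifold 𝓘(ℝ, E n) ∞ M]
    (A : Glued D i0 M) {m z : M} (hz : z ∈ (chartAt (E n) m).source) :
    chartAt (E n) m z ∈ D.Ω (A.idx m) ∧ A.q (A.idx m) (chartAt (E n) m z) = z := by
  have h := (chartAt (E n) m).map_source hz
  exact ⟨A.tgt m h, by rw [← A.symm m _ h, (chartAt (E n) m).left_inv hz]⟩

theorem val_cases (m : M) : (∃ x ∈ ΩN, A.val m = nfN cL cR x) ∨
    (∃ y ∈ ΩF (ρL cL (-1)), A.val m = nfL y) ∨ (∃ y ∈ ΩF (ρR cR 4), A.val m = nfR y) := by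
  obtain ⟨h1, h2⟩ := A.q_chart (mem_chart_source (E 3) m)
  have h3 := A.val_q _ _ h1
  rw [h2] at h3
  revert h1 h3
  generalize A.idx m = i
  generalize chartAt (E 3) m m = x
  intro h1 h3
  cases i with
  | N => exact Or.inl ⟨x, h1, h3⟩
  | L => exact Or.inr (Or.inl ⟨x, h1, h3⟩)
  | R => exact Or.inr (Or.inr ⟨x, h1, h3⟩)

theorem exists_Phi : ∃ Φ : ℝ × ℝ × ℝ → M, Continuous Φ ∧ ∀ p, A.val (Φ p) = Φt cL cR p := by
  have hL : ∀ p : ℝ × ℝ × ℝ, p.1 < -1 →
      pol p.2.1 (min (ρL cL p.1) (sqr p.2.2)) p.2.2 ∈ (mglue W).Ω Pc.L ∧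
      A.val (A.q Pc.L (pol p.2.1 (min (ρL cL p.1) (sqr p.2.2)) p.2.2)) = Φt cL cR p := by
    rintro ⟨r, ξ, ζ⟩ h
    obtain ⟨h1, h2⟩ := Φt_L (cR := cR) W.hcL h ξ ζ
    exact ⟨h1, by rw [A.val_q Pc.L _ h1, h2]; rfl⟩
  have hR : ∀ p : ℝ × ℝ × ℝ, 4 < p.1 →
      pol p.2.2 (min (ρR cR p.1) (sqr (p.2.1 - p.2.2))) (p.2.1 - p.2.2) ∈ (mglue W).Ω Pc.R ∧
      A.val (A.q Pc.R (pol p.2.2 (min (ρR cR p.1) (sqr (p.2.1 - p.2.2))) (p.2.1 - p.2.2))) =
        Φt cL cR p := by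
    rintro ⟨r, ξ, ζ⟩ h
    obtain ⟨h1, h2⟩ := Φt_R (cL := cL) W.hcR h ξ ζ
    exact ⟨h1, by rw [A.val_q Pc.R _ h1, h2]; rfl⟩
  have hN : ∀ p : ℝ × ℝ × ℝ, -2 < p.1 → p.1 < 5 →
      (!₂[p.1, p.2.1, p.2.2] : E 3) ∈ (mglue W).Ω Pc.N ∧
      A.val (A.q Pc.N !₂[p.1, p.2.1, p.2.2]) = Φt cL cR p := by
    rintro ⟨r, ξ, ζ⟩ h h'
    have h1 : (!₂[r, ξ, ζ] : E 3) ∈ (mglue W).Ω Pc.N := ⟨h, h'⟩
    exact ⟨h1, by rw [A.val_q Pc.N _ h1, Φt_N W.hcL W.hcR h h']; rfl⟩
  have hex : ∀ p : ℝ × ℝ × ℝ, ∃ m, A.val m = Φt cL cR p := by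
    intro p
    by_cases h1 : p.1 < -1
    · exact ⟨_, (hL p h1).2⟩
    by_cases h2 : 4 < p.1
    · exact ⟨_, (hR p h2).2⟩
    exact ⟨_, (hN p (by linarith) (by linarith)).2⟩
  choose Φ hΦ using hex
  refine ⟨Φ, continuous_iff_continuousAt.2 fun p => ?_, hΦ⟩
  have key : ∀ (i : Pc) (f : ℝ × ℝ × ℝ → E 3), Continuous f →
      (∀ᶠ p' in 𝓝 p, f p' ∈ (mglue W).Ω i ∧ A.val (A.q i (f p')) = Φt cL cR p') →
      ContinuousAt Φ p := by
    intro i f hf hev
    have h1 : ContinuousAt (fun p' => A.q i (f p')) p :=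
      ContinuousAt.comp (f := f)
        ((A.cq i).continuousAt (((mglue W).riem i).isOpen.mem_nhds hev.self_of_nhds.1))
        hf.continuousAt
    refine h1.congr ?_
    filter_upwards [hev] with p' hp' using A.ival (by rw [hp'.2, hΦ])
  by_cases h1 : p.1 < -1
  · refine key Pc.L _ (continuous_polL cL) ?_
    filter_upwards [continuousAt_fst.eventually_lt continuousAt_const h1] with p' hp'
      using hL p' hp'
  by_cases h2 : 4 < p.1
  · refine key Pc.R _ (continuous_polR cR) ?_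
    filter_upwards [continuousAt_const.eventually_lt continuousAt_fst h2] with p' hp'
      using hR p' hp'
  refine key Pc.N _ continuous_mkN ?_
  filter_upwards [continuousAt_const.eventually_lt continuousAt_fst (show -2 < p.1 by linarith),
    continuousAt_fst.eventually_lt continuousAt_const (show p.1 < 5 by linarith)] with p' hp' hp''
    using hN p' hp' hp''

theorem image_box {Φ : ℝ × ℝ × ℝ → M} (hΦ : ∀ p, A.val (Φ p) = Φt cL cR p) :
    Φ '' box cL cR = univ := by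
  refine eq_univ_of_forall fun m => ?_
  have : ∃ p ∈ box cL cR, Φt cL cR p = A.val m := by
    rcases val_cases A m with ⟨x, hx, h⟩ | ⟨x, hx, h⟩ | ⟨x, hx, h⟩
    · rw [h]; exact surj_N W.hcL W.hcR hx
    · rw [h]; exact surj_L W.hcL W.hcR hx
    · rw [h]; exact surj_R W.hcL W.hcR hx
  obtain ⟨p, hp, h⟩ := this
  exact ⟨p, hp, A.ival (by rw [hΦ, h])⟩

/-- the topological data -/
def mtop {Φ : ℝ × ℝ × ℝ → M} (hc : Continuous Φ) (hΦ : ∀ p, A.val (Φ p) = Φt cL cR p) :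
    TopData M where
  Φ := Φ
  cont := hc
  per1 r ξ ζ := A.ival (by
    rw [hΦ, hΦ]; simpa using Φt_add_int (cL := cL) (cR := cR) r ξ ζ 1 0)
  per2 r ξ ζ := A.ival (by
    rw [hΦ, hΦ]; simpa using Φt_add_int (cL := cL) (cR := cR) r ξ ζ 0 1)
  tL := -cL - 6
  tR := cR + 12
  L1 ξ θ h := A.ival (by rw [hΦ, hΦ]; exact Φt_L1 W.hcL ξ θ h)
  L2 ξ θ h h' := A.ival (by rw [hΦ, hΦ]; exact Φt_L2 W.hcL ξ θ h h')
  R1 ζ θ h := A.ival (by rw [hΦ, hΦ]; exact Φt_R1 W.hcR ζ θ h)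
  R2 ζ θ h h' := A.ival (by rw [hΦ, hΦ]; exact Φt_R2 W.hcR ζ θ h h')
  κ m := (A.val m).1
  A1 m := (A.val m).2.1.1
  A2 m := (A.val m).2.2.1
  B1 m := (A.val m).2.2.2.1
  B2 m := (A.val m).2.2.2.2
  cκ := A.cval.fst
  cA1 := A.cval.snd.fst.fst
  cA2 := A.cval.snd.snd.fst
  cB1 := A.cval.snd.snd.snd.fst
  cB2 := A.cval.snd.snd.snd.snd
  shape m := by
    rcases val_cases A m with ⟨x, hx, h⟩ | ⟨x, hx, h⟩ | ⟨x, hx, h⟩
    · exact shape_N W.hcR hx _ h
    · exact shape_L x _ h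
    · exact shape_R hx _ h
  loopκ ξ ζ := by rw [hΦ]; exact (Φt_loop W.hcL ξ ζ).1
  loopA ξ ζ := by rw [hΦ]; exact (Φt_loop W.hcL ξ ζ).2

/-- the geometric data -/
def mgeo : GeoData α β σ A.g where
  Nk := {m | A.idx m = Pc.N}
  κ m := (A.val m).1
  cκ := A.cval.fst
  src x hx z hz := by
    obtain ⟨h1, h2⟩ := A.q_chart hz
    rw [show A.idx x = Pc.N from hx] at h1 h2
    rw [← h2]; exact A.pref _ h1
  met x hx y hy := by
    rw [A.met x y hy, show A.idx x = Pc.N from hx]; rfl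
  trans x hx x' hx' z hz := by
    obtain ⟨h1, h2⟩ := A.q_chart hz.1
    obtain ⟨h1', h2'⟩ := A.q_chart hz.2
    rw [show A.idx x = Pc.N from hx] at h1 h2
    rw [show A.idx x' = Pc.N from hx'] at h1' h2'
    have h3 : nfN cL cR (chartAt (E 3) x z) = nfN cL cR (chartAt (E 3) x' z) := by
      have a1 := A.val_q _ _ h1
      have a2 := A.val_q _ _ h1'
      rw [h2] at a1
      rw [h2'] at a2
      exact a1.symm.trans a2
    obtain ⟨l, hl, h0, hl'⟩ := nfN_eq W.hcL W.hcR h1 h1' h3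
    refine ⟨l, h0, ?_⟩
    have hc : ContinuousAt (fun m => chartAt (E 3) x m + l) z :=
      ((chartAt (E 3) x).continuousAt hz.1).add continuousAt_const
    have e1 : ∀ᶠ m in 𝓝 z, chartAt (E 3) x m + l ∈ (chartAt (E 3) x').target :=
      hc.eventually_mem ((chartAt (E 3) x').open_target.mem_nhds (by
        rw [← hl']; exact (chartAt (E 3) x').map_source hz.2))
    have e2 : ∀ᶠ m in 𝓝 z, m ∈ (chartAt (E 3) x).source :=
      (chartAt (E 3) x).open_source.mem_nhds hz.1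
    filter_upwards [e1, e2] with m hm1 hm2
    obtain ⟨b1, b2⟩ := A.q_chart hm2
    rw [show A.idx x = Pc.N from hx] at b1 b2
    have b3 := A.tgt x' hm1
    have b4 := A.symm x' _ hm1
    rw [show A.idx x' = Pc.N from hx'] at b3 b4
    have b5 : A.q Pc.N (chartAt (E 3) x m + l) = m := by
      apply A.ival
      conv_rhs => rw [← b2]
      rw [A.val_q _ _ b3, A.val_q _ _ b1]
      exact nfN_add hl h0 _
    rw [b5] at b4
    conv_lhs => rw [← b4]
    exact (chartAt (E 3) x').right_inv hm1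
  κN x hx := by
    obtain ⟨h1, h2⟩ := A.q_chart (mem_chart_source (E 3) x)
    rw [show A.idx x = Pc.N from hx] at h1 h2
    have a1 := A.val_q _ _ h1
    rw [h2] at a1
    rw [a1]; rfl
  κF x hx := by
    obtain ⟨h1, h2⟩ := A.q_chart (mem_chart_source (E 3) x)
    have a1 := A.val_q _ _ h1
    rw [h2] at a1
    have hx' : A.idx x ≠ Pc.N := hx
    revert a1 hx'
    generalize A.idx x = i
    intro a1 hx'
    cases i with
    | N => exact absurd rfl hx'
    | L => left; rw [a1]; rfl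
    | R => right; rw [a1]; rfl
  flat x hx := by
    have hx' : A.idx x ≠ Pc.N := hx
    have a1 := A.met x
    revert a1 hx'
    generalize A.idx x = i
    intro hx' a1
    cases i with
    | N => exact absurd rfl hx'
    | L => exact ⟨GF (α 0) (DL cL) 0, fun y hy => a1 y hy⟩
    | R => exact ⟨GF (β 3) (DR cR) 0, fun y hy => a1 y hy⟩

end

theorem model : ModelStmt := by
  intro α β σ cL cR W
  obtain ⟨M, i1, i2, i3, ⟨A⟩⟩ := (mglue W).exists_glued Pc.N
    ⟨0, show (-2 : ℝ) < (0 : E 3) 0 ∧ (0 : E 3) 0 < 5 by norm_num⟩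
  obtain ⟨Φ, hc, hΦ⟩ := exists_Phi A
  have hb := image_box A hΦ
  refine ⟨M, i1, i2, i3, T2Space.of_injective_continuous A.ival A.cval, ⟨?_⟩, ?_, A.ori,
    ⟨mtop A hc hΦ⟩, A.g, ⟨mgeo A⟩⟩
  · rw [← hb]
    exact (isCompact_Icc.prod (isCompact_Icc.prod isCompact_Icc)).image hc
  · refine Function.Surjective.connectedSpace (f := Φ) (fun m => ?_) hc
    obtain ⟨p, -, hp⟩ : m ∈ Φ '' box cL cR := by rw [hb]; trivial
    exact ⟨p, hp⟩

end Crest.Agent.R244
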