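import Crest.Agent.R244.MDefs

/-!
# R244 / MMetric : a smooth Riemannian metric from compatible chart metrics
-/

set_option autoImplicit false

noncomputable section

open scoped ContDiff Manifold Topology
open Set Crest.GeometryTopology.CoordMetric Crest.GeometryTopology.ChartCurvature
open Crest.GeometryTopology.Geodesic

namespace Crest.Agent.R244

variable {n : ℕ} {M : Type} [TopologicalSpace M] [ChartedSpace (E n) M]
  [IsManifold 𝓘(ℝ, E n) ∞ M]

/-- the bilinear form of a matrix -/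
def mmet_B (A : Matrix (Fin n) (Fin n) ℝ) : E n →L[ℝ] E n →L[ℝ] ℝ :=
  ∑ i, ∑ j, A i j • (EuclideanSpace.proj i : E n →L[ℝ] ℝ).smulRight (EuclideanSpace.proj j : E n →L[ℝ] ℝ)

theorem mmet_B_apply (A : Matrix (Fin n) (Fin n) ℝ) (u v : E n) :
    mmet_B A u v = ∑ i, ∑ j, A i j * u i * v j := by
  simp [mmet_B, mul_assoc]

theorem mmet_symm {A : Matrix (Fin n) (Fin n) ℝ} (hA : A.PosDef) (u v : E n) :
    mmet_B A u v = mmet_B A v u := by
  rw [mmet_B_apply, mmet_B_apply, Finset.sum_comm]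
  refine Finset.sum_congr rfl fun i _ => Finset.sum_congr rfl fun j _ => ?_
  have h : A j i = A i j := by simpa using hA.isHermitian.apply i j
  rw [h]
  ring

theorem mmet_pos {A : Matrix (Fin n) (Fin n) ℝ} (hA : A.PosDef) {v : E n} (hv : v ≠ 0) :
    0 < mmet_B A v v := by
  have h0 : v.ofLp ≠ 0 := fun h => hv (by ext i; simpa using congrFun h i)
  have h := hA.dotProduct_mulVec_pos h0
  rw [mmet_B_apply]
  refine h.trans_eq ?_
  simp only [star_trivial, dotProduct, Matrix.mulVec, Finset.mul_sum]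
  refine Finset.sum_congr rfl fun i _ => Finset.sum_congr rfl fun j _ => ?_
  ring

theorem mmet_bdd {A : Matrix (Fin n) (Fin n) ℝ} (hA : A.PosDef) :
    Bornology.IsVonNBounded ℝ {v : E n | mmet_B A v v < 1} := by
  have hc : Continuous fun v : E n => mmet_B A v v := by fun_prop
  obtain ⟨c, hc0, hc⟩ := (isCompact_sphere (0 : E n) 1).exists_forall_le' (a := 0) hc.continuousOn
    fun v hv => mmet_pos hA (by
      rintro rfl
      simp at hv)
  refine (NormedSpace.isVonNBounded_closedBall ℝ (E n) (1 / c + 1)).subset fun v hv => ?_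
  rw [mem_closedBall_zero_iff]
  have hc1 : 0 < 1 / c := by positivity
  by_cases h0 : v = 0
  · rw [h0, norm_zero]
    linarith
  have hn : 0 < ‖v‖ := norm_pos_iff.2 h0
  have h1 := hc (‖v‖⁻¹ • v) (by simp [norm_smul, hn.ne'])
  simp only [map_smul, smul_apply, smul_eq_mul] at h1
  have h2 : mmet_B A v v < 1 := hv
  have h3 : c * ‖v‖ ^ 2 ≤ mmet_B A v v := by
    have : ‖v‖⁻¹ * (‖v‖⁻¹ * mmet_B A v v) = mmet_B A v v / ‖v‖ ^ 2 := by field_simp
    rwa [this, le_div_iff₀ (by positivity)] at h1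
  have h4 : ‖v‖ ^ 2 ≤ 1 / c := by
    rw [le_div_iff₀ hc0]
    linarith
  nlinarith [sq_nonneg (‖v‖ - 1)]

theorem mmet_contDiffOn {G : MetricField n} {U : Set (E n)} (h : IsRiemannianOn G U) :
    ContDiffOn ℝ ∞ (fun y => mmet_B (G y)) U := by
  refine contDiffOn_clm_apply.2 fun u => contDiffOn_clm_apply.2 fun v => ?_
  simp only [mmet_B_apply]
  exact ContDiffOn.sum fun i _ => ContDiffOn.sum fun j _ =>
    ((h.contDiffOn i j).mul contDiffOn_const).mul contDiffOn_const

theorem mmet_symm_triv {m₀ m : M} (hm : m ∈ (chartAt (E n) m₀).source) (v : E n) :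
    (trivializationAt (E n) (TangentSpace 𝓘(ℝ, E n)) m₀).symm m v =
      fderiv ℝ (chartAt (E n) m ∘ (chartAt (E n) m₀).symm) (chartAt (E n) m₀ m) v := by
  have h := TangentBundle.symmL_trivializationAt_eq_core (I := 𝓘(ℝ, E n)) hm
  rw [tangentBundleCore_coordChange_achart] at h
  have h2 := DFunLike.congr_fun h v
  refine Eq.trans ?_ (h2.trans ?_)
  · exact (Bundle.Trivialization.symmL_apply (R := ℝ) _ (by simpa using hm) v).symm
  simp only [mfld_simps, fderivWithin_univ]
  rfl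

omit [IsManifold 𝓘(ℝ, E n) ∞ M] in
theorem mmet_mfderiv [IsManifold 𝓘(ℝ, E n) 1 M] (m : M) {y : E n} (hy : y ∈ (chartAt (E n) m).target)
    (v : E n) : mfderiv 𝓘(ℝ, E n) 𝓘(ℝ, E n) (chartAt (E n) m).symm y v =
      fderiv ℝ (chartAt (E n) ((chartAt (E n) m).symm y) ∘ (chartAt (E n) m).symm) y v := by
  have h : MDifferentiableAt 𝓘(ℝ, E n) 𝓘(ℝ, E n) (chartAt (E n) m).symm y :=
    mdifferentiableAt_atlas_symm (chart_mem_atlas _ m) hy
  rw [h.mfderiv]
  simp only [mfld_simps, fderivWithin_univ]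
  rfl

/-- `g.inner m u v := ip (Gc m) (chartAt m m) u v`.  Smoothness: `contMDiffAt_section`,
`hom_trivializationAt_apply`, `inCoordinates_apply_eq₂`, `TangentBundle.symmL_trivializationAt_eq_core`,
`tangentBundleCore_coordChange_achart`: near `m₀` the section read in the trivialization at `m₀` is
`m ↦ ip (Gc m₀) (chartAt m₀ m)`. -/
theorem exists_met_of_charts (Gc : M → MetricField n)
    (riem : ∀ m, IsRiemannianOn (Gc m) (chartAt (E n) m).target)
    (comp : ∀ m m' : M, ∀ z ∈ (chartAt (E n) m).source, z ∈ (chartAt (E n) m').source → ∀ u v,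
      ip (Gc m) (chartAt (E n) m z) u v = ip (Gc m') (chartAt (E n) m' z)
        (fderiv ℝ (chartAt (E n) m' ∘ (chartAt (E n) m).symm) (chartAt (E n) m z) u)
        (fderiv ℝ (chartAt (E n) m' ∘ (chartAt (E n) m).symm) (chartAt (E n) m z) v)) :
    ∃ g : Met n M, ∀ m, ∀ y ∈ (chartAt (E n) m).target, metricInChart g m y = Gc m y := by
  have hp : ∀ m : M, (Gc m (chartAt (E n) m m)).PosDef := fun m =>
    (riem m).posDef _ (mem_chart_target _ m)
  refine ⟨⟨fun m => mmet_B (Gc m (chartAt (E n) m m)), fun m u v => mmet_symm (hp m) u v,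
    fun m v hv => mmet_pos (hp m) hv, fun m => mmet_bdd (hp m), fun m₀ => ?_⟩, fun m y hy => ?_⟩
  · refine (Bundle.contMDiffAt_section m₀).2 ?_
    have h1 : ContMDiffAt 𝓘(ℝ, E n) 𝓘(ℝ, E n →L[ℝ] E n →L[ℝ] ℝ) ∞
        (fun m => mmet_B (Gc m₀ (chartAt (E n) m₀ m))) m₀ := by
      have h2 : ContDiffAt ℝ ∞ (fun y => mmet_B (Gc m₀ y)) (chartAt (E n) m₀ m₀) :=
        (mmet_contDiffOn (riem m₀)).contDiffAt ((riem m₀).isOpen.mem_nhds (mem_chart_target _ m₀))
      have h3 : ContMDiffAt 𝓘(ℝ, E n) 𝓘(ℝ, E n) ∞ (chartAt (E n) m₀) m₀ :=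
        contMDiffOn_chart.contMDiffAt (chart_source_mem_nhds _ m₀)
      exact h2.comp_contMDiffAt h3
    refine h1.congr_of_eventuallyEq ?_
    filter_upwards [chart_source_mem_nhds (E n) m₀] with m hm
    ext v w
    rw [hom_trivializationAt_apply]
    dsimp only
    have hb : m ∈ (trivializationAt (E n) (TangentSpace 𝓘(ℝ, E n)) m₀).baseSet := by simpa using hm
    refine (inCoordinates_apply_eq₂ (𝕜 := ℝ) (F₁ := E n) (F₂ := E n) (F₃ := ℝ)
      (E₁ := TangentSpace 𝓘(ℝ, E n)) (E₂ := TangentSpace 𝓘(ℝ, E n)) (E₃ := Bundle.Trivial M ℝ)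
      hb hb (mem_univ _)).trans ?_
    rw [mmet_symm_triv hm, mmet_symm_triv hm]
    have h4 := comp m₀ m m hm (mem_chart_source _ m) v w
    rw [mmet_B_apply]
    refine Eq.trans ?_ h4.symm
    simp only [Bundle.Trivial.fiberBundle_trivializationAt',
      Bundle.Trivial.linearMapAt_trivialization, LinearMap.id_coe, id_eq]
    exact mmet_B_apply _ _ _
  · ext i j
    have hz := (chartAt (E n) m).map_target hy
    have h4 := comp m _ _ hz (mem_chart_source _ _) (EuclideanSpace.single i 1) (EuclideanSpace.single j 1)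
    rw [(chartAt (E n) m).right_inv hy] at h4
    have h5 : ip (Gc m) y (EuclideanSpace.single i 1) (EuclideanSpace.single j 1) = Gc m y i j := by
      simp [ip]
    rw [← h5, h4, ← mmet_mfderiv m hy, ← mmet_mfderiv m hy]
    exact mmet_B_apply _ _ _

end Crest.Agent.R244
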