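import Crest.Agent.R244.MEe

/-!
# R244 / MNf : fibres of the normal forms
-/

set_option autoImplicit false

noncomputable section

open scoped ContDiff Manifold Topology
open Set Crest.GeometryTopology.CoordMetric Crest.GeometryTopology.ChartCurvature
open Crest.GeometryTopology.Geodesic

namespace Crest.Agent.R244

variable {cL cR : ℝ}

theorem continuous_nfN (cL cR : ℝ) : Continuous (nfN cL cR) := by
  have h1 := continuous_ee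
  have h2 := continuous_cs
  have h3 := continuous_sn
  have h4 := continuous_clamp
  unfold nfN nfg ρL ρR
  fun_prop

theorem continuous_nfL : Continuous nfL := by
  have h1 := continuous_ee
  unfold nfL
  fun_prop

theorem continuous_nfR : Continuous nfR := by
  have h1 := continuous_ee
  unfold nfR
  fun_prop

theorem nfg_add_int (a b r ξ ζ : ℝ) (k m : ℤ) : nfg a b r (ξ + k) (ζ + m) = nfg a b r ξ ζ := by
  have : ξ + k - (ζ + m) = ξ - ζ + (k - m : ℤ) := by push_cast; ring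
  simp only [nfg, this, ee_add_int, cs_add_int, sn_add_int]

theorem nfN_add {l : E 3} (hl : Lat l) (h0 : l 0 = 0) (x : E 3) :
    nfN cL cR (x + l) = nfN cL cR x := by
  obtain ⟨k, hk⟩ := hl 1
  obtain ⟨m, hm⟩ := hl 2
  simp only [nfN, PiLp.add_apply, h0, hk, hm, add_zero, nfg_add_int]

theorem nfL_add {l : E 3} (hl : Lat l) (y : E 3) : nfL (y + l) = nfL y := by
  choose k hk using hl
  simp only [nfL, PiLp.add_apply, hk, ee_add_int]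

theorem nfR_add {l : E 3} (hl : Lat l) (y : E 3) : nfR (y + l) = nfR y := by
  choose k hk using hl
  simp only [nfR, PiLp.add_apply, hk, ee_add_int]

theorem nfg_left {r : ℝ} (hr : r ≤ -1) (a b ξ ζ : ℝ) : nfg a b r ξ ζ = nfL (pol ξ a ζ) := by
  simp [nfg, nfL, pol, clamp_eq_left.2 hr]
  norm_num

theorem nfg_right {r : ℝ} (hr : 4 ≤ r) (a b ξ ζ : ℝ) :
    nfg a b r ξ ζ = nfR (pol ζ b (ξ - ζ)) := by
  simp [nfg, nfR, pol, clamp_eq_right.2 hr]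
  norm_num

theorem nf_lat {x x' : E 3} (h0 : ∃ k : ℤ, x' 0 = x 0 + k) (h1 : ∃ k : ℤ, x' 1 = x 1 + k)
    (h2 : ∃ k : ℤ, x' 2 = x 2 + k) : Lat (x' - x) := fun i => by
  have : ∃ k : ℤ, x' i = x i + k := by
    fin_cases i
    exacts [h0, h1, h2]
  exact this.imp fun k hk => by rw [PiLp.sub_apply, hk, add_sub_cancel_left]

theorem nf_abs {a c : ℝ} (ha : 0 < a ∧ a < 1 / 2) (hc : |c| ≤ 1) : |a * c| < 1 / 2 := by
  rw [abs_mul, abs_of_pos ha.1]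
  exact (mul_le_of_le_one_right ha.1.le hc).trans_lt ha.2

theorem nf_polar {a a' θ θ' : ℝ} (ha : 0 < a ∧ a < 1 / 2) (ha' : 0 < a' ∧ a' < 1 / 2)
    (h1 : ee (a * cs θ) = ee (a' * cs θ')) (h2 : ee (a * sn θ) = ee (a' * sn θ')) :
    a = a' ∧ ∃ k : ℤ, θ' = θ + k :=
  polar_unique ha.1 ha'.1 (eq_of_ee_eq (nf_abs ha (abs_cs_le _)) (nf_abs ha' (abs_cs_le _)) h1)
    (eq_of_ee_eq (nf_abs ha (abs_sn_le _)) (nf_abs ha' (abs_sn_le _)) h2)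

theorem nfL_eq {y y' : E 3} (h : nfL y = nfL y') : ∃ l, Lat l ∧ y' = y + l := by
  simp only [nfL, Prod.mk.injEq, mul_right_inj' (by norm_num : (5 : ℂ) ≠ 0), ee_eq_iff] at h
  exact ⟨_, nf_lat h.2.1.1 h.2.1.2.1 h.2.1.2.2, (add_sub_cancel _ _).symm⟩

theorem nfR_eq {y y' : E 3} (h : nfR y = nfR y') : ∃ l, Lat l ∧ y' = y + l := by
  simp only [nfR, Prod.mk.injEq, mul_right_inj' (by norm_num : (5 : ℂ) ≠ 0), ee_eq_iff] at h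
  exact ⟨_, nf_lat h.2.2.1 h.2.2.2.1 h.2.2.2.2, (add_sub_cancel _ _).symm⟩

/-- If `clamp (x 0) < 4` use the first triple (`eq_of_ee_eq`, `polar_unique` for `ρL`), otherwise the
second one (`ρR`). -/
theorem nfN_eq (hL : 5 < cL) (hR : 2 < cR) {x x' : E 3} (hx : x ∈ ΩN) (hx' : x' ∈ ΩN)
    (h : nfN cL cR x = nfN cL cR x') : ∃ l, Lat l ∧ l 0 = 0 ∧ x' = x + l := by
  simp only [nfN, nfg, Prod.mk.injEq] at h
  obtain ⟨hc, ⟨h1, h2, h3⟩, h4, h5, h6⟩ := h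
  rw [← hc] at h1 h2 h3 h4 h5 h6
  suffices h : x' 0 = x 0 ∧ (∃ k : ℤ, x' 1 = x 1 + k) ∧ ∃ k : ℤ, x' 2 = x 2 + k from
    ⟨_, nf_lat ⟨0, by simp [h.1]⟩ h.2.1 h.2.2, by simp [h.1], (add_sub_cancel _ _).symm⟩
  by_cases h : clamp (x 0) = 4
  · have k : ((clamp (x 0) + 1 : ℝ) : ℂ) ≠ 0 := by rw [h]; norm_num
    obtain ⟨e, m, hm⟩ := nf_polar (ρR_mem hR hx.1 hx.2) (ρR_mem hR hx'.1 hx'.2)
      (mul_left_cancel₀ k h5) (mul_left_cancel₀ k h6)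
    obtain ⟨j, hj⟩ := (ee_eq_iff _ _).1 (mul_left_cancel₀ k h4)
    exact ⟨le_antisymm (not_lt.1 fun h => ((ρR_lt_iff hR _ _).2 h).ne e)
      (not_lt.1 fun h => ((ρR_lt_iff hR _ _).2 h).ne' e), ⟨m + j, by push_cast; linarith⟩, j, hj⟩
  · have k : ((4 - clamp (x 0) : ℝ) : ℂ) ≠ 0 := Complex.ofReal_ne_zero.2 (sub_ne_zero.2 (Ne.symm h))
    obtain ⟨e, hm⟩ := nf_polar (ρL_mem hL hx.1 hx.2) (ρL_mem hL hx'.1 hx'.2)
      (mul_left_cancel₀ k h2) (mul_left_cancel₀ k h3)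
    exact ⟨le_antisymm (not_lt.1 fun h => ((ρL_lt_iff hL _ _).2 h).ne' e)
      (not_lt.1 fun h => ((ρL_lt_iff hL _ _).2 h).ne e),
      (ee_eq_iff _ _).1 (mul_left_cancel₀ k h1), hm⟩

/-- `x 0 ≤ -1` from the first coordinate, then `nfg_left`, `nfL_eq`, `add_mem_ΩF`, `pol_mem_ΩF`. -/
theorem nfNL_eq (hL : 5 < cL) {x y : E 3} (hx : x ∈ ΩN) (hy : y ∈ ΩF (ρL cL (-1)))
    (h : nfN cL cR x = nfL y) : x 0 < -1 ∧ ∃ l, Lat l ∧ y = TL cL x + l := by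
  have h0 : x 0 ≤ -1 := clamp_eq_left.1 (congrArg Prod.fst h)
  rw [nfN, nfg_left h0] at h
  obtain ⟨l, hl, rfl⟩ := nfL_eq h
  have k := ρL_mem hL hx.1 hx.2
  rw [add_mem_ΩF hl, pol_mem_ΩF (ρL_mem hL (by norm_num) (by norm_num)).1.le k.1.le
    (k.2.le.trans (half_le_sqr _)), ρL_lt_iff hL] at hy
  exact ⟨hy, l, hl, rfl⟩

theorem nfNR_eq (hR : 2 < cR) {x y : E 3} (hx : x ∈ ΩN) (hy : y ∈ ΩF (ρR cR 4))
    (h : nfN cL cR x = nfR y) : 4 < x 0 ∧ ∃ l, Lat l ∧ y = TR cR x + l := by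
  have h0 : 4 ≤ x 0 := clamp_eq_right.1 (congrArg Prod.fst h)
  rw [nfN, nfg_right h0] at h
  obtain ⟨l, hl, rfl⟩ := nfR_eq h
  have k := ρR_mem hR hx.1 hx.2
  rw [add_mem_ΩF hl, pol_mem_ΩF (ρR_mem hR (by norm_num) (by norm_num)).1.le k.1.le
    (k.2.le.trans (half_le_sqr _)), ρR_lt_iff hR] at hy
  exact ⟨hy, l, hl, rfl⟩

theorem nfL_ne_nfR (y y' : E 3) : nfL y ≠ nfR y' := by
  intro h
  have : (-1 : ℝ) = 4 := congrArg Prod.fst h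
  norm_num at this

/-- local injectivity: on `Ω ∩ ball x (1/2)`, by `Lat.eq_zero` -/
theorem locInj_of_lat {Z : Type} {f : E 3 → Z} {Ω : Set (E 3)} (hΩ : IsOpen Ω)
    (h : ∀ x ∈ Ω, ∀ x' ∈ Ω, f x = f x' → ∃ l, Lat l ∧ x' = x + l) :
    ∀ x ∈ Ω, ∃ U ∈ 𝓝 x, InjOn f U := by
  refine fun x hx => ⟨Ω ∩ Metric.ball x (1 / 2), Filter.inter_mem (hΩ.mem_nhds hx)
    (Metric.ball_mem_nhds x (by norm_num)), fun a ha b hb e => ?_⟩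
  obtain ⟨l, hl, rfl⟩ := h a ha.1 b hb.1 e
  have := dist_triangle_right a (a + l) x
  rw [dist_self_add_right] at this
  rw [hl.eq_zero (by linarith [Metric.mem_ball.1 ha.2, Metric.mem_ball.1 hb.2]), add_zero]

/-- the field `TopData.shape` on the neck -/
theorem shape_N (hR : 2 < cR) {x : E 3} (hx : x ∈ ΩN) (z : ZZ) (hz : z = nfN cL cR x) :
    ∃ ξ ζ x1 x2 : ℝ, -1 ≤ z.1 ∧ z.1 ≤ 4 ∧ z.2.1.1 = (4 - z.1 : ℝ) * ee ξ ∧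
    z.2.2.1 = (z.1 + 1 : ℝ) * ee ζ ∧ z.2.2.2.1 = (z.1 + 1 : ℝ) * ee x1 ∧
    z.2.2.2.2 = (z.1 + 1 : ℝ) * ee x2 ∧
    (z.1 = 4 → ¬ (ee x1 = 1 ∧ ee x2 = 1)) ∧
    (z.1 < 4 → z.1 = -1 ∨ ∃ ρ : ℝ, 0 < ρ ∧ ρ < 1 / 2 ∧
      x1 = ρ * Real.cos (2 * Real.pi * (ξ - ζ)) ∧ x2 = ρ * Real.sin (2 * Real.pi * (ξ - ζ))) := by
  subst hz
  have k := ρR_mem hR hx.1 hx.2
  refine ⟨x 1, x 2, _, _, (clamp_mem _).1, (clamp_mem _).2, rfl, rfl, rfl, rfl, fun _ h => ?_,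
    fun _ => Or.inr ⟨_, k.1, k.2, rfl, rfl⟩⟩
  have e0 : ee 0 = 1 := by simp [ee]
  have h1 := eq_of_ee_eq (nf_abs k (abs_cs_le _)) (by norm_num) (h.1.trans e0.symm)
  have h2 := eq_of_ee_eq (nf_abs k (abs_sn_le _)) (by norm_num) (h.2.trans e0.symm)
  have := cs_sq_add_sn_sq (x 1 - x 2)
  rw [(mul_eq_zero.1 h1).resolve_left k.1.ne', (mul_eq_zero.1 h2).resolve_left k.1.ne'] at this
  norm_num at this

theorem shape_L (y : E 3) (z : ZZ) (hz : z = nfL y) :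
    ∃ ξ ζ x1 x2 : ℝ, -1 ≤ z.1 ∧ z.1 ≤ 4 ∧ z.2.1.1 = (4 - z.1 : ℝ) * ee ξ ∧
    z.2.2.1 = (z.1 + 1 : ℝ) * ee ζ ∧ z.2.2.2.1 = (z.1 + 1 : ℝ) * ee x1 ∧
    z.2.2.2.2 = (z.1 + 1 : ℝ) * ee x2 ∧
    (z.1 = 4 → ¬ (ee x1 = 1 ∧ ee x2 = 1)) ∧
    (z.1 < 4 → z.1 = -1 ∨ ∃ ρ : ℝ, 0 < ρ ∧ ρ < 1 / 2 ∧
      x1 = ρ * Real.cos (2 * Real.pi * (ξ - ζ)) ∧ x2 = ρ * Real.sin (2 * Real.pi * (ξ - ζ))) := by
  subst hz
  refine ⟨y 0, 0, 0, 0, ?_⟩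
  norm_num [nfL]

theorem shape_R {ρ0 : ℝ} {y : E 3} (hy : y ∈ ΩF ρ0) (z : ZZ) (hz : z = nfR y) :
    ∃ ξ ζ x1 x2 : ℝ, -1 ≤ z.1 ∧ z.1 ≤ 4 ∧ z.2.1.1 = (4 - z.1 : ℝ) * ee ξ ∧
    z.2.2.1 = (z.1 + 1 : ℝ) * ee ζ ∧ z.2.2.2.1 = (z.1 + 1 : ℝ) * ee x1 ∧
    z.2.2.2.2 = (z.1 + 1 : ℝ) * ee x2 ∧
    (z.1 = 4 → ¬ (ee x1 = 1 ∧ ee x2 = 1)) ∧
    (z.1 < 4 → z.1 = -1 ∨ ∃ ρ : ℝ, 0 < ρ ∧ ρ < 1 / 2 ∧
      x1 = ρ * Real.cos (2 * Real.pi * (ξ - ζ)) ∧ x2 = ρ * Real.sin (2 * Real.pi * (ξ - ζ))) := by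
  subst hz
  refine ⟨0, y 0, y 1, y 2, ?_⟩
  have e0 : ee 0 = 1 := by simp [ee]
  have k : ∀ t, ee t = 1 → nr t = 0 := fun t ht => by
    obtain ⟨k, rfl⟩ := (ee_eq_iff _ _).1 (e0.trans ht.symm)
    rw [nr_add_int, nr_eq_abs (by norm_num), abs_zero]
  norm_num [nfR]
  intro h1 h2
  have : ρ0 ^ 2 < nr (y 1) ^ 2 + nr (y 2) ^ 2 := hy
  rw [k _ h1, k _ h2] at this
  nlinarith [sq_nonneg ρ0]

end Crest.Agent.R244
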