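import Mathlib

/-!
# R244, part T: the algebra of translation lengths in a space with CN midpoints

`CN E` is a (pseudo-)distance on `E` with Bruhat–Tits (CN) midpoints.  For a group acting by
isometries, `L g = inf_x d x (g • x)` is homogeneous, satisfies the parallelogram law on commuting
pairs, and `L (c ^ m * z) ^ 2 = L z ^ 2 + m ^ 2 * L c ^ 2` whenever `z` lies in the commutator
subgroup of the centraliser of `c`.
-/

set_option autoImplicit false

open Filter Topology
open scoped commutatorElement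

namespace Crest.Agent.R244

/-- A pseudo-distance with CN midpoints. -/
structure CN (E : Type*) where
  d : E → E → ℝ
  d_self : ∀ x, d x x = 0
  d_comm : ∀ x y, d x y = d y x
  d_tri : ∀ x y z, d x z ≤ d x y + d y z
  cn : ∀ y z, ∃ m, ∀ x, d x m ^ 2 ≤ (d x y ^ 2 + d x z ^ 2) / 2 - d y z ^ 2 / 4

namespace CN

variable {E : Type*} (X : CN E)

theorem d_nonneg (x y : E) : 0 ≤ X.d x y := by
  have := X.d_tri x y x
  rw [X.d_self, X.d_comm y x] at this
  linarith

/-- The quadrilateral inequality. -/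
theorem quad (x y z w : E) :
    X.d x z ^ 2 + X.d y w ^ 2 ≤ X.d x y ^ 2 + X.d y z ^ 2 + X.d z w ^ 2 + X.d w x ^ 2 := by
  obtain ⟨m, hm⟩ := X.cn y w
  have h1 := hm x
  have h2 := hm z
  have h3 := X.d_tri x m z
  rw [X.d_comm m z] at h3
  have h4 : X.d x z ^ 2 ≤ (X.d x m + X.d z m) ^ 2 :=
    pow_le_pow_left₀ (X.d_nonneg _ _) h3 2
  rw [X.d_comm y z, X.d_comm w x]
  nlinarith [sq_nonneg (X.d x m - X.d z m)]

theorem quad_abs (y y' p q : E) :
    |(X.d y q ^ 2 - X.d y' q ^ 2) - (X.d y p ^ 2 - X.d y' p ^ 2)| ≤ X.d y y' ^ 2 + X.d p q ^ 2 := by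
  have h1 := X.quad y y' q p
  have h2 := X.quad y y' p q
  rw [X.d_comm q p, X.d_comm p y] at h1
  rw [X.d_comm q y] at h2
  rw [abs_le]
  constructor <;> linarith

variable {G : Type*} [Group G] [MulAction G E]

/-- Minimal displacement. -/
noncomputable def L (g : G) : ℝ := ⨅ x : E, X.d x (g • x)

theorem L_le (g : G) (x : E) : X.L g ≤ X.d x (g • x) :=
  ciInf_le ⟨0, by rintro _ ⟨y, rfl⟩; exact X.d_nonneg _ _⟩ x

theorem le_L [Nonempty E] {g : G} {c : ℝ} (h : ∀ x, c ≤ X.d x (g • x)) : c ≤ X.L g :=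
  le_ciInf h

theorem L_nonneg [Nonempty E] (g : G) : 0 ≤ X.L g := X.le_L fun _ => X.d_nonneg _ _

variable {X}
variable (hinv : ∀ (g : G) (x y : E), X.d (g • x) (g • y) = X.d x y)
include hinv

theorem L_inv [Nonempty E] (g : G) : X.L g⁻¹ = X.L g := by
  unfold L
  congr 1
  funext x
  rw [← hinv g x, smul_inv_smul, X.d_comm]

theorem d_pow_le (g : G) (x : E) (N : ℕ) : X.d x (g ^ N • x) ≤ N * X.d x (g • x) := by
  induction N with
  | zero => simp [X.d_self]
  | succ N ih =>
    have h := X.d_tri x (g ^ N • x) (g ^ (N + 1) • x)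
    rw [pow_succ, mul_smul, hinv] at h
    rw [pow_succ, mul_smul]
    push_cast
    linarith

theorem d_pow_le' (g : G) (x y : E) (N : ℕ) :
    X.d x (g ^ N • x) ≤ 2 * X.d x y + N * X.d y (g • y) := by
  have h1 := X.d_tri x y (g ^ N • x)
  have h2 := X.d_tri y (g ^ N • y) (g ^ N • x)
  have h3 := d_pow_le hinv g y N
  rw [hinv, X.d_comm y x] at h2
  linarith

theorem two_L_le [Nonempty E] (g : G) : 2 * X.L g ≤ X.L (g ^ 2) := by
  refine X.le_L fun x => ?_
  obtain ⟨m, hm⟩ := X.cn x (g • x)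
  have h1 := hm (g • m)
  have h2 := hm x
  have h3 := hm (g⁻¹ • x)
  rw [hinv] at h1
  rw [X.d_self] at h2
  have e1 : X.d (g⁻¹ • x) m = X.d (g • m) x := by
    rw [← hinv g, smul_inv_smul, X.d_comm]
  have e2 : X.d (g⁻¹ • x) x = X.d x (g • x) := by rw [← hinv g, smul_inv_smul]
  have e3 : X.d (g⁻¹ • x) (g • x) = X.d x (g ^ 2 • x) := by
    rw [← hinv g, smul_inv_smul, pow_two, mul_smul]
  rw [e1, e2, e3] at h3
  rw [X.d_comm m x] at h1
  have h4 : X.d (g • m) m ^ 2 ≤ (X.d x (g ^ 2 • x) / 2) ^ 2 := by nlinarith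
  have h5 : X.d (g • m) m ≤ X.d x (g ^ 2 • x) / 2 :=
    (pow_le_pow_iff_left₀ (X.d_nonneg _ _) (by have := X.d_nonneg x (g ^ 2 • x); linarith)
      two_ne_zero).1 h4
  have h6 := X.L_le g m
  rw [X.d_comm] at h6
  linarith

theorem two_pow_L_le [Nonempty E] (g : G) (k : ℕ) : 2 ^ k * X.L g ≤ X.L (g ^ 2 ^ k) := by
  induction k with
  | zero => simp
  | succ k ih =>
    have := two_L_le hinv (g ^ 2 ^ k)
    rw [← pow_mul, ← pow_succ] at this
    rw [pow_succ]
    linarith

theorem mul_L_le [Nonempty E] (g : G) (x : E) (N : ℕ) : N * X.L g ≤ X.d x (g ^ N • x) := by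
  rcases Nat.eq_zero_or_pos N with rfl | hN
  · simp [X.d_self]
  have hN' : (0 : ℝ) < N := by exact_mod_cast hN
  have key : ∀ k : ℕ, N * X.L g ≤ X.d x (g ^ N • x) + N * N * X.d x (g • x) * (1 / 2) ^ k := by
    intro k
    have h1 := (two_pow_L_le hinv g k).trans (X.L_le _ x)
    have hdiv := Nat.div_add_mod (2 ^ k) N
    have hr : 2 ^ k % N < N := Nat.mod_lt _ hN
    set q := 2 ^ k / N
    set r := 2 ^ k % N
    have h2 := X.d_tri x ((g ^ N) ^ q • x) (g ^ 2 ^ k • x)
    have h3 : X.d ((g ^ N) ^ q • x) (g ^ 2 ^ k • x) = X.d x (g ^ r • x) := by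
      rw [← hdiv, pow_add, pow_mul, mul_smul, hinv]
    have h4 := d_pow_le hinv (g ^ N) x q
    have h5 := d_pow_le hinv g x r
    have hq : (N : ℝ) * q ≤ 2 ^ k := by
      have : N * q ≤ 2 ^ k := by omega
      exact_mod_cast this
    have hr' : (r : ℝ) ≤ N := by exact_mod_cast hr.le
    have d1 := X.d_nonneg x (g • x)
    have dN := X.d_nonneg x (g ^ N • x)
    have h6 : 2 ^ k * X.L g ≤ q * X.d x (g ^ N • x) + N * X.d x (g • x) := by nlinarith
    have h2k : (0 : ℝ) < 2 ^ k := by positivity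
    have h7 : 2 ^ k * (N * X.L g) ≤ 2 ^ k * X.d x (g ^ N • x) + N * N * X.d x (g • x) := by
      nlinarith
    have h8 : (1 / 2 : ℝ) ^ k = 1 / 2 ^ k := by rw [one_div_pow]
    rw [h8, ← sub_nonneg]
    have : X.d x (g ^ N • x) + N * N * X.d x (g • x) * (1 / 2 ^ k) - N * X.L g =
        (2 ^ k * X.d x (g ^ N • x) + N * N * X.d x (g • x) - 2 ^ k * (N * X.L g)) / 2 ^ k := by
      field_simp
    rw [this]
    exact div_nonneg (by linarith) h2k.le
  have ht : Tendsto (fun k : ℕ => X.d x (g ^ N • x) + N * N * X.d x (g • x) * (1 / 2 : ℝ) ^ k)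
      atTop (𝓝 (X.d x (g ^ N • x) + N * N * X.d x (g • x) * 0)) :=
    tendsto_const_nhds.add (tendsto_const_nhds.mul
      (tendsto_pow_atTop_nhds_zero_of_lt_one (by norm_num) (by norm_num)))
  simpa using ge_of_tendsto' ht key

theorem L_pow [Nonempty E] (g : G) (N : ℕ) : X.L (g ^ N) = N * X.L g := by
  refine le_antisymm ?_ (X.le_L fun x => mul_L_le hinv g x N)
  rcases Nat.eq_zero_or_pos N with rfl | hN
  · obtain ⟨x⟩ := ‹Nonempty E›
    simpa [X.d_self] using X.L_le (1 : G) x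
  have hN' : (0 : ℝ) < N := by exact_mod_cast hN
  rw [mul_comm, ← div_le_iff₀ hN']
  refine X.le_L fun x => ?_
  rw [div_le_iff₀ hN', mul_comm]
  exact (X.L_le _ x).trans (d_pow_le hinv g x N)

theorem tendsto_L [Nonempty E] (g : G) (x : E) :
    Tendsto (fun N : ℕ => X.d x (g ^ N • x) / N) atTop (𝓝 (X.L g)) := by
  rw [tendsto_order]
  constructor
  · intro c hc
    filter_upwards [eventually_gt_atTop 0] with N hN
    have hN' : (0 : ℝ) < N := by exact_mod_cast hN
    rw [lt_div_iff₀ hN']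
    have := mul_L_le hinv g x N
    nlinarith
  · intro c hc
    obtain ⟨y, hy⟩ := exists_lt_of_ciInf_lt hc
    have ht : Tendsto (fun N : ℕ => 2 * X.d x y / N + X.d y (g • y)) atTop
        (𝓝 (0 + X.d y (g • y))) :=
      (tendsto_const_div_atTop_nhds_zero_nat _).add tendsto_const_nhds
    rw [zero_add] at ht
    filter_upwards [eventually_gt_atTop 0, ht.eventually_lt_const hy] with N hN h
    have hN' : (0 : ℝ) < N := by exact_mod_cast hN
    refine lt_of_le_of_lt ?_ h
    rw [div_le_iff₀ hN', add_mul, div_mul_cancel₀ _ hN'.ne', mul_comm _ (N : ℝ)]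
    exact d_pow_le' hinv g x y N

theorem para_le [Nonempty E] {g h : G} (hc : Commute g h) :
    X.L (g * h) ^ 2 + X.L (g⁻¹ * h) ^ 2 ≤ 2 * X.L g ^ 2 + 2 * X.L h ^ 2 := by
  obtain ⟨x⟩ := ‹Nonempty E›
  have t1 := ((tendsto_L hinv (g * h) x).pow 2).add ((tendsto_L hinv (g⁻¹ * h) x).pow 2)
  have t2 := (((tendsto_L hinv g x).pow 2).const_mul 2).add
    (((tendsto_L hinv h x).pow 2).const_mul 2)
  refine le_of_tendsto_of_tendsto' t1 t2 fun N => ?_
  have hq := X.quad x (g ^ N • x) ((g * h) ^ N • x) (h ^ N • x)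
  have e1 : X.d (g ^ N • x) (h ^ N • x) = X.d x ((g⁻¹ * h) ^ N • x) := by
    rw [hc.inv_left.mul_pow, mul_smul, inv_pow, ← hinv (g ^ N) x, smul_inv_smul]
  have e2 : X.d (g ^ N • x) ((g * h) ^ N • x) = X.d x (h ^ N • x) := by
    rw [hc.mul_pow, mul_smul, hinv]
  have e3 : X.d ((g * h) ^ N • x) (h ^ N • x) = X.d x (g ^ N • x) := by
    rw [hc.eq, hc.symm.mul_pow, mul_smul, hinv, X.d_comm]
  rw [e1, e2, e3, X.d_comm (h ^ N • x) x] at hq
  simp only [div_pow]
  have hN : (0 : ℝ) ≤ (N : ℝ) ^ 2 := by positivity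
  rw [← add_div, ← mul_div_assoc, ← mul_div_assoc, ← add_div]
  exact div_le_div_of_nonneg_right (by linarith) hN

theorem para_eq [Nonempty E] {g h : G} (hc : Commute g h) :
    X.L (g * h) ^ 2 + X.L (g⁻¹ * h) ^ 2 = 2 * X.L g ^ 2 + 2 * X.L h ^ 2 := by
  refine le_antisymm (para_le hinv hc) ?_
  have hc' : Commute (g * h) (g⁻¹ * h) :=
    ((Commute.refl g).inv_right.mul_right hc).mul_left (hc.symm.inv_right.mul_right (Commute.refl h))
  have := para_le hinv hc'
  have e1 : g * h * (g⁻¹ * h) = h ^ 2 := by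
    rw [hc.eq, pow_two]; group
  have e2 : (g * h)⁻¹ * (g⁻¹ * h) = (g ^ 2)⁻¹ := by
    have : g⁻¹ * h = h * g⁻¹ := hc.inv_left.eq
    rw [mul_inv_rev, mul_assoc, this, ← mul_assoc g⁻¹, this, pow_two]; group
  rw [e1, e2, L_inv hinv, L_pow hinv, L_pow hinv] at this
  push_cast at this
  nlinarith

end CN

/-- Bounded real sequences. -/
def bddSeq : AddSubgroup (ℕ → ℝ) where
  carrier := {u | ∃ C : ℝ, ∀ N, |u N| ≤ C}
  zero_mem' := ⟨0, by simp⟩
  add_mem' := by
    rintro u v ⟨C, hC⟩ ⟨D, hD⟩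
    exact ⟨C + D, fun N => (abs_add_le _ _).trans (add_le_add (hC N) (hD N))⟩
  neg_mem' := by
    rintro u ⟨C, hC⟩
    exact ⟨C, fun N => by simpa using hC N⟩

namespace CN

variable {E : Type*} {X : CN E} {G : Type*} [Group G] [MulAction G E]

/-- The horofunction cocycle. -/
def horo (X : CN E) (c : G) (x : E) (g : G) : ℕ → ℝ :=
  fun N => X.d (g • x) (c ^ N • x) ^ 2 - X.d x (c ^ N • x) ^ 2

variable (hinv : ∀ (g : G) (x y : E), X.d (g • x) (g • y) = X.d x y)
include hinv

/-- The horofunction cocycle is a homomorphism on the centraliser, modulo bounded sequences. -/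
noncomputable def horoHom (c : G) (x : E) :
    Subgroup.centralizer ({c} : Set G) →* Multiplicative ((ℕ → ℝ) ⧸ bddSeq) :=
  MonoidHom.mk' (fun g => Multiplicative.ofAdd (QuotientAddGroup.mk (X.horo c x g))) (by
    rintro ⟨g, hg⟩ ⟨h, -⟩
    have hgc : Commute c g := Subgroup.mem_centralizer_singleton_iff.1 hg |>.symm
    rw [← ofAdd_add, ← QuotientAddGroup.mk_add]
    congr 1
    rw [QuotientAddGroup.eq]
    refine ⟨X.d (h • x) x ^ 2 + X.d x (g⁻¹ • x) ^ 2, fun N => ?_⟩
    have h1 := X.quad_abs (h • x) x (c ^ N • x) (c ^ N • g⁻¹ • x)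
    have e0 : g • c ^ N • g⁻¹ • x = c ^ N • x := by
      rw [← mul_smul, ← (hgc.pow_left N).eq, mul_smul, smul_inv_smul]
    have e1 : X.d (h • x) (c ^ N • g⁻¹ • x) = X.d ((g * h) • x) (c ^ N • x) := by
      rw [← hinv g, e0, mul_smul]
    have e2 : X.d x (c ^ N • g⁻¹ • x) = X.d (g • x) (c ^ N • x) := by
      rw [← hinv g, e0]
    rw [e1, e2, hinv] at h1
    rw [← abs_neg]
    convert h1 using 2
    simp only [horo, Subgroup.coe_mul, Pi.add_apply, Pi.neg_apply]
    ring)

theorem horo_frequently [Nonempty E] (c : G) (x : E) {ε : ℝ} (hε : 0 < ε) :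
    ∃ᶠ N : ℕ in atTop, (2 * X.L c ^ 2 - ε) * N ≤ |X.horo c x c N| := by
  by_contra hcon
  rw [not_frequently, eventually_atTop] at hcon
  obtain ⟨N₀, hN₀⟩ := hcon
  set a : ℕ → ℝ := fun N => X.d x (c ^ N • x) ^ 2 with ha
  set κ := 2 * X.L c ^ 2 - ε with hκ
  have hstep : ∀ N, N₀ ≤ N → a (N + 1) ≤ a N + κ * (N + 1) := by
    intro N hN
    have h := hN₀ (N + 1) (by omega)
    have e : X.horo c x c (N + 1) = a N - a (N + 1) := by
      simp only [horo, ha]
      rw [pow_succ' c N, mul_smul, hinv]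
    rw [e, not_le] at h
    have := neg_abs_le (a N - a (N + 1))
    push_cast at h
    linarith
  have hsum : ∀ M, N₀ ≤ M → a M ≤ a N₀ - κ * (N₀ * (N₀ + 1) / 2) + κ * (M * (M + 1) / 2) := by
    intro M hM
    induction M, hM using Nat.le_induction with
    | base => simp
    | succ M hM ih =>
      have := hstep M hM
      push_cast
      nlinarith
  have hlow : ∀ M : ℕ, (M : ℝ) ^ 2 * X.L c ^ 2 ≤ a M := by
    intro M
    rw [← mul_pow]
    exact pow_le_pow_left₀ (mul_nonneg (Nat.cast_nonneg _) (X.L_nonneg c)) (mul_L_le hinv c x M) 2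
  set C := a N₀ - κ * (N₀ * (N₀ + 1) / 2)
  obtain ⟨M, hM⟩ := exists_nat_gt (max (N₀ : ℝ) (max 1 (2 * (|C| + |κ|) / ε)))
  have hM1 : (N₀ : ℝ) < M := (le_max_left _ _).trans_lt hM
  have hM2 : (1 : ℝ) < M := ((le_max_left _ _).trans (le_max_right _ _)).trans_lt hM
  have hM3 : 2 * (|C| + |κ|) / ε < M := ((le_max_right _ _).trans (le_max_right _ _)).trans_lt hM
  rw [div_lt_iff₀ hε] at hM3
  have h1 := hsum M (by exact_mod_cast hM1.le)
  have h2 := hlow M
  have h3 : (M : ℝ) ^ 2 * X.L c ^ 2 = M ^ 2 * (κ + ε) / 2 := by rw [hκ]; ring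
  have h4 := le_abs_self C
  have h5 := le_abs_self κ
  have h6 := abs_nonneg C
  have h7 := abs_nonneg κ
  nlinarith

theorem birkhoff [Nonempty E] {c z : G}
    (hz : z ∈ ⁅Subgroup.centralizer ({c} : Set G), Subgroup.centralizer ({c} : Set G)⁆) (m : ℤ) :
    |(m : ℝ)| * X.L c ≤ X.L (c ^ m * z) := by
  obtain ⟨x⟩ := ‹Nonempty E›
  rw [← Subgroup.map_subtype_commutator] at hz
  obtain ⟨z', hz', rfl⟩ := hz
  have hz1 : horoHom hinv c x z' = 1 := Abelianization.commutator_subset_ker _ hz'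
  have hcc : c ∈ Subgroup.centralizer ({c} : Set G) := Subgroup.mem_centralizer_singleton_iff.2 rfl
  set w : G := c ^ m * (z' : G) with hw
  have key : ∀ k : ℕ, |(m : ℝ)| * k * X.L c ^ 2 ≤ X.d x (w ^ k • x) * X.L c := by
    intro k
    have h1 : horoHom hinv c x (((⟨c, hcc⟩ : Subgroup.centralizer ({c} : Set G)) ^ m * z') ^ k) =
        horoHom hinv c x ⟨c, hcc⟩ ^ (m * k) := by
      rw [map_pow, map_mul, hz1, mul_one, map_zpow, ← zpow_natCast, ← zpow_mul]
    have h2 : (QuotientAddGroup.mk (X.horo c x (w ^ k)) : (ℕ → ℝ) ⧸ bddSeq) =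
        QuotientAddGroup.mk ((m * k : ℤ) • X.horo c x c) := by
      rw [QuotientAddGroup.mk_zsmul]
      have := congrArg Multiplicative.toAdd h1
      rw [toAdd_zpow] at this
      exact this
    rw [QuotientAddGroup.eq] at h2
    obtain ⟨C, hC⟩ := h2
    set D := X.d x (w ^ k • x) with hD
    have hD0 : 0 ≤ D := X.d_nonneg _ _
    have hb : ∀ N, |X.horo c x (w ^ k) N| ≤ D * (2 * X.d x (c ^ N • x) + D) := by
      intro N
      have t1 := X.d_tri (w ^ k • x) x (c ^ N • x)
      have t2 := X.d_tri x (w ^ k • x) (c ^ N • x)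
      rw [X.d_comm (w ^ k • x) x] at t1
      have n1 := X.d_nonneg (w ^ k • x) (c ^ N • x)
      have n2 := X.d_nonneg x (c ^ N • x)
      simp only [horo]
      rw [abs_le]
      constructor <;> nlinarith
    have hε : ∀ ε : ℝ, 0 < ε → |(m : ℝ)| * k * (2 * X.L c ^ 2 - ε) ≤ D * (2 * X.L c) := by
      intro ε hε
      have ht : Tendsto (fun N : ℕ => D * (2 * (X.d x (c ^ N • x) / N)) + (D * D + C) / N) atTop
          (𝓝 (D * (2 * X.L c) + 0)) :=
        (((tendsto_L hinv c x).const_mul 2).const_mul D).add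
          (tendsto_const_div_atTop_nhds_zero_nat _)
      rw [add_zero] at ht
      refine isClosed_Ici.mem_of_frequently_of_tendsto ?_ ht
      refine ((horo_frequently hinv c x hε).and_eventually (eventually_gt_atTop 0)).mono ?_
      rintro N ⟨h3, hN⟩
      have hN' : (0 : ℝ) < N := by exact_mod_cast hN
      have h4 := hC N
      have h5 := hb N
      rw [Pi.add_apply, Pi.neg_apply, Pi.smul_apply, zsmul_eq_mul] at h4
      have h6 : |((m * k : ℤ) : ℝ) * X.horo c x c N| ≤ D * (2 * X.d x (c ^ N • x) + D) + C := by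
        have := abs_add_le (-X.horo c x (w ^ k) N + ((m * k : ℤ) : ℝ) * X.horo c x c N)
          (X.horo c x (w ^ k) N)
        rw [neg_add_cancel_comm] at this
        linarith
      rw [abs_mul] at h6
      push_cast at h6
      rw [abs_mul, Nat.abs_cast] at h6
      have h7 : |(m : ℝ)| * k * ((2 * X.L c ^ 2 - ε) * N) ≤ |(m : ℝ)| * k * |X.horo c x c N| :=
        mul_le_mul_of_nonneg_left h3 (by positivity)
      rw [Set.mem_Ici]
      have e : D * (2 * (X.d x (c ^ N • x) / N)) + (D * D + C) / N =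
          (D * (2 * X.d x (c ^ N • x) + D) + C) / N := by field_simp; ring
      rw [e, le_div_iff₀ hN']
      linarith
    have ht : Tendsto (fun ε : ℝ => |(m : ℝ)| * k * (2 * X.L c ^ 2 - ε)) (𝓝[>] 0)
        (𝓝 (|(m : ℝ)| * k * (2 * X.L c ^ 2 - 0))) :=
      (Continuous.tendsto (by fun_prop) 0).mono_left nhdsWithin_le_nhds
    have := le_of_tendsto ht (eventually_mem_nhdsWithin.mono fun ε h => hε ε h)
    linarith
  have ht : Tendsto (fun k : ℕ => X.d x (w ^ k • x) / k * X.L c) atTop (𝓝 (X.L w * X.L c)) :=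
    (tendsto_L hinv w x).mul_const _
  have h2 : |(m : ℝ)| * X.L c ^ 2 ≤ X.L w * X.L c := by
    refine ge_of_tendsto ht ?_
    filter_upwards [eventually_gt_atTop 0] with k hk
    have hk' : (0 : ℝ) < k := by exact_mod_cast hk
    rw [div_mul_eq_mul_div, le_div_iff₀ hk']
    have := key k
    linarith
  rcases (X.L_nonneg c).eq_or_lt with h0 | h0
  · rw [← h0, mul_zero]; exact X.L_nonneg _
  · have : |(m : ℝ)| * X.L c * X.L c ≤ X.L w * X.L c := by nlinarith
    exact le_of_mul_le_mul_right this h0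

/-- Pythagoras: an element of the commutator subgroup of the centraliser of `c` is orthogonal
to `c`. -/
theorem pyth [Nonempty E] {c z : G}
    (hz : z ∈ ⁅Subgroup.centralizer ({c} : Set G), Subgroup.centralizer ({c} : Set G)⁆) (m : ℤ) :
    X.L (c ^ m * z) ^ 2 = X.L z ^ 2 + (m : ℝ) ^ 2 * X.L c ^ 2 := by
  have hzc : Commute c z :=
    (Subgroup.mem_centralizer_singleton_iff.1 (Subgroup.commutator_le_self _ hz)).symm
  set q : ℤ → ℝ := fun m => X.L (c ^ m * z) ^ 2 with hq
  set C := X.L c ^ 2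
  have hrec : ∀ m : ℤ, q (m + 1) + q (m - 1) = 2 * C + 2 * q m := by
    intro m
    have := para_eq hinv (((Commute.refl c).zpow_right m).mul_right hzc)
    rw [← mul_assoc, ← mul_assoc, ← zpow_one_add, ← zpow_neg_one, ← zpow_add, add_comm 1 m,
      add_comm (-1) m, ← sub_eq_add_neg] at this
    exact this
  set b := q 1 - q 0 - C with hb
  have hform : ∀ m : ℤ, q m = q 0 + m * b + m ^ 2 * C ∧
      q (m + 1) = q 0 + (m + 1) * b + (m + 1) ^ 2 * C := by
    intro m
    induction m using Int.induction_on with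
    | zero => exact ⟨by simp, by rw [hb, zero_add]; push_cast; ring⟩
    | succ i ih =>
      have := hrec (i + 1)
      rw [add_sub_cancel_right] at this
      push_cast at ih ⊢
      exact ⟨ih.2, by rw [ih.1, ih.2] at this; linarith⟩
    | pred i ih =>
      have := hrec (-i)
      push_cast at ih ⊢
      refine ⟨by rw [ih.1, ih.2] at this; linarith, ?_⟩
      rw [sub_add_cancel, ih.1]; ring
  have hge : ∀ m : ℤ, 0 ≤ q 0 + m * b := by
    intro m
    have h1 := birkhoff hinv hz m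
    have h2 : (|(m : ℝ)| * X.L c) ^ 2 ≤ q m :=
      pow_le_pow_left₀ (mul_nonneg (abs_nonneg _) (X.L_nonneg c)) h1 2
    rw [mul_pow, sq_abs, (hform m).1] at h2
    linarith
  have hb0 : b = 0 := by
    by_contra hne
    obtain ⟨n, hn⟩ := exists_nat_gt (q 0 / |b|)
    rw [div_lt_iff₀ (abs_pos.2 hne)] at hn
    have h1 := hge n
    have h2 := hge (-n)
    push_cast at h1 h2
    rcases abs_cases b with h | h <;> rw [h.1] at hn <;> linarith
  have := (hform m).1
  rw [hb0] at this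
  simp only [hq, zpow_zero, one_mul, mul_zero, add_zero] at this
  exact this

/-- The obstruction: `a` is a product of commutators in the centraliser of `f`, and `a ^ n * f`
(`n ≠ 0`) is a product of commutators in the centraliser of `a`; then `a` has no positive lower
bound on its displacement. -/
theorem obstruction [Nonempty E] {a f : G} {n : ℤ} (hn : n ≠ 0)
    (ha : a ∈ ⁅Subgroup.centralizer ({f} : Set G), Subgroup.centralizer ({f} : Set G)⁆)
    (hz : a ^ n * f ∈ ⁅Subgroup.centralizer ({a} : Set G), Subgroup.centralizer ({a} : Set G)⁆)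
    {δ : ℝ} (hδ : 0 < δ) (hd : ∀ x, δ ≤ X.d x (a • x)) : False := by
  have haf : Commute f a :=
    (Subgroup.mem_centralizer_singleton_iff.1 (Subgroup.commutator_le_self _ ha)).symm
  have h1 := pyth hinv (Subgroup.zpow_mem _ ha n) 1
  have h2 := pyth hinv hz (-n)
  rw [← mul_assoc, ← zpow_add, neg_add_cancel, zpow_zero, one_mul] at h2
  rw [zpow_one, (haf.zpow_right n).eq] at h1
  have h3 : δ ≤ X.L a := X.le_L hd
  have h4 : (1 : ℝ) ≤ (n : ℝ) ^ 2 := by
    have : (1 : ℤ) ≤ n ^ 2 := by have := sq_pos_of_ne_zero hn; omega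
    exact_mod_cast this
  push_cast at h1 h2
  nlinarith [sq_nonneg (X.L (a ^ n))]

end CN

end Crest.Agent.R244
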