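import Mathlib

/-!
# R244, part T: deck transformations of a simply connected covering, and the block relation
-/

set_option autoImplicit false
set_option linter.unusedSectionVars false

open Filter Topology Set
open scoped commutatorElement

namespace Crest.Agent.R244

variable {Y M : Type*} [TopologicalSpace Y] [TopologicalSpace M]

/-- The deck group of `p`. -/
def Deck (p : Y → M) : Subgroup (Equiv.Perm Y) where
  carrier := {T | Continuous T ∧ Continuous T.symm ∧ ∀ x, p (T x) = p x}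
  one_mem' := ⟨continuous_id, continuous_id, fun _ => rfl⟩
  mul_mem' := by
    rintro S T ⟨h1, h2, h3⟩ ⟨h4, h5, h6⟩
    exact ⟨h1.comp h4, h5.comp h2, fun x => (h3 _).trans (h6 x)⟩
  inv_mem' := by
    rintro T ⟨h1, h2, h3⟩
    refine ⟨h2, h1, fun x => ?_⟩
    have := h3 (T.symm x)
    rw [Equiv.apply_symm_apply] at this
    exact this.symm

variable {p : Y → M}

theorem deck_cont (T : Deck p) : Continuous fun x : Y => T • x := T.2.1

theorem deck_proj (T : Deck p) (x : Y) : p (T • x) = p x := T.2.2.2 x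

theorem deck_ext [PreconnectedSpace Y] (hp : IsCoveringMap p) {S T : Deck p} {x : Y}
    (h : S • x = T • x) : S = T := by
  have := hp.eq_of_comp_eq (deck_cont S) (deck_cont T)
    (funext fun y => (deck_proj S y).trans (deck_proj T y).symm) x h
  exact Subtype.ext (Equiv.ext fun y => congrFun this y)

theorem exists_deck [SimplyConnectedSpace Y] [LocallyPathConnectedSpace Y] (hp : IsCoveringMap p)
    {x y : Y} (h : p y = p x) : ∃ T : Deck p, T • x = y := by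
  obtain ⟨F, ⟨hF0, hF⟩, -⟩ := hp.existsUnique_continuousMap_lifts ⟨p, hp.continuous⟩ x y h
  obtain ⟨F', ⟨hF0', hF'⟩, -⟩ := hp.existsUnique_continuousMap_lifts ⟨p, hp.continuous⟩ y x h.symm
  have e : ∀ z, p (F z) = p z := fun z => congrFun hF z
  have e' : ∀ z, p (F' z) = p z := fun z => congrFun hF' z
  have h1 : F' ∘ F = id := hp.eq_of_comp_eq (F'.continuous.comp F.continuous) continuous_id
    (funext fun z => (e' _).trans (e z)) x (by simp [hF0, hF0'])
  have h2 : F ∘ F' = id := hp.eq_of_comp_eq (F.continuous.comp F'.continuous) continuous_id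
    (funext fun z => (e _).trans (e' z)) y (by simp [hF0, hF0'])
  exact ⟨⟨⟨F, F', fun z => congrFun h1 z, fun z => congrFun h2 z⟩, F.continuous, F'.continuous, e⟩,
    hF0⟩

theorem exists_deck_rel [SimplyConnectedSpace Y] [LocallyPathConnectedSpace Y]
    (hp : IsCoveringMap p) {A : Type*} [TopologicalSpace A] [PreconnectedSpace A] [Nonempty A]
    {u v : A → Y} (hu : Continuous u) (hv : Continuous v) (h : ∀ a, p (u a) = p (v a)) :
    ∃ T : Deck p, ∀ a, u a = T • v a := by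
  obtain ⟨a₀⟩ := ‹Nonempty A›
  obtain ⟨T, hT⟩ := exists_deck hp (h a₀)
  refine ⟨T, fun a => congrFun (hp.eq_of_comp_eq hu ((deck_cont T).comp hv)
    (funext fun a => (h a).trans (deck_proj T _).symm) a₀ hT.symm) a⟩

/-- The relation of a block (punctured torus) × (circle): the boundary loop `C` is a commutator of
two elements commuting with the fibre `F`. -/
theorem block_rel [SimplyConnectedSpace Y] [LocallyPathConnectedSpace Y] (hp : IsCoveringMap p)
    {Ψ : ℝ → ℝ → Y} (hΨ : Continuous fun q : ℝ × ℝ => Ψ q.1 q.2) {F C : Deck p}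
    (hF : ∀ z θ, Ψ (z + 1) θ = F • Ψ z θ) (hC : ∀ z θ, Ψ z (θ + 1) = C • Ψ z θ)
    (h1 : ∀ z θ, |θ| ≤ 1 / 8 → p (Ψ z θ) = p (Ψ z (1 / 2 - θ)))
    (h2 : ∀ z θ, 1 / 8 ≤ θ → θ ≤ 3 / 8 → p (Ψ z θ) = p (Ψ z (-θ))) :
    C ∈ ⁅Subgroup.centralizer ({F} : Set (Deck p)), Subgroup.centralizer ({F} : Set (Deck p))⁆ := by
  have : PreconnectedSpace (Icc (-(1 / 8) : ℝ) (1 / 8)) :=
    Subtype.preconnectedSpace isPreconnected_Icc
  have : PreconnectedSpace (Icc (1 / 8 : ℝ) (3 / 8)) :=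
    Subtype.preconnectedSpace isPreconnected_Icc
  have : Nonempty (Icc (-(1 / 8) : ℝ) (1 / 8)) := ⟨⟨0, by norm_num, by norm_num⟩⟩
  have : Nonempty (Icc (1 / 8 : ℝ) (3 / 8)) := ⟨⟨1 / 8, by norm_num, by norm_num⟩⟩
  obtain ⟨s, hs⟩ := exists_deck_rel hp (A := ℝ × Icc (-(1 / 8) : ℝ) (1 / 8))
    (u := fun q => Ψ q.1 q.2) (v := fun q => Ψ q.1 (1 / 2 - q.2))
    (hΨ.comp (f := fun q : ℝ × Icc (-(1 / 8) : ℝ) (1 / 8) => (q.1, (q.2 : ℝ))) (by fun_prop))
    (hΨ.comp (f := fun q : ℝ × Icc (-(1 / 8) : ℝ) (1 / 8) => (q.1, 1 / 2 - (q.2 : ℝ)))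
      (by fun_prop))
    (fun q => h1 _ _ (abs_le.2 q.2.2))
  obtain ⟨t, ht⟩ := exists_deck_rel hp (A := ℝ × Icc (1 / 8 : ℝ) (3 / 8))
    (u := fun q => Ψ q.1 q.2) (v := fun q => Ψ q.1 (-q.2))
    (hΨ.comp (f := fun q : ℝ × Icc (1 / 8 : ℝ) (3 / 8) => (q.1, (q.2 : ℝ))) (by fun_prop))
    (hΨ.comp (f := fun q : ℝ × Icc (1 / 8 : ℝ) (3 / 8) => (q.1, -(q.2 : ℝ))) (by fun_prop))
    (fun q => h2 _ _ q.2.2.1 q.2.2.2)
  have hs' : ∀ z θ : ℝ, -(1 / 8) ≤ θ → θ ≤ 1 / 8 → Ψ z θ = s • Ψ z (1 / 2 - θ) :=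
    fun z θ a b => hs (z, ⟨θ, a, b⟩)
  have ht' : ∀ z θ : ℝ, 1 / 8 ≤ θ → θ ≤ 3 / 8 → Ψ z θ = t • Ψ z (-θ) :=
    fun z θ a b => ht (z, ⟨θ, a, b⟩)
  have hsF : s * F = F * s := by
    refine deck_ext hp (x := Ψ 0 (1 / 2 - 0)) ?_
    rw [mul_smul, mul_smul, ← hF, ← hs' _ _ (by norm_num) (by norm_num),
      ← hs' _ _ (by norm_num) (by norm_num), hF]
  have htF : t * F = F * t := by
    refine deck_ext hp (x := Ψ 0 (-(1 / 8))) ?_
    rw [mul_smul, mul_smul, ← hF, ← ht' _ _ (by norm_num) (by norm_num),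
      ← ht' _ _ (by norm_num) (by norm_num), hF]
  have e1 := hs' 0 (1 / 8) (by norm_num) (by norm_num)
  have e2 := hs' 0 (-(1 / 8)) (by norm_num) (by norm_num)
  have e3 := ht' 0 (1 / 8) (by norm_num) (by norm_num)
  have e4 := ht' 0 (3 / 8) (by norm_num) (by norm_num)
  have e5 := hC 0 (-(3 / 8))
  rw [show (1 / 2 - 1 / 8 : ℝ) = 3 / 8 by norm_num] at e1
  rw [show (1 / 2 - -(1 / 8) : ℝ) = -(3 / 8) + 1 by norm_num, e5] at e2
  have e6 : t * s * C = s * t := by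
    refine deck_ext hp (x := Ψ 0 (-(3 / 8))) ?_
    rw [mul_smul, mul_smul, mul_smul, ← e2, ← e3, ← e4, ← e1]
  have e7 : C = ⁅s⁻¹, t⁻¹⁆ := by
    rw [commutatorElement_def, inv_inv, inv_inv, mul_assoc, ← e6]; group
  rw [e7]
  exact Subgroup.commutator_mem_commutator
    (Subgroup.inv_mem _ (Subgroup.mem_centralizer_singleton_iff.2 hsF))
    (Subgroup.inv_mem _ (Subgroup.mem_centralizer_singleton_iff.2 htF))

/-- Continuous logarithm on a simply connected space. -/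
theorem exists_log [SimplyConnectedSpace Y] [LocallyPathConnectedSpace Y] {f : Y → ℂ}
    (hf : Continuous f) (h0 : ∀ y, f y ≠ 0) :
    ∃ L : Y → ℂ, Continuous L ∧ ∀ y, Complex.exp (L y) = f y := by
  obtain ⟨y₀⟩ : Nonempty Y := inferInstance
  obtain ⟨F, ⟨-, hF⟩, -⟩ := Complex.isCoveringMapOn_exp.existsUnique_continuousMap_lifts
    ⟨f, hf⟩ (a₀ := y₀) (e₀ := Complex.log (f y₀)) (Complex.exp_log (h0 y₀)) h0
  exact ⟨F, F.continuous, fun y => congrFun hF y⟩

theorem const_of_exp_const {g : ℝ → ℂ} (hg : Continuous g)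
    (h : ∀ s t, Complex.exp (g s) = Complex.exp (g t)) (s t : ℝ) : g s = g t :=
  Complex.isCoveringMap_exp.const_of_comp hg (fun a b => Subtype.ext (h a b)) s t

end Crest.Agent.R244
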