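import Crest.Agent.R244.Defs

/-!
# R244, part T: the theta-type function used to show that the fibre loop is not contractible
-/

set_option autoImplicit false

noncomputable section

open Filter Topology Set Real

namespace Crest.Agent.R244

/-- the piece of the theta function over `|u - k| ≤ 1/2` -/
def thp (k : ℤ) (q : ℝ × ℝ × ℂ × ℂ) : ℂ :=
  Complex.exp (π * k * (1 + 2 * q.2.1) * Complex.I) *
    (q.2.2.2 * ((2 * (q.1 - k) * cos (π * q.2.1) : ℝ) + (sin (π * q.2.1) : ℝ) * Complex.I) +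
      q.2.2.1 * (cos (π * (q.1 - k)) * cos (π * q.2.1) : ℝ))

/-- the theta function of `(u, w, a₁, a₂)` -/
def th (q : ℝ × ℝ × ℂ × ℂ) : ℂ := thp (round q.1) q

theorem thp_cont (k : ℤ) : Continuous (thp k) := by
  unfold thp
  fun_prop

theorem thp_match (k : ℤ) (q : ℝ × ℝ × ℂ × ℂ) (h : q.1 = k + 1 / 2) : thp k q = thp (k + 1) q := by
  obtain ⟨u, w, a1, a2⟩ := q
  simp only at h
  subst h
  simp only [thp]
  have e1 : (k : ℝ) + 1 / 2 - k = 1 / 2 := by ring
  have e2 : (k : ℝ) + 1 / 2 - ((k + 1 : ℤ) : ℝ) = -(1 / 2) := by push_cast; ring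
  rw [e1, e2, show π * (1 / 2) = π / 2 by ring, show π * -(1 / 2) = -(π / 2) by ring, cos_neg,
    cos_pi_div_two]
  have e3 : Complex.exp (π * ((k + 1 : ℤ) : ℂ) * (1 + 2 * w) * Complex.I) =
      -(Complex.exp (π * k * (1 + 2 * w) * Complex.I) *
        (((cos (π * w) : ℝ) + (sin (π * w) : ℝ) * Complex.I) ^ 2)) := by
    have : ((cos (π * w) : ℝ) + (sin (π * w) : ℝ) * Complex.I) =
        Complex.exp ((π * w : ℝ) * Complex.I) := by
      rw [Complex.exp_mul_I]; push_cast; ring
    rw [this, ← Complex.exp_nat_mul, ← Complex.exp_add, ← Complex.exp_add_pi_mul_I]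
    congr 1
    push_cast
    ring
  rw [e3]
  have e4 : ((cos (π * w) : ℝ) : ℂ) ^ 2 + ((sin (π * w) : ℝ) : ℂ) ^ 2 = 1 := by
    exact_mod_cast cos_sq_add_sin_sq (π * w)
  generalize cos (π * w) = c at *
  generalize sin (π * w) = s at *
  generalize Complex.exp (π * k * (1 + 2 * w) * Complex.I) = K
  push_cast
  linear_combination (-(K * a2 * (c + s * Complex.I))) * e4 +
    (K * a2 * (c + s * Complex.I) * s ^ 2) * Complex.I_sq

theorem th_cont : Continuous th := by
  rw [continuous_iff_continuousAt]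
  intro q₀
  set k : ℤ := ⌊q₀.1⌋ with hk
  have hc : Continuous fun q : ℝ × ℝ × ℂ × ℂ =>
      if q.1 ≤ (k : ℝ) + 1 / 2 then thp k q else thp (k + 1) q :=
    (thp_cont k).if_le (thp_cont (k + 1)) continuous_fst continuous_const (thp_match k)
  refine hc.continuousAt.congr ?_
  have h1 : (k : ℝ) - 1 / 2 < q₀.1 := by have := Int.floor_le q₀.1; linarith
  have h2 : q₀.1 < (k : ℝ) + 3 / 2 := by have := Int.lt_floor_add_one q₀.1; linarith
  filter_upwards [continuous_fst.continuousAt.eventually (Ioo_mem_nhds h1 h2)] with q hq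
  unfold th
  rcases lt_trichotomy q.1 ((k : ℝ) + 1 / 2) with h | h | h
  · have : round q.1 = k := by
      rw [round_eq, Int.floor_eq_iff]; constructor <;> linarith [hq.1]
    rw [if_pos h.le, this]
  · have : round q.1 = k + 1 := by
      rw [round_eq, Int.floor_eq_iff]; push_cast; constructor <;> linarith
    rw [if_pos h.le, this, thp_match k q h]
  · have : round q.1 = k + 1 := by
      rw [round_eq, Int.floor_eq_iff]; push_cast; constructor <;> linarith [hq.2]
    rw [if_neg (not_le.2 h), this]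

theorem ee_ne_zero (x : ℝ) : ee x ≠ 0 := Complex.exp_ne_zero _

theorem ee_eq (x : ℝ) : ee x = (cos (2 * π * x) : ℝ) + (sin (2 * π * x) : ℝ) * Complex.I := by
  unfold ee
  rw [show (2 * π * x * Complex.I : ℂ) = ((2 * π * x : ℝ) : ℂ) * Complex.I by push_cast; ring,
    Complex.exp_mul_I]
  push_cast
  ring

theorem ee_add (x y : ℝ) : ee (x + y) = ee x * ee y := by
  unfold ee
  rw [← Complex.exp_add]
  congr 1
  push_cast
  ring

theorem ee_int (k : ℤ) : ee k = 1 := by
  unfold ee
  rw [← Complex.exp_int_mul_two_pi_mul_I k]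
  congr 1
  push_cast
  ring

theorem ee_re (x : ℝ) : (ee x).re = cos (2 * π * x) := by
  rw [ee_eq]; simp [-Complex.ofReal_cos, -Complex.ofReal_sin]

theorem ee_im (x : ℝ) : (ee x).im = sin (2 * π * x) := by
  rw [ee_eq]; simp [-Complex.ofReal_cos, -Complex.ofReal_sin]

theorem sin_two_pi_pos {x : ℝ} (h0 : 0 < x) (h1 : x < 1 / 2) : 0 < sin (2 * π * x) :=
  sin_pos_of_pos_of_lt_pi (by positivity) (by nlinarith [pi_pos])

theorem sin_two_pi_neg {x : ℝ} (h0 : x < 0) (h1 : -(1 / 2) < x) : sin (2 * π * x) < 0 := by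
  have := sin_two_pi_pos (x := -x) (by linarith) (by linarith)
  rw [mul_neg, sin_neg] at this
  linarith

theorem shift_ne_zero {a b x : ℝ} (ha : 0 ≤ a) (hb : 0 < b) (hx : |x| < 1 / 2) :
    (a : ℂ) * ee x + b ≠ 0 := by
  intro h
  have h1 := congrArg Complex.re h
  have h2 := congrArg Complex.im h
  simp only [Complex.add_re, Complex.add_im, Complex.re_ofReal_mul, Complex.im_ofReal_mul, ee_re,
    ee_im, Complex.ofReal_re, Complex.ofReal_im, Complex.zero_re, Complex.zero_im, add_zero] at h1 h2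
  rw [abs_lt] at hx
  rcases ha.eq_or_lt with rfl | ha
  · linarith
  have h3 : sin (2 * π * x) = 0 := (mul_eq_zero.1 h2).resolve_left ha.ne'
  rcases lt_trichotomy x 0 with h | rfl | h
  · linarith [sin_two_pi_neg h hx.1]
  · simp at h1; linarith
  · linarith [sin_two_pi_pos h hx.2]

/-- the phase of `a e(x) + b` lies between `0` and `x` (mod 1); only the sign is recorded -/
theorem phase_sign {a b x r u : ℝ} (ha : 0 ≤ a) (hb : 0 < b) (hx : |x| < 1 / 2) (hr : 0 < r)
    (h : (r : ℂ) * ee u = a * ee x + b) :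
    |u - round u| < 1 / 2 ∧ 0 ≤ a * x * (u - round u) := by
  set s := u - round u with hs
  have hu : ee u = ee s := by
    rw [show u = s + (round u : ℤ) by rw [hs]; ring, ee_add, ee_int, mul_one]
  rw [hu] at h
  have h1 := congrArg Complex.re h
  have h2 := congrArg Complex.im h
  simp only [Complex.add_re, Complex.add_im, Complex.re_ofReal_mul, Complex.im_ofReal_mul, ee_re,
    ee_im, Complex.ofReal_re, Complex.ofReal_im, add_zero] at h1 h2
  have hs1 : |s| ≤ 1 / 2 := abs_sub_round u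
  rw [abs_lt] at hx
  have hs2 : |s| < 1 / 2 := by
    refine lt_of_le_of_ne hs1 fun he => ?_
    have hc : cos (2 * π * s) = -1 ∧ sin (2 * π * s) = 0 := by
      rcases abs_eq (by norm_num : (0 : ℝ) ≤ 1 / 2) |>.1 he with h | h <;> rw [h]
      · rw [show 2 * π * (1 / 2) = π by ring]; simp
      · rw [show 2 * π * (-(1 / 2)) = -π by ring]; simp
    rw [hc.1] at h1
    rw [hc.2, mul_zero] at h2
    rcases ha.eq_or_lt with rfl | ha
    · linarith
    have h3 : sin (2 * π * x) = 0 := (mul_eq_zero.1 h2.symm).resolve_left ha.ne'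
    rcases lt_trichotomy x 0 with h | rfl | h
    · linarith [sin_two_pi_neg h hx.1]
    · simp at h1; linarith
    · linarith [sin_two_pi_pos h hx.2]
  refine ⟨hs2, ?_⟩
  rw [abs_lt] at hs2
  rcases lt_trichotomy x 0 with hx0 | rfl | hx0
  · have h4 := sin_two_pi_neg hx0 hx.1
    have : s ≤ 0 := by
      by_contra hc
      have := sin_two_pi_pos (not_le.1 hc) hs2.2
      nlinarith [mul_pos hr this, mul_nonneg ha (neg_nonneg.2 h4.le)]
    nlinarith [mul_nonneg ha (mul_nonneg_of_nonpos_of_nonpos hx0.le this)]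
  · simp
  · have h4 := sin_two_pi_pos hx0 hx.2
    have : 0 ≤ s := by
      by_contra hc
      have := sin_two_pi_neg (not_le.1 hc) hs2.1
      nlinarith [mul_pos hr (neg_pos.2 this), mul_nonneg ha h4.le]
    positivity

theorem cos_pi_pos {s : ℝ} (h : |s| < 1 / 2) : 0 < cos (π * s) := by
  rw [abs_lt] at h
  exact cos_pos_of_mem_Ioo ⟨by nlinarith [pi_pos], by nlinarith [pi_pos]⟩

theorem mul_sin_pi_nonneg {s c : ℝ} (h : |s| < 1 / 2) (hc : 0 ≤ c * s) : 0 ≤ c * sin (π * s) := by
  rw [abs_lt] at h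
  rcases lt_trichotomy s 0 with hs | rfl | hs
  · have h1 : sin (π * s) < 0 := sin_neg_of_neg_of_neg_pi_lt (by nlinarith [pi_pos])
      (by nlinarith [pi_pos])
    have : c ≤ 0 := by by_contra hh; nlinarith [mul_pos (not_le.1 hh) (neg_pos.2 hs)]
    exact mul_nonneg_of_nonpos_of_nonpos this h1.le
  · simp
  · have h1 : 0 < sin (π * s) := sin_pos_of_pos_of_lt_pi (by positivity) (by nlinarith [pi_pos])
    have : 0 ≤ c := by by_contra hh; nlinarith [mul_pos (neg_pos.2 (not_le.1 hh)) hs]
    positivity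

/-- non-vanishing over the neck and the left block -/
theorem th_ne_zero_neck {u w a b ξ ζ : ℝ} (hb : 0 < b) (hu : |u - round u| < 1 / 2)
    (hw : |w - round w| < 1 / 2) (hu' : 0 ≤ a * cos (2 * π * (ξ - ζ)) * (u - round u))
    (hw' : 0 ≤ a * sin (2 * π * (ξ - ζ)) * (w - round w)) :
    th (u, w, b * ee ξ, a * ee ζ) ≠ 0 := by
  unfold th thp
  refine mul_ne_zero (Complex.exp_ne_zero _) fun h => ?_
  simp only at h
  set s := u - round u
  set t := w - round w with ht
  have e0 : π * w = π * t + (round w : ℤ) * π := by rw [ht]; ring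
  rw [e0, cos_add_int_mul_pi, sin_add_int_mul_pi] at h
  have hε : ((-1 : ℝ) ^ (round w)) ≠ 0 := zpow_ne_zero _ (by norm_num)
  generalize ((-1 : ℝ) ^ (round w)) = ε at h hε
  have e1 : ee ζ = ee ξ * ee (-(ξ - ζ)) := by rw [← ee_add]; congr 1; ring
  have h1 : (a : ℂ) * ee (-(ξ - ζ)) * ((2 * s * cos (π * t) : ℝ) + (sin (π * t) : ℝ) * Complex.I) +
      (b * (cos (π * s) * cos (π * t)) : ℝ) = 0 := by
    have hε' : (ε : ℂ) ≠ 0 := by exact_mod_cast hε
    apply mul_left_cancel₀ (mul_ne_zero hε' (ee_ne_zero ξ))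
    rw [mul_zero, ← h, e1]
    push_cast
    ring
  have h2 := congrArg Complex.re h1
  simp only [Complex.add_re, Complex.mul_re, Complex.mul_im, Complex.add_im, Complex.ofReal_re,
    Complex.ofReal_im, ee_re, ee_im, Complex.I_re, Complex.I_im, Complex.zero_re, mul_neg, cos_neg,
    sin_neg] at h2
  have p1 := cos_pi_pos hu
  have p2 := cos_pi_pos hw
  have p3 := mul_sin_pi_nonneg hw hw'
  have p4 := mul_nonneg hu' p2.le
  have p5 := mul_pos hb (mul_pos p1 p2)
  nlinarith

/-- non-vanishing over the right block -/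
theorem th_ne_zero_right {u w : ℝ} {a₂ : ℂ} (ha : a₂ ≠ 0) (h : ¬ (ee u = 1 ∧ ee w = 1)) :
    th (u, w, 0, a₂) ≠ 0 := by
  unfold th thp
  refine mul_ne_zero (Complex.exp_ne_zero _) ?_
  simp only [zero_mul, add_zero]
  refine mul_ne_zero ha fun h0 => h ?_
  have h1 := congrArg Complex.re h0
  have h2 := congrArg Complex.im h0
  simp only [Complex.add_re, Complex.mul_re, Complex.mul_im, Complex.add_im, Complex.ofReal_re,
    Complex.ofReal_im, Complex.I_re, Complex.I_im, Complex.zero_re, Complex.zero_im] at h1 h2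
  have hs : sin (π * w) = 0 := by linarith
  have hc : cos (π * w) ≠ 0 := by
    intro hc
    have := cos_sq_add_sin_sq (π * w)
    rw [hs, hc] at this
    norm_num at this
  have hu : u = (round u : ℤ) := by
    have : 2 * (u - round u) * cos (π * w) = 0 := by linarith
    have := (mul_eq_zero.1 this).resolve_right hc
    linarith
  obtain ⟨m, hm⟩ := sin_eq_zero_iff.1 hs
  have hw : w = m := by
    have : π * w = π * m := by rw [← hm]; ring
    exact mul_left_cancel₀ pi_ne_zero this
  rw [hu, hw, ee_int, ee_int]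
  exact ⟨rfl, rfl⟩

theorem th_left (u w : ℝ) (a₁ : ℂ) : th (u, w, a₁, 0) = a₁ * th (u, w, 1, 0) := by
  unfold th thp
  simp only
  ring

end Crest.Agent.R244
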