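import Crest.Agent.R244.Iface
import Crest.Agent.R244.TAlg
import Crest.Agent.R244.TDeck
import Crest.Agent.R244.TWind

/-!
# R244, part T: the model has no simply connected cover with an invariant CN distance
-/

set_option autoImplicit false

noncomputable section

open Filter Topology Set Real

namespace Crest.Agent.R244

theorem exp_eq_mul_ee (L : ℂ) : Complex.exp L = (Real.exp L.re : ℝ) * ee (L.im / (2 * π)) := by
  unfold ee
  rw [Complex.ofReal_exp, ← Complex.exp_add]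
  congr 1
  have : (π : ℂ) ≠ 0 := by exact_mod_cast pi_ne_zero
  push_cast
  field_simp
  exact (Complex.re_add_im L).symm

theorem norm_ee (x : ℝ) : ‖ee x‖ = 1 := by
  unfold ee
  rw [show (2 * π * x * Complex.I : ℂ) = ((2 * π * x : ℝ) : ℂ) * Complex.I by push_cast; ring,
    Complex.norm_exp_ofReal_mul_I]

theorem ee_eq_of_mul {r a u x : ℝ} (hr : 0 < r) (ha : 0 < a) (h : (r : ℂ) * ee u = a * ee x) :
    ee u = ee x := by
  have h1 := congrArg norm h
  rw [norm_mul, norm_mul, norm_ee, norm_ee, Complex.norm_real, Complex.norm_real,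
    Real.norm_of_nonneg hr.le, Real.norm_of_nonneg ha.le, mul_one, mul_one] at h1
  rw [h1] at h
  exact mul_left_cancel₀ (by exact_mod_cast ha.ne') h

variable {M : Type} [TopologicalSpace M]

theorem TopData.shift_ne (T : TopData M) (x : M) :
    T.B1 x + (4 - T.κ x : ℝ) ≠ 0 ∧ T.B2 x + (4 - T.κ x : ℝ) ≠ 0 := by
  obtain ⟨ξ, ζ, x1, x2, h1, h2, -, -, h5, h6, -, h8⟩ := T.shape x
  rw [h5, h6]
  rcases h2.eq_or_lt with h | h
  · rw [h]
    norm_num
    exact ⟨ee_ne_zero _, ee_ne_zero _⟩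
  rcases h8 h with h | ⟨ρ, r0, r1, e1, e2⟩
  · rw [h]; norm_num
  · refine ⟨shift_ne_zero (by linarith) (by linarith) ?_, shift_ne_zero (by linarith) (by linarith) ?_⟩
    · rw [e1, abs_mul, abs_of_pos r0]
      nlinarith [abs_cos_le_one (2 * π * (ξ - ζ))]
    · rw [e2, abs_mul, abs_of_pos r0]
      nlinarith [abs_sin_le_one (2 * π * (ξ - ζ))]

theorem TopData.th_ne (T : TopData M) (x : M) {r1 r2 u w : ℝ} (h1 : 0 < r1) (h2 : 0 < r2)
    (hu : (r1 : ℂ) * ee u = T.B1 x + (4 - T.κ x : ℝ))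
    (hw : (r2 : ℂ) * ee w = T.B2 x + (4 - T.κ x : ℝ)) : th (u, w, T.A1 x, T.A2 x) ≠ 0 := by
  obtain ⟨ξ, ζ, x1, x2, k1, k2, h3, h4, h5, h6, h7, h8⟩ := T.shape x
  rw [h5] at hu
  rw [h6] at hw
  rw [h3, h4]
  rcases k2.eq_or_lt with h | h
  · have h7 := h7 h
    rw [h] at hu hw ⊢
    simp only [sub_self, Complex.ofReal_zero, add_zero, zero_mul] at hu hw ⊢
    refine th_ne_zero_right (mul_ne_zero (by norm_num) (ee_ne_zero _)) ?_
    rwa [ee_eq_of_mul h1 (by norm_num) hu, ee_eq_of_mul h2 (by norm_num) hw]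
  rcases h8 h with h' | ⟨ρ, r0, r1, e1, e2⟩
  · rw [h'] at hu hw ⊢
    have z : ((-1 + 1 : ℝ) : ℂ) * ee x1 = (0 : ℝ) * ee 0 := by norm_num
    have z' : ((-1 + 1 : ℝ) : ℂ) * ee x2 = (0 : ℝ) * ee 0 := by norm_num
    rw [z] at hu
    rw [z'] at hw
    have p1 := phase_sign le_rfl (by norm_num) (by norm_num) h1 hu
    have p2 := phase_sign le_rfl (by norm_num) (by norm_num) h2 hw
    exact th_ne_zero_neck (by norm_num) p1.1 p2.1 (by norm_num) (by norm_num)
  · have a1 : |x1| < 1 / 2 := by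
      rw [e1, abs_mul, abs_of_pos r0]
      nlinarith [abs_cos_le_one (2 * π * (ξ - ζ))]
    have a2 : |x2| < 1 / 2 := by
      rw [e2, abs_mul, abs_of_pos r0]
      nlinarith [abs_sin_le_one (2 * π * (ξ - ζ))]
    have p1 := phase_sign (by linarith) (by linarith) a1 h1 hu
    have p2 := phase_sign (by linarith) (by linarith) a2 h2 hw
    refine th_ne_zero_neck (by linarith) p1.1 p2.1 ?_ ?_
    · refine le_of_mul_le_mul_left ?_ r0
      rw [mul_zero]
      exact p1.2.trans_eq (by rw [e1]; ring)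
    · refine le_of_mul_le_mul_left ?_ r0
      rw [mul_zero]
      exact p2.2.trans_eq (by rw [e2]; ring)

/-- The fibre loop of the left block does not lift to a closed loop in a simply connected space. -/
theorem TopData.not_closed (T : TopData M) {Y : Type} [TopologicalSpace Y] [SimplyConnectedSpace Y]
    [LocallyPathConnectedSpace Y] {p : Y → M} (hp : Continuous p) {y : ℝ → Y} (hy : Continuous y)
    (hl : ∀ ξ, p (y ξ) = T.Φ (T.tL, ξ, 0)) : y 1 ≠ y 0 := by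
  intro hc
  have cκ := T.cκ
  have c1 := T.cB1
  have c2 := T.cB2
  have c3 := T.cA1
  have c4 := T.cA2
  obtain ⟨L1, hL1, e1⟩ := exists_log (f := fun z => T.B1 (p z) + (4 - T.κ (p z) : ℝ))
    (by fun_prop) fun z => (T.shift_ne _).1
  obtain ⟨L2, hL2, e2⟩ := exists_log (f := fun z => T.B2 (p z) + (4 - T.κ (p z) : ℝ))
    (by fun_prop) fun z => (T.shift_ne _).2
  obtain ⟨L, hL, e⟩ := exists_log
    (f := fun z => th ((L1 z).im / (2 * π), (L2 z).im / (2 * π), T.A1 (p z), T.A2 (p z)))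
    (th_cont.comp (by fun_prop)) fun z => T.th_ne _ (Real.exp_pos _) (Real.exp_pos _)
      (by rw [← exp_eq_mul_ee, e1]) (by rw [← exp_eq_mul_ee, e2])
  have hz : ∀ ξ, T.A2 (p (y ξ)) = 0 ∧ T.B1 (p (y ξ)) = 0 ∧ T.B2 (p (y ξ)) = 0 := by
    intro ξ
    obtain ⟨_, _, _, _, -, -, -, h4, h5, h6, -, -⟩ := T.shape (p (y ξ))
    rw [h4, h5, h6, hl, T.loopκ]
    norm_num
  have k1 : ∀ ξ, L1 (y ξ) = L1 (y 0) := fun ξ =>
    const_of_exp_const (g := fun ξ => L1 (y ξ)) (hL1.comp hy) (fun s t => by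
      rw [e1, e1, (hz s).2.1, (hz t).2.1, hl, hl, T.loopκ, T.loopκ]) ξ 0
  have k2 : ∀ ξ, L2 (y ξ) = L2 (y 0) := fun ξ =>
    const_of_exp_const (g := fun ξ => L2 (y ξ)) (hL2.comp hy) (fun s t => by
      rw [e2, e2, (hz s).2.2, (hz t).2.2, hl, hl, T.loopκ, T.loopκ]) ξ 0
  have k3 : ∀ ξ : ℝ, Complex.exp (L (y ξ) - 2 * π * ξ * Complex.I) =
      5 * th ((L1 (y 0)).im / (2 * π), (L2 (y 0)).im / (2 * π), 1, 0) := by
    intro ξ
    rw [Complex.exp_sub, e, k1, k2, (hz ξ).1, th_left, hl, T.loopA]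
    have := ee_ne_zero ξ
    unfold ee at this ⊢
    field_simp
  have k4 := const_of_exp_const (g := fun ξ : ℝ => L (y ξ) - 2 * π * ξ * Complex.I)
    (by fun_prop) (fun s t => by rw [k3, k3]) 1 0
  simp only [hc, Complex.ofReal_one, Complex.ofReal_zero, mul_one, mul_zero, zero_mul, sub_zero,
    sub_eq_self] at k4
  exact Complex.two_pi_I_ne_zero k4

theorem no_cn : TStmt := by
  rintro M _ T ⟨p, d, hp, hsurj, d0, dc, dt, hcn, hinv, ρ, hρ, hdisc⟩
  let X : CN (E 3) := ⟨d, d0, dc, dt, hcn⟩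
  obtain ⟨y₀, hy₀⟩ := hsurj (T.Φ 0)
  obtain ⟨F, ⟨-, hF⟩, -⟩ := hp.existsUnique_continuousMap_lifts ⟨T.Φ, T.cont⟩ 0 y₀ hy₀
  have hF' : ∀ q, p (F q) = T.Φ q := fun q => congrFun hF q
  obtain ⟨a, ha⟩ := exists_deck_rel hp (A := ℝ × ℝ × ℝ) (u := fun q => F (q.1, q.2.1 + 1, q.2.2))
    (v := F) (by fun_prop) F.continuous (fun q => by rw [hF', hF', T.per1])
  obtain ⟨b, hb⟩ := exists_deck_rel hp (A := ℝ × ℝ × ℝ) (u := fun q => F (q.1, q.2.1, q.2.2 + 1))
    (v := F) (by fun_prop) F.continuous (fun q => by rw [hF', hF', T.per2])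
  have ha' : ∀ r ξ ζ, F (r, ξ + 1, ζ) = a • F (r, ξ, ζ) := fun r ξ ζ => ha (r, ξ, ζ)
  have hb' : ∀ r ξ ζ, F (r, ξ, ζ + 1) = b • F (r, ξ, ζ) := fun r ξ ζ => hb (r, ξ, ζ)
  have hL := block_rel hp (Ψ := fun z θ => F (T.tL, z, θ)) (F := a) (C := b) (by fun_prop)
    (fun z θ => ha' _ _ _) (fun z θ => hb' _ _ _)
    (fun z θ h => by rw [hF', hF', T.L1 z θ h])
    (fun z θ h h' => by rw [hF', hF', T.L2 z θ h h'])
  have hR := block_rel hp (Ψ := fun z θ => F (T.tR, z + θ, z)) (F := a * b) (C := a) (by fun_prop)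
    (fun z θ => by rw [add_right_comm, ha', hb', mul_smul])
    (fun z θ => by rw [← add_assoc, ha'])
    (fun z θ h => by rw [hF', hF', T.R1 z θ h])
    (fun z θ h h' => by rw [hF', hF', T.R2 z θ h h'])
  have hne : ∀ x : E 3, x ≠ a • x := by
    intro x hx
    have h1 : a = 1 := deck_ext hp (x := x) (by rw [← hx, one_smul])
    refine T.not_closed hp.continuous (y := fun ξ => F (T.tL, ξ, 0)) (by fun_prop)
      (fun ξ => hF' _) ?_
    have := ha' T.tL 0 0
    rwa [zero_add, h1, one_smul] at this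
  refine CN.obstruction (X := X) (G := Deck p) (a := a) (f := a * b) (n := -1)
    (fun g x y => hinv _ (deck_cont g) (funext (deck_proj g)) x y) (by norm_num) hR ?_ hρ
    fun x => hdisc _ _ (deck_proj a x).symm (hne x)
  rwa [zpow_neg_one, inv_mul_cancel_left]

end Crest.Agent.R244
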